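import Vale.Agent.P066.Z.Spec

/-!
# P066: the average and Z act on the graded pieces of `N / t N`

Module F1: existence and uniqueness of the pair `(p, z)` of `IsAct`, and the trace formula.
-/

noncomputable section

namespace Vale.Agent.P066.Z

open Finset MvPolynomial

variable {n : ℕ}

theorem mem_Deg {f : Fn n} {d : ℕ} : f ∈ Deg d ↔ ∀ w, (f w).IsHomogeneous d := by
  simp [Deg, Submodule.mem_pi]

theorem mem_part {N : Submodule (P n) (Fn n)} {d : ℕ} {f : Fn n} :
    f ∈ part N d ↔ f ∈ N ∧ f ∈ Deg d := Iff.rfl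

instance part_finite (N : Submodule (P n) (Fn n)) (d : ℕ) : Module.Finite ℚ (part N d) := by
  have : Module.Finite ℚ (homogeneousSubmodule (Fin n) ℚ d) :=
    Module.Finite.iff_fg.2 (homogeneousSubmodule_fg _ _ d)
  let ι : part N d →ₗ[ℚ] (Equiv.Perm (Fin n) → homogeneousSubmodule (Fin n) ℚ d) :=
    LinearMap.pi fun w => (((LinearMap.proj w : Fn n →ₗ[ℚ] P n).comp (part N d).subtype)).codRestrict
      _ fun f => mem_Deg.1 f.2.2 w
  refine Module.Finite.of_injective ι fun f g hfg => Subtype.ext (funext fun w => ?_)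
  exact congrArg Subtype.val (congrFun hfg w)

instance W_finite (N : Submodule (P n) (Fn n)) (d : ℕ) : Module.Finite ℚ (W N d) := inferInstance

/-! ### The dot action and its average -/

theorem dot_apply (σ w : Equiv.Perm (Fin n)) (f : Fn n) : dot σ f w = rename σ (f (σ⁻¹ * w)) := rfl

theorem dot_mul (σ τ : Equiv.Perm (Fin n)) (f : Fn n) : dot σ (dot τ f) = dot (σ * τ) f := by
  funext w
  rw [dot_apply, dot_apply, dot_apply, rename_rename, ← Equiv.Perm.coe_mul, mul_inv_rev, mul_assoc]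

theorem dot_smul (σ : Equiv.Perm (Fin n)) (c : P n) (f : Fn n) :
    dot σ (c • f) = rename σ c • dot σ f := by
  funext w
  simp [dot_apply]

theorem dot_mem_Deg (σ : Equiv.Perm (Fin n)) {f : Fn n} {d : ℕ} (hf : f ∈ Deg d) :
    dot σ f ∈ Deg d :=
  mem_Deg.2 fun w => (mem_Deg.1 hf _).rename_isHomogeneous

theorem avg_apply (f : Fn n) : avg f = (n.factorial : ℚ)⁻¹ • ∑ σ, dot σ f := by
  simp [avg, LinearMap.sum_apply]

theorem dot_avg (σ : Equiv.Perm (Fin n)) (f : Fn n) : dot σ (avg f) = avg f := by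
  rw [avg_apply, map_smul, map_sum]
  simp only [dot_mul]
  exact congrArg _ (Equiv.sum_comp (Equiv.mulLeft σ) fun τ => dot τ f)

theorem avg_avg (f : Fn n) : avg (avg f) = avg f := by
  rw [avg_apply (avg f)]
  simp only [dot_avg, Finset.sum_const, Finset.card_univ, Fintype.card_perm, Fintype.card_fin]
  rw [← Nat.cast_smul_eq_nsmul ℚ, inv_smul_smul₀]
  exact_mod_cast n.factorial_ne_zero

theorem avg_mem {S : Submodule ℚ (Fn n)} (hS : ∀ σ, ∀ f ∈ S, dot σ f ∈ S) {f : Fn n} (hf : f ∈ S) :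
    avg f ∈ S := by
  rw [avg_apply]
  exact S.smul_mem _ (S.sum_mem fun σ _ => hS σ f hf)

theorem dot_mem_M {h : Fin n → Fin n} (σ : Equiv.Perm (Fin n)) {f : Fn n} (hf : f ∈ M h) :
    dot σ f ∈ M h := by
  intro w i j hij
  have := map_dvd (rename σ) (hf (σ⁻¹ * w) i j hij)
  simpa [dot_apply, mul_assoc] using this

theorem mem_Msym {h : Fin n → Fin n} {i i' : Fin n} {f : Fn n} :
    f ∈ Msym h i i' ↔ f ∈ M h ∧ ∀ w, f (w * Equiv.swap i i') = f w := by
  simp [Msym, sub_eq_zero, funext_iff, slotSwap]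

theorem dot_mem_Msym {h : Fin n → Fin n} {i i' : Fin n} (σ : Equiv.Perm (Fin n)) {f : Fn n}
    (hf : f ∈ Msym h i i') : dot σ f ∈ Msym h i i' := by
  rw [mem_Msym] at hf ⊢
  exact ⟨dot_mem_M σ hf.1, fun w => by rw [dot_apply, dot_apply, ← mul_assoc, hf.2]⟩

/-! ### The correspondence -/

variable [NeZero n] {h : Fin n → Fin n}

theorem zRel_unique {f g g' : Fn n} (hg : ZRel h f g) (hg' : ZRel h f g') : g = g' := by
  funext w
  have hw : algebraMap (P n) (K n) (g w) = algebraMap (P n) (K n) (g' w) := by rw [hg w, hg' w]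
  exact FaithfulSMul.algebraMap_injective (P n) (K n) hw

theorem zRel_add {f f' g g' : Fn n} (hg : ZRel h f g) (hg' : ZRel h f' g') :
    ZRel h (f + f') (g + g') := fun w => by
  simp only [Pi.add_apply, map_add, hg w, hg' w]

theorem zRel_smul (c : P n) {f g : Fn n} (hg : ZRel h f g) : ZRel h (c • f) (c • g) := fun w => by
  rw [map_smul, Pi.smul_apply, Pi.smul_apply, smul_eq_mul, map_mul, hg w, Algebra.smul_def]

theorem zRel_qsmul (c : ℚ) {f g : Fn n} (hg : ZRel h f g) : ZRel h (c • f) (c • g) := by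
  simpa only [← algebraMap_smul (P n) c] using zRel_smul (algebraMap ℚ (P n) c) hg

/-- `N` is stable under the dot action and under Z, degree by degree. -/
structure Stable (h : Fin n → Fin n) (N : Submodule (P n) (Fn n)) : Prop where
  dot : ∀ σ, ∀ f ∈ N, dot σ f ∈ N
  exists_z : ∀ f ∈ N, ∃ g ∈ N, ZRel h f g ∧ ∀ d, f ∈ Deg d → g ∈ Deg d

theorem Stable.ofM (hD : ExistsStmt) (hh : IsHess h) : Stable h (M h) :=
  ⟨fun σ _ hf => dot_mem_M σ hf, hD n h hh⟩

theorem Stable.ofMsym (hD : ExistsStmt) (hS : SymStmt) (hh : IsHess h) {i i' : Fin n}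
    (ht : Twins h i i') : Stable h (Msym h i i') := by
  refine ⟨fun σ _ hf => dot_mem_Msym σ hf, fun f hf => ?_⟩
  obtain ⟨g, hg, hfg, hdeg⟩ := hD n h hh f (mem_Msym.1 hf).1
  exact ⟨g, hS n h i i' hh ht f g hf hg hfg, hfg, hdeg⟩

variable {N : Submodule (P n) (Fn n)} {d : ℕ}

theorem Stable.dot_mem_part (S : Stable h N) (σ : Equiv.Perm (Fin n)) {f : Fn n}
    (hf : f ∈ part N d) : Z.dot σ f ∈ part N d :=
  ⟨S.dot σ f hf.1, dot_mem_Deg σ hf.2⟩

theorem Stable.avg_mem_part (S : Stable h N) {f : Fn n} (hf : f ∈ part N d) :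
    avg f ∈ part N d :=
  avg_mem (fun σ _ hg => S.dot_mem_part σ hg) hf

theorem Stable.dot_mem_tpart (S : Stable h N) (σ : Equiv.Perm (Fin n)) {f : Fn n}
    (hf : f ∈ tpart N d) : Z.dot σ f ∈ tpart N d := by
  cases d with
  | zero =>
    obtain rfl := (Submodule.mem_bot ℚ).1 hf
    simp
  | succ d =>
    induction hf using Submodule.iSup_induction' with
    | mem j g hg =>
      obtain ⟨a, ha, rfl⟩ := hg
      refine Submodule.mem_iSup_of_mem (σ j) ⟨_, S.dot_mem_part σ ha, ?_⟩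
      show (X (σ j) : P n) • Z.dot σ a = Z.dot σ ((X j : P n) • a)
      rw [dot_smul, rename_X]
    | zero => simp
    | add x y _ _ hx hy => rw [map_add]; exact add_mem hx hy

theorem Stable.z_mem_tpart (S : Stable h N) {f g : Fn n} (hf : f ∈ tpart N d) (hg : ZRel h f g) :
    g ∈ tpart N d := by
  suffices H : ∃ g' ∈ tpart N d, ZRel h f g' by
    obtain ⟨g', hg', hfg'⟩ := H
    exact zRel_unique hg hfg' ▸ hg'
  clear hg g
  cases d with
  | zero =>
    obtain rfl := (Submodule.mem_bot ℚ).1 hf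
    exact ⟨0, zero_mem _, fun w => by simp⟩
  | succ d =>
    induction hf using Submodule.iSup_induction' with
    | mem j g hg =>
      obtain ⟨a, ha, rfl⟩ := hg
      obtain ⟨b, hb, hab, hdeg⟩ := S.exists_z a ha.1
      exact ⟨(X j : P n) • b, Submodule.mem_iSup_of_mem j ⟨b, ⟨hb, hdeg d ha.2⟩, rfl⟩,
        zRel_smul _ hab⟩
    | zero => exact ⟨0, zero_mem _, fun w => by simp⟩
    | add x y _ _ hx hy =>
      obtain ⟨a, ha, hxa⟩ := hx
      obtain ⟨b, hb, hyb⟩ := hy
      exact ⟨a + b, add_mem ha hb, zRel_add hxa hyb⟩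

/-- There is an action. -/
theorem Stable.exists_act (S : Stable h N) (d : ℕ) :
    ∃ p z : Module.End ℚ (W N d), IsAct h N d p z := by
  let A : part N d →ₗ[ℚ] part N d :=
    (avg.comp (part N d).subtype).codRestrict (part N d) fun f => S.avg_mem_part f.2
  have hA : (tpart N d).comap (part N d).subtype ≤
      ((tpart N d).comap (part N d).subtype).comap A := fun f hf =>
    avg_mem (fun σ _ hg => S.dot_mem_tpart σ hg) hf
  have hz : ∀ f : part N d, ∃ g : part N d, ZRel h (f : Fn n) g := fun f => by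
    obtain ⟨g, hg, hfg, hdeg⟩ := S.exists_z f f.2.1
    exact ⟨⟨g, hg, hdeg d f.2.2⟩, hfg⟩
  choose zf hzf using hz
  let B : part N d →ₗ[ℚ] part N d :=
    { toFun := zf
      map_add' := fun a b => Subtype.ext (zRel_unique (hzf _) (zRel_add (hzf a) (hzf b)))
      map_smul' := fun c a => Subtype.ext (zRel_unique (hzf _) (zRel_qsmul c (hzf a))) }
  have hB : (tpart N d).comap (part N d).subtype ≤
      ((tpart N d).comap (part N d).subtype).comap B := fun f hf =>
    S.z_mem_tpart hf (hzf f)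
  refine ⟨Submodule.mapQ _ _ A hA, Submodule.mapQ _ _ B hB, fun f g hfg => ?_, fun f g hfg => ?_⟩
  · rw [Submodule.mapQ_apply]
    exact congrArg _ (Subtype.ext hfg)
  · rw [Submodule.mapQ_apply]
    exact congrArg _ (Subtype.ext (zRel_unique (hzf f) hfg))

variable {p z p' z' : Module.End ℚ (W N d)}

theorem IsAct.p_mk (hA : IsAct h N d p z) (S : Stable h N) (f : part N d) :
    p (Submodule.Quotient.mk f) = Submodule.Quotient.mk ⟨avg (f : Fn n), S.avg_mem_part f.2⟩ :=
  hA.1 f ⟨_, S.avg_mem_part f.2⟩ rfl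

/-- The average induces an idempotent. -/
theorem IsAct.idem (S : Stable h N) (hA : IsAct h N d p z) : p * p = p := by
  refine LinearMap.ext fun x => ?_
  obtain ⟨f, rfl⟩ := Submodule.Quotient.mk_surjective _ x
  rw [Module.End.mul_apply, hA.p_mk S, hA.p_mk S]
  exact congrArg _ (Subtype.ext (avg_avg _))

/-- The action is unique. -/
theorem IsAct.unique (S : Stable h N) (hA : IsAct h N d p z) (hA' : IsAct h N d p' z') :
    p = p' ∧ z = z' := by
  constructor <;> refine LinearMap.ext fun x => ?_ <;>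
    obtain ⟨f, rfl⟩ := Submodule.Quotient.mk_surjective _ x
  · rw [hA.p_mk S, hA'.p_mk S]
  · obtain ⟨g, hg, hfg, hdeg⟩ := S.exists_z f f.2.1
    exact (hA.2 f ⟨g, hg, hdeg d f.2.2⟩ hfg).trans (hA'.2 f ⟨g, hg, hdeg d f.2.2⟩ hfg).symm

/-- The trace functional, computed from any action. -/
theorem IsAct.phi_eq (S : Stable h N) (hA : IsAct h N d p z) (a : FreeAlgebra ℚ ℕ) :
    phi h N d a = LinearMap.trace ℚ (W N d) (p * evW p z a) := by
  have hh : ∃ pz : Module.End ℚ (W N d) × Module.End ℚ (W N d), IsAct h N d pz.1 pz.2 :=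
    ⟨(p, z), hA⟩
  obtain ⟨h1, h2⟩ := IsAct.unique S hh.choose_spec hA
  rw [phi, dif_pos hh, h1, h2]

theorem IsAct.evW_iota_zero (S : Stable h N) (hA : IsAct h N d p z) :
    evW p z (FreeAlgebra.ι ℚ 0) = p := by
  rw [evW, FreeAlgebra.lift_ι_apply, pow_zero, mul_one, hA.idem S]

/-- For a multiple of the generator `0` the trace needs no further average. -/
theorem IsAct.phi_iota_zero_mul (S : Stable h N) (hA : IsAct h N d p z) (x : FreeAlgebra ℚ ℕ) :
    phi h N d (FreeAlgebra.ι ℚ 0 * x) =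
      LinearMap.trace ℚ (W N d) (evW p z (FreeAlgebra.ι ℚ 0 * x)) := by
  rw [hA.phi_eq S, map_mul (evW p z), hA.evW_iota_zero S, ← mul_assoc, hA.idem S]

end Vale.Agent.P066.Z
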