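import Mathlib
import Vale.Agent.P066.Defs

/-!
# P066: the correspondence Z on GKM functions of regular semisimple Hessenberg varieties

`w : Equiv.Perm (Fin n)` sends slots to labels; label 0 is the marked one.
-/

noncomputable section

namespace Vale.Agent.P066.Z

open Finset MvPolynomial

variable {n : ℕ}

/-- Coefficient ring. -/
abbrev P (n : ℕ) := MvPolynomial (Fin n) ℚ

/-- Its field of fractions. -/
abbrev K (n : ℕ) := FractionRing (P n)

/-- Functions on fixed points. -/
abbrev Fn (n : ℕ) := Equiv.Perm (Fin n) → P n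

/-- GKM condition. -/
def M (h : Fin n → Fin n) : Submodule (P n) (Fn n) where
  carrier := {f | ∀ w i j, Adj h i j → X (w i) - X (w j) ∣ f w - f (w * Equiv.swap i j)}
  add_mem' := by
    intro f g hf hg w i j hij
    have := dvd_add (hf w i j hij) (hg w i j hij)
    simpa [add_sub_add_comm] using this
  zero_mem' := by intro w i j hij; simp
  smul_mem' := by
    intro c f hf w i j hij
    simpa [mul_sub] using (hf w i j hij).mul_left c

/-- The dot action. -/
def dot (σ : Equiv.Perm (Fin n)) : Fn n →ₗ[ℚ] Fn n where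
  toFun f w := rename σ (f (σ⁻¹ * w))
  map_add' f g := by funext w; simp
  map_smul' c f := by funext w; simp

/-- The average of the dot action. -/
def avg : Fn n →ₗ[ℚ] Fn n := (n.factorial : ℚ)⁻¹ • ∑ σ, dot σ

/-- Every prefix label set of `w`, label 0 removed, lies in that of `v`. -/
def Compat [NeZero n] (w v : Equiv.Perm (Fin n)) : Prop :=
  ∀ m i : Fin n, i ≤ m → w i ≠ 0 → ∃ j, j ≤ m ∧ v j = w i

/-- The edges of the graph. -/
def edges (h : Fin n → Fin n) : Finset (Fin n × Fin n) := univ.filter fun e => Adj h e.1 e.2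

/-- A variable in the fraction field. -/
def tK (a : Fin n) : K n := algebraMap (P n) (K n) (X a)

/-- The coefficient of the correspondence. -/
def ker (h : Fin n → Fin n) (w v : Equiv.Perm (Fin n)) : K n :=
  ∏ e ∈ edges h, (tK (v e.2) - tK (w e.1)) / (tK (v e.2) - tK (v e.1))

open scoped Classical in
/-- The correspondence Z, with values in the fraction field. -/
def ZK [NeZero n] (h : Fin n → Fin n) : Fn n →ₗ[P n] (Equiv.Perm (Fin n) → K n) where
  toFun f w := ∑ v ∈ univ.filter (fun v => Compat w v), ker h w v * algebraMap (P n) (K n) (f v)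
  map_add' f g := by funext w; simp [mul_add, sum_add_distrib]
  map_smul' c f := by
    funext w
    simp only [Pi.smul_apply, smul_eq_mul, map_mul, RingHom.id_apply, Algebra.smul_def, mul_sum]
    exact sum_congr rfl fun v _ => by ring

/-- `g` is the image of `f` under Z. -/
def ZRel [NeZero n] (h : Fin n → Fin n) (f g : Fn n) : Prop :=
  ∀ w, algebraMap (P n) (K n) (g w) = ZK h f w

/-- Homogeneous functions of degree `d`. -/
def Deg (d : ℕ) : Submodule ℚ (Fn n) :=
  Submodule.pi Set.univ fun _ => MvPolynomial.homogeneousSubmodule (Fin n) ℚ d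

/-- The degree `d` part of a module of functions. -/
def part (N : Submodule (P n) (Fn n)) (d : ℕ) : Submodule ℚ (Fn n) :=
  N.restrictScalars ℚ ⊓ Deg d

/-- The degree `d` part of `t N`. -/
def tpart (N : Submodule (P n) (Fn n)) : ℕ → Submodule ℚ (Fn n)
  | 0 => ⊥
  | d + 1 => ⨆ j : Fin n, (part N d).map ((LinearMap.lsmul (P n) (Fn n) (X j)).restrictScalars ℚ)

/-- The degree `d` part of `N / t N`. -/
abbrev W (N : Submodule (P n) (Fn n)) (d : ℕ) :=
  ↥(part N d) ⧸ (tpart N d).comap (part N d).subtype

/-- Exchange of two slots. -/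
def slotSwap (i j : Fin n) : Fn n →ₗ[P n] Fn n where
  toFun f w := f (w * Equiv.swap i j)
  map_add' f g := rfl
  map_smul' c f := rfl

/-- The functions of `M h` fixed by the exchange of two twin slots. -/
def Msym (h : Fin n → Fin n) (i i' : Fin n) : Submodule (P n) (Fn n) :=
  M h ⊓ LinearMap.ker (slotSwap i i' - LinearMap.id)

/-- `i` and `i'` are adjacent consecutive twins. -/
structure Twins (h : Fin n → Fin n) (i i' : Fin n) : Prop where
  succ : i.1 + 1 = i'.1
  edge : Adj h i i'
  before : ∀ u, u < i → (Adj h u i ↔ Adj h u i')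
  after : ∀ u, i' < u → (Adj h i u ↔ Adj h i' u)

/-- Modular triple, extra edges to a vertex on the right. -/
structure TripleR (hm h0 hp : Fin n → Fin n) (i i' c : Fin n) : Prop where
  hessM : IsHess hm
  hess0 : IsHess h0
  hessP : IsHess hp
  twinsM : Twins hm i i'
  twinsP : Twins hp i i'
  right : i' < c
  notEdge : ¬ Adj hm i c ∧ ¬ Adj hm i' c
  mid : ∀ a b, Adj h0 a b ↔ Adj hm a b ∨ (a = i' ∧ b = c)
  top : ∀ a b, Adj hp a b ↔ Adj h0 a b ∨ (a = i ∧ b = c)

/-- Modular triple, extra edges from a vertex on the left. -/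
structure TripleL (hm h0 hp : Fin n → Fin n) (i i' c : Fin n) : Prop where
  hessM : IsHess hm
  hess0 : IsHess h0
  hessP : IsHess hp
  twinsM : Twins hm i i'
  twinsP : Twins hp i i'
  left : c < i
  notEdge : ¬ Adj hm c i ∧ ¬ Adj hm c i'
  mid : ∀ a b, Adj h0 a b ↔ Adj hm a b ∨ (a = c ∧ b = i)
  top : ∀ a b, Adj hp a b ↔ Adj h0 a b ∨ (a = c ∧ b = i')

/-- The modular laws, for values in power series. -/
def Modular (F : (Fin n → Fin n) → PowerSeries ℚ) : Prop :=
  ∀ hm h0 hp i i' c, (TripleR hm h0 hp i i' c ∨ TripleL hm h0 hp i i' c) →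
    (1 + PowerSeries.X) * F h0 = F hp + PowerSeries.X * F hm

/-- The graph is a disjoint union of cliques. -/
def CliqueUnion (h : Fin n → Fin n) : Prop := ∀ i j, i ≤ j → j ≤ h i → h j = h i

/-- The sizes of the blocks of a disjoint union of cliques. -/
def blocks (h : Fin n → Fin n) : Multiset ℕ :=
  (univ.image h).val.map fun b => (univ.filter fun i => h i = b).card

/-- The product of the `q`-factorials of the blocks. -/
def baseSeries (h : Fin n → Fin n) : PowerSeries ℚ :=
  ((blocks h).map fun a => ∏ r ∈ range a, ∑ i ∈ range (r + 1), (PowerSeries.X : PowerSeries ℚ) ^ i).prod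

end Vale.Agent.P066.Z
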