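import Mathlib
import Vale.Agent.P066.Z.Defs

/-!
# P066: interfaces for the proof of Shareshian-Wachs positivity
-/

noncomputable section

namespace Vale.Agent.P066.Z

open Finset MvPolynomial

variable {n : ℕ}

/-- `p` and `z` are induced on `N / t N` by the average and by Z. -/
def IsAct [NeZero n] (h : Fin n → Fin n) (N : Submodule (P n) (Fn n)) (d : ℕ)
    (p z : Module.End ℚ (W N d)) : Prop :=
  (∀ f g : part N d, avg (f : Fn n) = g → p (Submodule.Quotient.mk f) = Submodule.Quotient.mk g) ∧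
    (∀ f g : part N d, ZRel h (f : Fn n) g → z (Submodule.Quotient.mk f) = Submodule.Quotient.mk g)

/-- The generator `k` acts as `p z^k p`. -/
def evW {V : Type*} [AddCommGroup V] [Module ℚ V] (p z : Module.End ℚ V) :
    FreeAlgebra ℚ ℕ →ₐ[ℚ] Module.End ℚ V :=
  FreeAlgebra.lift ℚ fun k => p * z ^ k * p

open scoped Classical in
/-- The trace functional on degree `d`. -/
def phi [NeZero n] (h : Fin n → Fin n) (N : Submodule (P n) (Fn n)) (d : ℕ)
    (a : FreeAlgebra ℚ ℕ) : ℚ :=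
  if hh : ∃ pz : Module.End ℚ (W N d) × Module.End ℚ (W N d), IsAct h N d pz.1 pz.2 then
    LinearMap.trace ℚ (W N d) (hh.choose.1 * evW hh.choose.1 hh.choose.2 a) else 0

/-- The trace functional as a power series. -/
def phiS [NeZero n] (h : Fin n → Fin n) (N : Submodule (P n) (Fn n))
    (a : FreeAlgebra ℚ ℕ) : PowerSeries ℚ :=
  PowerSeries.mk fun d => phi h N d a

/-- Scalar by which `p z^k p` acts for blocks of sizes `μ`. -/
def val (n : ℕ) (μ : Multiset ℕ) (k : ℕ) : ℚ :=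
  (∑ m ∈ range n, (Nat.multichoose k m : ℚ) * (μ.esymm (m + 1) : ℚ)) / n

/-- Evaluation at blocks of sizes `μ`. -/
def evB (n : ℕ) (μ : Multiset ℕ) : FreeAlgebra ℚ ℕ →ₐ[ℚ] ℚ := FreeAlgebra.lift ℚ (val n μ)

/-- D. Z preserves the GKM module and the degree. -/
def ExistsStmt : Prop :=
  ∀ (n : ℕ) [NeZero n] (h : Fin n → Fin n), IsHess h → ∀ f ∈ M h,
    ∃ g ∈ M h, ZRel h f g ∧ ∀ d, f ∈ Deg d → g ∈ Deg d

/-- E1. Twins: Z commutes with the exchange, hence preserves the symmetric functions. -/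
def SymStmt : Prop :=
  ∀ (n : ℕ) [NeZero n] (h : Fin n → Fin n) (i i' : Fin n), IsHess h → Twins h i i' →
    ∀ f g, f ∈ Msym h i i' → g ∈ M h → ZRel h f g → g ∈ Msym h i i'

/-- E1. Twins: Z commutes with the divided difference. -/
def TwinStmt : Prop :=
  ∀ (n : ℕ) [NeZero n] (h : Fin n → Fin n) (i i' : Fin n), IsHess h → Twins h i i' →
    ∀ f f' g g' : Fn n, ZRel h f g → ZRel h f' g' →
      (∀ w, (X (w i) - X (w i')) * f' w = f w - f (w * Equiv.swap i i')) →
      ∀ w, (X (w i) - X (w i')) * g' w = g w - g (w * Equiv.swap i i')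

/-- E2. Right triples: inclusion and divided difference commute with Z. -/
def RightStmt : Prop :=
  ∀ (n : ℕ) [NeZero n] (hm h0 hp : Fin n → Fin n) (i i' c : Fin n), TripleR hm h0 hp i i' c →
    (∀ f g, f ∈ Msym hp i i' → ZRel hp f g → ZRel h0 f g) ∧
    (∀ f f' g g' : Fn n, ZRel h0 f g → ZRel hm f' g' →
      (∀ w, (X (w i) - X (w i')) * f' w = f w - f (w * Equiv.swap i i')) →
      ∀ w, (X (w i) - X (w i')) * g' w = g w - g (w * Equiv.swap i i'))

/-- E3. Left triples: multiplication by the first new edge, and the twisted divided difference. -/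
def LeftStmt : Prop :=
  ∀ (n : ℕ) [NeZero n] (hm h0 hp : Fin n → Fin n) (i i' c : Fin n), TripleL hm h0 hp i i' c →
    (∀ f g, f ∈ Msym hm i i' → ZRel hm f g →
      ZRel h0 (fun w => (X (w i) - X (w c)) * f w) (fun w => (X (w i) - X (w c)) * g w)) ∧
    (∀ f f' g g' : Fn n, ZRel h0 f g → ZRel hp f' g' →
      (∀ w, (X (w i) - X (w i')) * f' w =
        (X (w i') - X (w c)) * f w - (X (w i) - X (w c)) * f (w * Equiv.swap i i')) →
      ∀ w, (X (w i) - X (w i')) * g' w =
        (X (w i') - X (w c)) * g w - (X (w i) - X (w c)) * g (w * Equiv.swap i i'))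

/-- F. The three exact sequences, on traces. -/
def SplitStmt : Prop :=
  ∀ (n : ℕ) [NeZero n] (a : FreeAlgebra ℚ ℕ),
    (∀ (h : Fin n → Fin n) (i i' : Fin n), IsHess h → Twins h i i' →
      phiS h (M h) a = (1 + PowerSeries.X) * phiS h (Msym h i i') a) ∧
    (∀ (hm h0 hp : Fin n → Fin n) (i i' c : Fin n),
      (TripleR hm h0 hp i i' c ∨ TripleL hm h0 hp i i' c) →
      phiS h0 (M h0) a =
        phiS hp (Msym hp i i') a + PowerSeries.X * phiS hm (Msym hm i i') a)

/-- G. Disjoint unions of cliques. -/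
def BaseStmt : Prop :=
  ∀ (n : ℕ) [NeZero n] (a : FreeAlgebra ℚ ℕ) (h : Fin n → Fin n), IsHess h → CliqueUnion h →
    phiS h (M h) (FreeAlgebra.ι ℚ 0 * a) =
      PowerSeries.C (evB n (blocks h) (FreeAlgebra.ι ℚ 0 * a)) * baseSeries h

/-- C. The modular laws and the values on disjoint unions of cliques determine a function. -/
def UniqueStmt : Prop :=
  ∀ (n : ℕ) (F : (Fin n → Fin n) → PowerSeries ℚ), Modular F →
    (∀ h, IsHess h → CliqueUnion h → F h = 0) → ∀ h, IsHess h → F h = 0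

/-- The coefficient of a monomial in the chromatic quasisymmetric function. -/
def chiS (N : ℕ) (m : Fin N →₀ ℕ) {n : ℕ} (h : Fin n → Fin n) : PowerSeries ℚ :=
  ((MvPolynomial.coeff m (chi N h)).map (Int.castRingHom ℚ) : Polynomial ℚ)

/-- B. The chromatic side. -/
def ChiStmt : Prop :=
  ∀ (n N : ℕ),
    (∀ m, Modular (n := n) (chiS N m)) ∧
    (∀ h : Fin n → Fin n, IsHess h → CliqueUnion h → chi N h =
      C ((blocks h).map fun a => ∏ r ∈ range a, ∑ i ∈ range (r + 1), qq ^ i).prod *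
        ((blocks h).map (esymm (Fin N) (Polynomial ℤ))).prod)

/-- I. Separation of block sizes. -/
def InterpStmt : Prop :=
  ∀ (n : ℕ) [NeZero n] (μ : n.Partition), ∃ e : FreeAlgebra ℚ ℕ,
    evB n μ.parts (FreeAlgebra.ι ℚ 0 * e) = 1 ∧
    ∀ ν : n.Partition, ν ≠ μ → evB n ν.parts (FreeAlgebra.ι ℚ 0 * e) = 0

/-- P. A trace sequence that is constant is a natural number. -/
def PosStmt : Prop :=
  ∀ (V : Type) [AddCommGroup V] [Module ℚ V] [FiniteDimensional ℚ V] (e : Module.End ℚ V) (c : ℚ),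
    (∀ k : ℕ, 1 ≤ k → LinearMap.trace ℚ V (e ^ k) = c) → ∃ m : ℕ, c = m

end Vale.Agent.P066.Z
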