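import Mathlib
import Vale.Agent.P066.Z.Spec

/-!
# P066: assembly of Shareshian-Wachs positivity
-/

noncomputable section

namespace Vale.Agent.P066.Z

open Finset MvPolynomial

variable {n : ℕ}

/-- The trace functional at powers is the trace of the powers of one endomorphism. -/
def TracePowStmt : Prop :=
  ∀ (n : ℕ) [NeZero n] (h : Fin n → Fin n), IsHess h → ∀ (d : ℕ) (x : FreeAlgebra ℚ ℕ),
    ∃ E : Module.End ℚ (W (M h) d), Module.Finite ℚ (W (M h) d) ∧
      ∀ k : ℕ, 1 ≤ k →
        phi h (M h) d ((FreeAlgebra.ι ℚ 0 * x) ^ k) = LinearMap.trace ℚ _ (E ^ k)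

theorem blocks_pos (h : Fin n → Fin n) {a : ℕ} (ha : a ∈ blocks h) : 0 < a := by
  obtain ⟨b, hb, rfl⟩ := Multiset.mem_map.mp ha
  obtain ⟨i, -, rfl⟩ := mem_image.mp (Finset.mem_def.mpr hb)
  exact card_pos.mpr ⟨i, by simp⟩

theorem blocks_sum (h : Fin n → Fin n) : (blocks h).sum = n := by
  have := card_eq_sum_card_image h (univ : Finset (Fin n))
  rw [Finset.card_univ, Fintype.card_fin] at this
  exact this.symm

/-- The block sizes as a partition. -/
def blockPartition (h : Fin n → Fin n) : n.Partition :=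
  ⟨blocks h, fun ha => blocks_pos h ha, blocks_sum h⟩

theorem asc_le {N : ℕ} (h : Fin n → Fin n) (f : Fin n → Fin N) : asc h f ≤ n * n := by
  refine (card_le_univ _).trans ?_
  simp

theorem coeff_chi_eq_zero {N : ℕ} (h : Fin n → Fin n) (m : Fin N →₀ ℕ) {d : ℕ} (hd : n * n < d) :
    (MvPolynomial.coeff m (chi N h)).coeff d = 0 := by
  simp only [chi, MvPolynomial.coeff_sum, Polynomial.finsetSum_coeff, MvPolynomial.coeff_C_mul]
  refine sum_eq_zero fun f _ => ?_
  have hf := asc_le h f
  rw [mul_comm, qq, Polynomial.coeff_mul_X_pow']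
  rw [if_pos (by omega)]
  have hdeg : ∀ g : MvPolynomial (Fin N) ℤ, ((MvPolynomial.coeff m
      (MvPolynomial.map (Polynomial.C : ℤ →+* Polynomial ℤ) g))).coeff (d - asc h f) = 0 := by
    intro g
    rw [MvPolynomial.coeff_map, Polynomial.coeff_C, if_neg (by omega)]
  simpa using hdeg (∏ a, X (f a))

theorem map_qprod (s : Multiset ℕ) :
    (((s.map fun a => ∏ r ∈ range a, ∑ i ∈ range (r + 1), qq ^ i).prod.map
      (Int.castRingHom ℚ) : Polynomial ℚ) : PowerSeries ℚ) =
    (s.map fun a => ∏ r ∈ range a, ∑ i ∈ range (r + 1), (PowerSeries.X : PowerSeries ℚ) ^ i).prod := by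
  let φ : Polynomial ℤ →+* PowerSeries ℚ :=
    (Polynomial.coeToPowerSeries.ringHom).comp (Polynomial.mapRingHom (Int.castRingHom ℚ))
  change φ _ = _
  rw [map_multiset_prod, Multiset.map_map]
  congr 1
  refine Multiset.map_congr rfl fun a _ => ?_
  have hX : φ qq = PowerSeries.X := by simp [φ, qq]
  simp [map_prod, map_sum, map_pow, hX]

theorem modular_phiS [NeZero n] (hsplit : SplitStmt) (a : FreeAlgebra ℚ ℕ) :
    Modular (fun h : Fin n → Fin n => phiS h (M h) a) := by
  intro hm h0 hp i i' c ht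
  obtain ⟨htw, htr⟩ := hsplit n a
  have hh : IsHess hm ∧ IsHess hp ∧ Twins hm i i' ∧ Twins hp i i' := by
    rcases ht with t | t
    · exact ⟨t.hessM, t.hessP, t.twinsM, t.twinsP⟩
    · exact ⟨t.hessM, t.hessP, t.twinsM, t.twinsP⟩
  simp only [htr hm h0 hp i i' c ht, htw hp i i' hh.2.1 hh.2.2.2, htw hm i i' hh.1 hh.2.2.1]
  ring

theorem ePositive_zero (h : Fin 0 → Fin 0) : EPositive h := by
  refine ⟨fun _ => 1, fun N => ?_⟩
  have : (univ : Finset (Nat.Partition 0)) = {Nat.Partition.indiscrete 0} := by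
    ext μ; simp [eq_iff_true_of_subsingleton]
  rw [this, sum_singleton, esymmPart_zero, chi]
  have hs : (univ.filter fun f : Fin 0 → Fin N => IsProper h f) = {Fin.elim0} := by
    ext f; simp [eq_iff_true_of_subsingleton, IsProper]
  rw [hs, sum_singleton]
  have ha : asc h (Fin.elim0 : Fin 0 → Fin N) = 0 := Nat.le_zero.mp (asc_le h _)
  simp [ha]

theorem ePositive_of (hsplit : SplitStmt) (hbase : BaseStmt) (huniq : UniqueStmt) (hchi : ChiStmt)
    (hI : InterpStmt) (hP : PosStmt) (hT : TracePowStmt) {n : ℕ} (h : Fin n → Fin n)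
    (hh : IsHess h) : EPositive h := by
  rcases Nat.eq_zero_or_pos n with rfl | hn
  · exact ePositive_zero h
  haveI : NeZero n := ⟨hn.ne'⟩
  choose e he1 he0 using fun μ : n.Partition => hI n μ
  obtain ⟨a, ha⟩ : ∃ a : n.Partition → FreeAlgebra ℚ ℕ, ∀ μ, a μ = FreeAlgebra.ι ℚ 0 * e μ :=
    ⟨_, fun _ => rfl⟩
  have hev : ∀ (g : Fin n → Fin n) (μ : n.Partition),
      evB n (blocks g) (a μ) = if blockPartition g = μ then 1 else 0 := by
    intro g μ
    have hb : blocks g = (blockPartition g).parts := rfl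
    rw [ha, hb]
    split_ifs with hg
    · rw [hg]; exact he1 μ
    · exact he0 μ _ hg
  -- powers
  have hpow : ∀ μ (k : ℕ), phiS h (M h) (a μ ^ (k + 1)) = phiS h (M h) (a μ) := by
    intro μ k
    have := huniq n (fun g => phiS g (M g) (a μ ^ (k + 1)) - phiS g (M g) (a μ)) ?_ ?_ h hh
    · exact sub_eq_zero.mp this
    · intro hm h0 hp i i' c ht
      have h1 := modular_phiS hsplit (a μ ^ (k + 1)) hm h0 hp i i' c ht
      have h2 := modular_phiS hsplit (a μ) hm h0 hp i i' c ht
      simp only at h1 h2 ⊢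
      linear_combination h1 - h2
    · intro g hg hc
      have e1 : a μ ^ (k + 1) = FreeAlgebra.ι ℚ 0 * (e μ * a μ ^ k) := by
        rw [pow_succ', ha, mul_assoc]
      rw [e1, hbase n _ g hg hc, ← e1, ha μ, hbase n _ g hg hc, ← ha μ, map_pow, hev]
      split_ifs <;> simp
  have hnat : ∀ μ d, ∃ m : ℕ, phi h (M h) d (a μ) = m := by
    intro μ d
    obtain ⟨E, hfin, hE⟩ := hT n h hh d (e μ)
    refine hP _ E _ fun k hk => ?_
    rw [← hE k hk, ← ha μ]
    obtain ⟨j, rfl⟩ := Nat.exists_eq_succ_of_ne_zero (by omega : k ≠ 0)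
    simpa [phiS] using congrArg (PowerSeries.coeff d) (hpow μ j)
  choose c hc using hnat
  -- identity of the coefficients
  refine ⟨fun μ => ∑ d ∈ range (n * n + 1), Polynomial.monomial d (c μ d), fun N => ?_⟩
  refine MvPolynomial.ext _ _ fun m => ?_
  let z : n.Partition → ℤ := fun μ => MvPolynomial.coeff m (esymmPart (Fin N) ℤ μ)
  have hz : ∀ μ, MvPolynomial.coeff m (esymmPart (Fin N) (Polynomial ℤ) μ) = Polynomial.C (z μ) := by
    intro μ
    rw [← MvPolynomial.coeff_map]
    congr 1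
    simp only [esymmPart, map_multiset_prod, Multiset.map_map]
    congr 1
    exact Multiset.map_congr rfl fun j _ => (MvPolynomial.map_esymm _ _ _ _).symm
  have key := huniq n (fun g => ∑ μ, phiS g (M g) (a μ) * PowerSeries.C ((z μ : ℚ)) - chiS N m g)
    ?_ ?_ h hh
  rotate_left
  · intro hm h0 hp i i' cc ht
    have h1 := fun μ => modular_phiS hsplit (a μ) hm h0 hp i i' cc ht
    have h2 := (hchi n N).1 m hm h0 hp i i' cc ht
    simp only at h1 h2 ⊢
    have h3 : (1 + PowerSeries.X) * ∑ μ, phiS h0 (M h0) (a μ) * PowerSeries.C ((z μ : ℚ)) =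
        ∑ μ, phiS hp (M hp) (a μ) * PowerSeries.C ((z μ : ℚ)) +
          PowerSeries.X * ∑ μ, phiS hm (M hm) (a μ) * PowerSeries.C ((z μ : ℚ)) := by
      simp only [mul_sum, ← sum_add_distrib]
      exact sum_congr rfl fun μ _ => by rw [← mul_assoc, h1 μ]; ring
    linear_combination h3 - h2
  · intro g hg hcl
    have hb : ∀ μ, phiS g (M g) (a μ) =
        (if blockPartition g = μ then baseSeries g else 0) := by
      intro μ
      rw [ha μ, hbase n _ g hg hcl, ← ha μ, hev]
      split_ifs <;> simp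
    rw [sub_eq_zero]
    simp only [hb, ite_mul, zero_mul, sum_ite_eq, mem_univ, if_true]
    rw [chiS, (hchi n N).2 g hg hcl, MvPolynomial.coeff_C_mul]
    have := hz (blockPartition g)
    simp only [esymmPart, blockPartition] at this
    rw [this, Polynomial.map_mul, Polynomial.coe_mul, map_qprod, Polynomial.map_C,
      Polynomial.coe_C]
    rfl
  rw [sub_eq_zero] at key
  refine Polynomial.ext fun d => ?_
  simp only [MvPolynomial.coeff_sum, MvPolynomial.coeff_C_mul, hz, Polynomial.finsetSum_coeff,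
    Polynomial.coeff_mul_C]
  simp only [natQ, Polynomial.coe_mapRingHom, Polynomial.coeff_map, Polynomial.finsetSum_coeff,
    Polynomial.coeff_monomial, sum_ite_eq', mem_range]
  by_cases hd : d < n * n + 1
  · have := congrArg (PowerSeries.coeff d) key
    simp only [map_sum, PowerSeries.coeff_mul_C, phiS, PowerSeries.coeff_mk, hc, chiS,
      Polynomial.coeff_coe, Polynomial.coeff_map] at this
    simp only [if_pos hd]
    have h5 : (((MvPolynomial.coeff m (chi N h)).coeff d : ℤ) : ℚ) =
        ((∑ μ, ((c μ d : ℕ) : ℤ) * z μ : ℤ) : ℚ) := by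
      push_cast
      simpa using this.symm
    simpa using (Int.cast_injective (α := ℚ) h5)
  · rw [coeff_chi_eq_zero h m (by omega)]
    refine (Finset.sum_eq_zero fun x _ => ?_).symm
    simp only [if_neg hd]
    simp

end Vale.Agent.P066.Z
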