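import Vale.Agent.P066.Z.Act
import Vale.Agent.P066.Z.Final

/-!
# P066: traces at powers
-/

noncomputable section

namespace Vale.Agent.P066.Z

/-- The trace functional at powers of a multiple of the generator `0` is the trace of the powers of
one endomorphism. -/
theorem tracePow (hD : ExistsStmt) (_hS : SymStmt) : TracePowStmt := by
  intro n _ h hh d x
  have S := Stable.ofM hD hh
  obtain ⟨p, z, hA⟩ := S.exists_act d
  refine ⟨evW p z (FreeAlgebra.ι ℚ 0 * x), inferInstance, fun k hk => ?_⟩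
  obtain ⟨j, rfl⟩ := Nat.exists_eq_add_of_le' hk
  have h1 : (FreeAlgebra.ι ℚ 0 * x) ^ (j + 1) =
      FreeAlgebra.ι ℚ 0 * (x * (FreeAlgebra.ι ℚ 0 * x) ^ j) := by
    rw [pow_succ', mul_assoc]
  rw [← map_pow, h1, hA.phi_iota_zero_mul S]

end Vale.Agent.P066.Z
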