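import Vale.Agent.P066.Z.Base.Coeff

/-!
# P066, module G: the trace functional on disjoint unions of cliques

`W (M h) d` is (staircase exponents of degree `d`) × (functions of keys); the average is the mean
over keys and Z is `(1 - S)⁻¹` in the second factor, so `phiS h (M h) (ι 0 * a)` is
`evB (blocks h) (ι 0 * a)` times the product of the `q`-factorials of the blocks.
-/

noncomputable section

namespace Vale.Agent.P066.Z.Base

open Finset MvPolynomial
open scoped Classical

variable {n : ℕ} {h : Fin n → Fin n}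

/-- A key seen from a relabelling. -/
def Key.perm (κ : Key h) (σ : Equiv.Perm (Fin n)) : Key h :=
  ⟨κ.1 ∘ σ, by
    obtain ⟨w, -, hw⟩ := mem_image.1 κ.2
    exact mem_image.2 ⟨σ.symm * w, mem_univ _, by rw [key_mul, hw, Equiv.symm_symm]⟩⟩

lemma key'_inv_mul (σ w : Equiv.Perm (Fin n)) :
    key' h (σ⁻¹ * w) = (key' h w).perm σ :=
  Subtype.ext (key_mul h σ⁻¹ w)

lemma avg_stair (c : Exp h → Key h → P n) :
    avg (stair h c) = stair h fun α κ =>
      (n.factorial : ℚ)⁻¹ • ∑ σ : Equiv.Perm (Fin n), rename σ (c α (κ.perm σ)) := by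
  funext w
  simp only [avg, LinearMap.smul_apply, LinearMap.sum_apply, Pi.smul_apply, Finset.sum_apply]
  simp only [stair, dot, LinearMap.coe_mk, AddHom.coe_mk, map_sum, map_mul, key'_inv_mul,
    smul_mul_assoc, ← Finset.smul_sum, sum_mul]
  rw [sum_comm]
  refine congrArg _ (sum_congr rfl fun α _ => sum_congr rfl fun σ _ => ?_)
  congr 1
  simp [mon, map_prod, rename_X]

/-- The value of the mean on a constant. -/
lemma mean_const (r : ℚ) : mean h (fun _ => r) = r := by
  rw [show (fun _ : Key h => r) = r • (1 : Key h → ℚ) by funext κ; simp, map_smul, mean_one,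
    smul_eq_mul, mul_one]

/-- The average on the model. -/
def pV (d : ℕ) : Module.End ℚ (Idx h d → Key h → ℚ) where
  toFun v a _ := mean h (v a)
  map_add' u v := by funext a κ; simp
  map_smul' r v := by funext a κ; simp

variable [NeZero n]

/-- Z on the model. -/
def zV (d : ℕ) : Module.End ℚ (Idx h d → Key h → ℚ) where
  toFun v a := z0 h (v a)
  map_add' u v := by funext a; simp
  map_smul' r v := by funext a; simp

lemma zV_pow (d k : ℕ) (v : Idx h d → Key h → ℚ) (a : Idx h d) :
    (zV d ^ k) v a = (z0 h ^ k) (v a) := by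
  induction k generalizing v with
  | zero => simp
  | succ k ih =>
    rw [pow_succ, Module.End.mul_apply, ih, pow_succ, Module.End.mul_apply]
    rfl

lemma pV_zV_pV (d k : ℕ) :
    pV (h := h) d * zV d ^ k * pV d = val n (blocks h) k • pV d := by
  refine LinearMap.ext fun v => funext fun a => funext fun κ => ?_
  simp only [Module.End.mul_apply, LinearMap.smul_apply, Pi.smul_apply, smul_eq_mul]
  change mean h ((zV d ^ k) (pV d v) a) = val n (blocks h) k * mean h (v a)
  rw [zV_pow, show pV d v a = mean h (v a) • (1 : Key h → ℚ) by funext κ; simp [pV],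
    map_smul, map_smul, mean_z0_pow, smul_eq_mul, mul_comm]

omit [NeZero n] in
lemma pV_idem (d : ℕ) : pV (h := h) d * pV d = pV d := by
  refine LinearMap.ext fun v => funext fun a => funext fun κ => ?_
  exact mean_const _

omit [NeZero n] in
lemma trace_pV (d : ℕ) :
    LinearMap.trace ℚ _ (pV (h := h) d) = Fintype.card (Idx h d) := by
  have e : pV (h := h) d = ∑ a : Idx h d,
      ((mean h).comp (LinearMap.proj a : (Idx h d → Key h → ℚ) →ₗ[ℚ] Key h → ℚ)).smulRight
        (Pi.single a (1 : Key h → ℚ)) := by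
    refine LinearMap.ext fun v => funext fun a => funext fun κ => ?_
    simp only [LinearMap.sum_apply, LinearMap.smulRight_apply, LinearMap.comp_apply,
      LinearMap.proj_apply, Finset.sum_apply, Pi.smul_apply, smul_eq_mul]
    rw [sum_eq_single a (fun b _ hb => by rw [Pi.single_eq_of_ne hb.symm]; simp) (by simp),
      Pi.single_eq_same]
    simp [pV]
  rw [e, map_sum]
  simp [LinearMap.trace_smulRight, mean_one]

lemma evW_mul_p {V : Type} [AddCommGroup V] [Module ℚ V] {p z : Module.End ℚ V} {c : ℕ → ℚ}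
    (hp : p * p = p) (hz : ∀ k, p * z ^ k * p = c k • p) (a : FreeAlgebra ℚ ℕ) :
    evW p z a * p = FreeAlgebra.lift ℚ c a • p := by
  induction a using FreeAlgebra.induction with
  | grade0 r => rw [AlgHom.commutes, AlgHom.commutes, ← Algebra.smul_def]; rfl
  | grade1 k =>
    rw [evW, FreeAlgebra.lift_ι_apply, FreeAlgebra.lift_ι_apply, mul_assoc, hp, hz]
  | mul a b ha hb =>
    rw [map_mul, map_mul, mul_assoc, hb, mul_smul_comm, ha, smul_smul, mul_comm]
  | add a b ha hb => rw [map_add, map_add, add_mul, ha, hb, add_smul]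

omit [NeZero n] in
lemma trace_ev {V : Type} [AddCommGroup V] [Module ℚ V] {p z : Module.End ℚ V} {μ : Multiset ℕ}
    (hp : p * p = p) (hz : ∀ k, p * z ^ k * p = val n μ k • p) (a : FreeAlgebra ℚ ℕ) :
    LinearMap.trace ℚ V (p * evW p z a) = evB n μ a * LinearMap.trace ℚ V p := by
  rw [LinearMap.trace_mul_comm, evW_mul_p hp hz a, map_smul, smul_eq_mul, evB]

lemma trace_transport {V V' : Type} [AddCommGroup V] [Module ℚ V] [AddCommGroup V'] [Module ℚ V']
    (e : V ≃ₗ[ℚ] V') {p z : Module.End ℚ V} {p' z' : Module.End ℚ V'}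
    (hp : ∀ x, e (p x) = p' (e x)) (hz : ∀ x, e (z x) = z' (e x)) (a : FreeAlgebra ℚ ℕ) :
    LinearMap.trace ℚ V (p * evW p z a) = LinearMap.trace ℚ V' (p' * evW p' z' a) := by
  set C := LinearEquiv.conjAlgEquiv ℚ e with hC
  have hp' : C p = p' := LinearMap.ext fun y => by simp [hC, hp]
  have hz' : C z = z' := LinearMap.ext fun y => by simp [hC, hz]
  have hev : C.toAlgHom.comp (evW p z) = evW p' z' := by
    refine FreeAlgebra.hom_ext (funext fun k => ?_)
    simp [evW, hp', hz', FreeAlgebra.lift_ι_apply]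
  have h3 : C (p * evW p z a) = p' * evW p' z' a := by
    rw [map_mul, hp', ← hev]; rfl
  rw [← h3, show C (p * evW p z a) = e.conj (p * evW p z a) by ext x; simp [hC],
    LinearMap.trace_conj']

lemma zrel_unique {f g g' : Fn n} (h1 : ZRel h f g) (h2 : ZRel h f g') : g = g' :=
  funext fun w => by
    have e1 := h1 w
    have e2 := h2 w
    rw [← e2] at e1
    exact IsFractionRing.injective (P n) (Vale.Agent.P066.Z.K n) e1

variable (hh : IsHess h) (hc : CliqueUnion h)

include hh hc

omit [NeZero n] in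
lemma avg_proj (d : ℕ) (f : part (M h) d) :
    ∃ g : part (M h) d, avg f.1 = g.1 ∧ proj hh hc d g = pV d (proj hh hc d f) := by
  obtain ⟨hz, hhom⟩ := coef_homogeneous hh hc (c := coef hh hc d f) (d := d)
    (by rw [stair_coef]; exact f.2.2)
  set c' : Exp h → Key h → P n := fun α κ =>
    (n.factorial : ℚ)⁻¹ • ∑ σ : Equiv.Perm (Fin n), rename σ (coef hh hc d f α (κ.perm σ)) with hc'
  have hd : stair h c' ∈ Deg d := stair_deg (fun α κ e => by simp [hc', hz α _ e])
    fun α κ e => (homogeneousSubmodule _ _ _).smul_mem _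
      (sum_mem fun σ _ => (hhom α _ e).rename_isHomogeneous)
  refine ⟨⟨stair h c', stair_mem hh hc c', hd⟩, ?_, ?_⟩
  · rw [← stair_coef hh hc d f]; exact avg_stair _
  · funext a κ
    change constantCoeff (coef hh hc d ⟨stair h c', _⟩ a.1 κ)
      = mean h (fun κ' => constantCoeff (coef hh hc d f a.1 κ'))
    rw [coef_eq hh hc (c := c') rfl, mean_apply]
    obtain ⟨w0, rfl⟩ := key'_surj h κ
    simp only [hc', constantCoeff_smul, map_sum, constantCoeff_rename, smul_eq_mul,
      ← key'_inv_mul]
    congr 1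
    exact Fintype.sum_equiv ((Equiv.inv _).trans (Equiv.mulRight w0)) _ _ fun σ => rfl

lemma z_proj (d : ℕ) (f : part (M h) d) :
    ∃ g : part (M h) d, ZRel h f.1 g.1 ∧ proj hh hc d g = zV d (proj hh hc d f) := by
  obtain ⟨hz, hhom⟩ := coef_homogeneous hh hc (c := coef hh hc d f) (d := d)
    (by rw [stair_coef]; exact f.2.2)
  set c' : Exp h → Key h → P n := fun α κ =>
    ∑ κ' ∈ univ.filter (Reach h κ), coef hh hc d f α κ' with hc'
  have hd : stair h c' ∈ Deg d := stair_deg (fun α κ e => by simp [hc', hz α _ e])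
    fun α κ e => sum_mem (S := homogeneousSubmodule _ _ _) fun κ' _ => hhom α κ' e
  refine ⟨⟨stair h c', stair_mem hh hc c', hd⟩, fun w => ?_, ?_⟩
  · rw [← stair_coef hh hc d f]
    exact (ZK_stair hh hc _ w).symm
  · funext a κ
    change constantCoeff (coef hh hc d ⟨stair h c', _⟩ a.1 κ)
      = ∑ κ' ∈ univ.filter (Reach h κ), constantCoeff (coef hh hc d f a.1 κ')
    rw [coef_eq hh hc (c := c') rfl, hc']
    simp [map_sum]

/-- The degree `d` piece is the model. -/
def equivV (d : ℕ) : W (M h) d ≃ₗ[ℚ] (Idx h d → Key h → ℚ) :=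
  (Submodule.quotEquivOfEq _ _ (proj_ker hh hc d).symm).trans
    ((proj hh hc d).quotKerEquivOfSurjective (proj_surj hh hc d))

omit [NeZero n] in
lemma equivV_mk (d : ℕ) (f : part (M h) d) :
    equivV hh hc d (Submodule.Quotient.mk f) = proj hh hc d f := by
  simp [equivV]

lemma phi_base (d : ℕ) (a : FreeAlgebra ℚ ℕ) :
    phi h (M h) d (FreeAlgebra.ι ℚ 0 * a)
      = evB n (blocks h) (FreeAlgebra.ι ℚ 0 * a) * Fintype.card (Idx h d) := by
  obtain ⟨e, he⟩ : ∃ e : W (M h) d ≃ₗ[ℚ] (Idx h d → Key h → ℚ),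
      ∀ f : part (M h) d, e (Submodule.Quotient.mk f) = proj hh hc d f :=
    ⟨equivV hh hc d, equivV_mk hh hc d⟩
  have hsome : ∃ pz : Module.End ℚ (W (M h) d) × Module.End ℚ (W (M h) d),
      IsAct h (M h) d pz.1 pz.2 := by
    refine ⟨(e.symm.toLinearMap.comp ((pV d).comp e.toLinearMap),
      e.symm.toLinearMap.comp ((zV d).comp e.toLinearMap)), fun f g hfg => ?_, fun f g hfg => ?_⟩
    · obtain ⟨g', h1, h2⟩ := avg_proj hh hc d f
      have hg : g = g' := Subtype.ext (hfg.symm.trans h1)
      simp only [LinearMap.comp_apply, LinearEquiv.coe_coe]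
      rw [e.symm_apply_eq, he, he, hg, h2]
    · obtain ⟨g', h1, h2⟩ := z_proj hh hc d f
      have hg : g = g' := Subtype.ext (zrel_unique hfg h1)
      simp only [LinearMap.comp_apply, LinearEquiv.coe_coe]
      rw [e.symm_apply_eq, he, he, hg, h2]
  rw [phi, dif_pos hsome]
  have hspec := hsome.choose_spec
  generalize hsome.choose = pz at hspec ⊢
  have h1 : ∀ x, e (pz.1 x) = pV d (e x) := by
    intro x
    obtain ⟨f, rfl⟩ := Submodule.Quotient.mk_surjective _ x
    obtain ⟨g, hg, hg'⟩ := avg_proj hh hc d f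
    rw [hspec.1 f g hg, he, he, hg']
  have h2 : ∀ x, e (pz.2 x) = zV d (e x) := by
    intro x
    obtain ⟨f, rfl⟩ := Submodule.Quotient.mk_surjective _ x
    obtain ⟨g, hg, hg'⟩ := z_proj hh hc d f
    rw [hspec.2 f g hg, he, he, hg']
  rw [trace_transport e h1 h2, trace_ev (pV_idem d) (pV_zV_pV d), trace_pV]

omit [NeZero n] in
lemma coeff_baseSeries (d : ℕ) :
    PowerSeries.coeff d (baseSeries h) = Fintype.card (Idx h d) := by
  set G : ℕ → PowerSeries ℚ := fun r => ∑ i ∈ range (r + 1), (PowerSeries.X : PowerSeries ℚ) ^ i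
    with hG
  have hblk : baseSeries h = ∏ i, G ((h i).val - i.val) := by
    rw [baseSeries, blocks, Multiset.map_map]
    refine Eq.trans (b := ∏ b ∈ univ.image h, ∏ r ∈ range (univ.filter fun i => h i = b).card, G r)
      rfl ?_
    refine Eq.trans ?_ (prod_fiberwise_of_maps_to (g := h) (t := univ.image h)
      (fun i (_ : i ∈ univ) => mem_image_of_mem _ (mem_univ i))
      (fun i => G ((h i).val - i.val)))
    refine prod_congr rfl fun b _ => ?_
    set F := univ.filter fun i => h i = b with hF
    have hinj : Set.InjOn (fun i : Fin n => b.val - i.val) F := fun i hi j hj e => by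
      have h1 : i ≤ b := (mem_filter.1 (mem_coe.1 hi)).2 ▸ hh.le i
      have h2 : j ≤ b := (mem_filter.1 (mem_coe.1 hj)).2 ▸ hh.le j
      have h1' : i.val ≤ b.val := h1
      have h2' : j.val ≤ b.val := h2
      simp only at e
      exact Fin.ext (by omega)
    have himg : F.image (fun i : Fin n => b.val - i.val) = range F.card := by
      refine eq_of_subset_of_card_le (fun r hr => ?_)
        (by rw [card_range, card_image_of_injOn hinj])
      obtain ⟨i, hi, rfl⟩ := mem_image.1 hr
      have hib : h i = b := (mem_filter.1 hi).2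
      have hs : Icc i b ⊆ F := fun j hj =>
        mem_filter.2 ⟨mem_univ _, (hc i j (mem_Icc.1 hj).1 (hib ▸ (mem_Icc.1 hj).2)).trans hib⟩
      have := card_le_card hs
      rw [Fin.card_Icc] at this
      have : i.val ≤ b.val := (hib ▸ hh.le i : i ≤ b)
      rw [mem_range]
      omega
    rw [← himg, prod_image hinj]
    exact prod_congr rfl fun i hi => by rw [(mem_filter.1 hi).2]
  rw [hblk]
  simp only [hG, ← Fin.sum_univ_eq_sum_range, Fintype.prod_sum, map_sum, prod_pow_eq_pow_sum,
    PowerSeries.coeff_X_pow, sum_boole, Fintype.card_subtype, wt]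
  congr 2
  exact filter_congr fun α _ => eq_comm

end Vale.Agent.P066.Z.Base

namespace Vale.Agent.P066.Z

open scoped Classical

/-- G. Disjoint unions of cliques. -/
theorem base : BaseStmt := by
  intro n _ a h hh hc
  ext d
  rw [PowerSeries.coeff_C_mul, phiS, PowerSeries.coeff_mk, Base.phi_base hh hc,
    Base.coeff_baseSeries hh hc]

end Vale.Agent.P066.Z
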