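import Mathlib
import Vale.Agent.P066.Z.Spec

/-!
# P066: the chromatic side

The chromatic quasisymmetric function satisfies both modular laws, and on a disjoint union of cliques
it is the product of the `[a]! e_a` over the sizes `a` of the cliques.
-/

noncomputable section

namespace Vale.Agent.P066.Z

open Finset MvPolynomial

variable {n N : ℕ}

/-- The weight of an edge by the colours of its two ends. -/
def chE (x y : Fin N) : Polynomial ℤ := if x = y then 0 else if x < y then qq else 1

/-- The weight of a colouring. -/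
def chW (h : Fin n → Fin n) (f : Fin n → Fin N) : Polynomial ℤ :=
  ∏ e ∈ edges h, chE (f e.1) (f e.2)

theorem chW_eq (h : Fin n → Fin n) (f : Fin n → Fin N) :
    chW h f = if IsProper h f then qq ^ asc h f else 0 := by
  classical
  split_ifs with hp
  · have hs : univ.filter (fun e : Fin n × Fin n => Adj h e.1 e.2 ∧ f e.1 < f e.2) =
        (edges h).filter fun e => f e.1 < f e.2 := by
      rw [edges, filter_filter]
    rw [chW, asc, hs, ← prod_const, prod_filter]
    refine prod_congr rfl fun e he => ?_
    simp only [edges, mem_filter, mem_univ, true_and] at he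
    simp [chE, hp _ _ he]
  · simp only [IsProper, not_forall] at hp
    obtain ⟨a, b, hab, he⟩ := hp
    refine prod_eq_zero (i := (a, b)) (by simp [edges, hab]) ?_
    simp [chE, not_not.1 he]

theorem chi_eq_sum (h : Fin n → Fin n) :
    chi N h = ∑ f : Fin n → Fin N, C (chW h f) * ∏ a, X (f a) := by
  rw [chi, sum_filter]
  refine sum_congr rfl fun f _ => ?_
  rw [chW_eq]
  split_ifs <;> simp

theorem chE_pair {a b : Fin N} (z : Fin N) (hab : a ≠ b) :
    chE a b * chE b z + chE b a * chE a z = chE a z * chE b z + qq ∧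
      chE a b * chE z a + chE b a * chE z b = chE z a * chE z b + qq := by
  unfold chE
  constructor <;> split_ifs <;> first | omega | ring

theorem chW_insert {h h' : Fin n → Fin n} {u v : Fin n} (hn : ¬ Adj h u v)
    (hiff : ∀ a b, Adj h' a b ↔ Adj h a b ∨ (a = u ∧ b = v)) (f : Fin n → Fin N) :
    chW h' f = chE (f u) (f v) * chW h f := by
  have hs : edges h' = insert (u, v) (edges h) := by
    ext ⟨a, b⟩
    simp only [edges, mem_filter, mem_univ, true_and, mem_insert, hiff, Prod.mk.injEq]
    tauto
  rw [chW, chW, hs, prod_insert]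
  simp [edges, hn]

/-- The weight of all edges but the one between the twins. -/
def chRest (h : Fin n → Fin n) (i i' : Fin n) (f : Fin n → Fin N) : Polynomial ℤ :=
  ∏ e ∈ (edges h).erase (i, i'), chE (f e.1) (f e.2)

theorem chW_twins {h : Fin n → Fin n} {i i' : Fin n} (ht : Twins h i i') (f : Fin n → Fin N) :
    chW h f = chE (f i) (f i') * chRest h i i' f := by
  rw [chW, chRest, ← insert_erase (show (i, i') ∈ edges h by simp [edges, ht.edge]),
    prod_insert (notMem_erase _ _), insert_erase (show (i, i') ∈ edges h by simp [edges, ht.edge])]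

theorem rest_swap_mem {h : Fin n → Fin n} {i i' : Fin n} (ht : Twins h i i') (e : Fin n × Fin n)
    (he : e ∈ (edges h).erase (i, i')) :
    (Equiv.swap i i' e.1, Equiv.swap i i' e.2) ∈ (edges h).erase (i, i') := by
  obtain ⟨a, b⟩ := e
  simp only [edges, mem_erase, mem_filter, mem_univ, true_and, ne_eq, Prod.mk.injEq] at he ⊢
  obtain ⟨hne, hab⟩ := he
  have hs := ht.succ
  have hlt : a < b := hab.1
  have hii : i ≠ i' := fun e => by simp [e] at hs
  rw [Equiv.swap_apply_def, Equiv.swap_apply_def]
  by_cases h1 : a = i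
  · subst h1
    have hb : i' < b := by
      have : b ≠ i' := fun e => hne ⟨rfl, e⟩
      omega
    have hb1 : b ≠ a := by omega
    have hb2 : b ≠ i' := by omega
    simp only [if_pos, hb1, hb2, if_false]
    exact ⟨fun e => hii e.1.symm, (ht.after b hb).1 hab⟩
  · by_cases h2 : a = i'
    · subst h2
      have hb1 : b ≠ i := by omega
      have hb2 : b ≠ a := by omega
      simp only [if_pos, if_neg h1, hb1, hb2, if_false]
      exact ⟨fun e => e.2.elim, (ht.after b hlt).2 hab⟩
    · simp only [if_neg h1, if_neg h2]
      by_cases h3 : b = i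
      · subst h3
        simp only [if_pos]
        exact ⟨fun e => h1 e.1, (ht.before a hlt).1 hab⟩
      · by_cases h4 : b = i'
        · subst h4
          have ha : a < i := by omega
          simp only [if_pos, if_neg h3]
          exact ⟨fun e => h1 e.1, (ht.before a ha).2 hab⟩
        · simp only [if_neg h3, if_neg h4]
          exact ⟨fun e => h1 e.1, hab⟩

theorem chRest_swap {h : Fin n → Fin n} {i i' : Fin n} (ht : Twins h i i') (f : Fin n → Fin N) :
    chRest h i i' (f ∘ Equiv.swap i i') = chRest h i i' f := by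
  refine prod_bij' (fun e _ => (Equiv.swap i i' e.1, Equiv.swap i i' e.2))
    (fun e _ => (Equiv.swap i i' e.1, Equiv.swap i i' e.2))
    (rest_swap_mem ht) (rest_swap_mem ht) ?_ ?_ ?_ <;> simp

/-- The modular law, for extra edges whose weights `A`, `B` are exchanged by the twins. -/
theorem chi_modular {hm h0 hp : Fin n → Fin n} {i i' : Fin n} (ht : Twins hm i i')
    (A B : (Fin n → Fin N) → Polynomial ℤ) (h0e : ∀ f, chW h0 f = A f * chW hm f)
    (hpe : ∀ f, chW hp f = B f * chW h0 f) (hA : ∀ f, A (f ∘ Equiv.swap i i') = B f)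
    (hAB : ∀ f, f i ≠ f i' → chE (f i) (f i') * A f + chE (f i') (f i) * B f = A f * B f + qq) :
    C (1 + qq) * chi N h0 = chi N hp + C qq * chi N hm := by
  classical
  let T : (Fin n → Fin n) → (Fin n → Fin N) → MvPolynomial (Fin N) (Polynomial ℤ) :=
    fun h f => C (chW h f) * ∏ a, X (f a)
  have hT : ∀ h, chi N h = ∑ f, T h f := chi_eq_sum
  have hcomp : ∀ h, ∑ f, T h (f ∘ Equiv.swap i i') = ∑ f, T h f := fun h =>
    Fintype.sum_equiv (Equiv.arrowCongr (Equiv.swap i i') (Equiv.refl (Fin N))) _ _ fun f => by
      simp [Equiv.arrowCongr, Function.comp_def]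
  have two : ∀ h, 2 * chi N h = ∑ f, (T h f + T h (f ∘ Equiv.swap i i')) := fun h => by
    rw [sum_add_distrib, hcomp, hT, two_mul]
  have hB : ∀ f, B (f ∘ Equiv.swap i i') = A f := fun f => by
    rw [← hA (f ∘ Equiv.swap i i')]
    congr 1
    funext a
    simp
  refine mul_left_cancel₀ (two_ne_zero : (2 : MvPolynomial (Fin N) (Polynomial ℤ)) ≠ 0) ?_
  rw [mul_add, mul_left_comm, mul_left_comm 2 (C qq), two, two, two, mul_sum, mul_sum,
    ← sum_add_distrib]
  refine sum_congr rfl fun f _ => ?_
  have hx : ∏ a, (X (f (Equiv.swap i i' a)) : MvPolynomial (Fin N) (Polynomial ℤ)) = ∏ a, X (f a) :=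
    Equiv.prod_comp (Equiv.swap i i') fun a => X (f a)
  simp only [T, Function.comp_apply, hx, hpe, h0e, hB, hA f, chW_twins ht,
    chRest_swap ht f]
  simp only [Equiv.swap_apply_left, Equiv.swap_apply_right]
  simp only [← mul_assoc, ← C_mul, ← add_mul, ← C_add, mul_add]
  congr 2
  by_cases he : f i = f i'
  · simp [chE, he]
  · have h1 := hAB f he
    have h2 : chE (f i) (f i') + chE (f i') (f i) = 1 + qq := by
      unfold chE
      split_ifs <;> first | omega | ring
    linear_combination (chRest hm i i' f * (1 + qq)) * h1 -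
      (chRest hm i i' f * (A f * B f + qq)) * h2

theorem chi_modular_right {hm h0 hp : Fin n → Fin n} {i i' c : Fin n}
    (t : TripleR hm h0 hp i i' c) : C (1 + qq) * chi N h0 = chi N hp + C qq * chi N hm := by
  have hs := t.twinsM.succ
  have hr := t.right
  have hii : i ≠ i' := fun e => by simp [e] at hs
  refine chi_modular t.twinsM (fun f => chE (f i') (f c)) (fun f => chE (f i) (f c))
    (chW_insert t.notEdge.2 t.mid) (chW_insert ?_ t.top) (fun f => ?_) fun f he => ?_
  · rw [t.mid]
    rintro (h | h)
    exacts [t.notEdge.1 h, hii h.1]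
  · simp [Equiv.swap_apply_of_ne_of_ne (show c ≠ i by omega) (show c ≠ i' by omega)]
  · linear_combination (chE_pair (f c) he).1

theorem chi_modular_left {hm h0 hp : Fin n → Fin n} {i i' c : Fin n}
    (t : TripleL hm h0 hp i i' c) : C (1 + qq) * chi N h0 = chi N hp + C qq * chi N hm := by
  have hs := t.twinsM.succ
  have hl := t.left
  have hii : i ≠ i' := fun e => by simp [e] at hs
  refine chi_modular t.twinsM (fun f => chE (f c) (f i)) (fun f => chE (f c) (f i'))
    (chW_insert t.notEdge.1 t.mid) (chW_insert ?_ t.top) (fun f => ?_) fun f he => ?_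
  · rw [t.mid]
    rintro (h | h)
    exacts [t.notEdge.2 h, hii h.2.symm]
  · simp [Equiv.swap_apply_of_ne_of_ne (show c ≠ i by omega) (show c ≠ i' by omega)]
  · linear_combination (chE_pair (f c) he).2

theorem chiS_modular (m : Fin N →₀ ℕ) : Modular (n := n) (chiS N m) := by
  intro hm h0 hp i i' c t
  have key : C (1 + qq) * chi N h0 = chi N hp + C qq * chi N hm :=
    t.elim chi_modular_right chi_modular_left
  have h := congrArg (fun p => (((MvPolynomial.coeff m p).map (Int.castRingHom ℚ) : Polynomial ℚ) :
    PowerSeries ℚ)) key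
  simpa [chiS, coeff_add, coeff_C_mul, qq, add_mul] using h

theorem sum_chE_pow (t : Finset (Fin N)) :
    ∑ x ∈ t, qq ^ (t.filter fun y => x < y).card = ∑ r ∈ range t.card, qq ^ r := by
  induction t using Finset.induction_on_min with
  | empty => simp
  | insert a t hlt ih =>
    have ha : a ∉ t := fun h => (hlt a h).false
    rw [sum_insert ha, card_insert_of_notMem ha, sum_range_succ, filter_insert,
      if_neg (lt_irrefl a), filter_true_of_mem hlt, ← ih, add_comm]
    congr 1
    refine sum_congr rfl fun x hx => ?_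
    rw [filter_insert, if_neg (not_lt.2 (hlt x hx).le)]

/-- The weight of a colouring of a clique whose vertices are ordered. -/
def chK {a : ℕ} (g : Fin a → Fin N) : Polynomial ℤ :=
  ∏ i, ∏ j, if i < j then chE (g i) (g j) else 1

theorem chK_cons {a : ℕ} (x : Fin N) (g : Fin a → Fin N) :
    chK (Fin.cons x g : Fin (a + 1) → Fin N) = (∏ j, chE x (g j)) * chK g := by
  simp [chK, Fin.prod_univ_succ, Fin.succ_pos]

theorem sum_chK (a : ℕ) : ∀ t : Finset (Fin N), t.card = a →
    ∑ g : Fin a → Fin N, (if univ.image g = t then chK g else 0) =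
      ∏ r ∈ range a, ∑ i ∈ range (r + 1), qq ^ i := by
  classical
  induction a with
  | zero =>
    intro t ht
    simp [card_eq_zero.1 ht, chK]
  | succ a ih =>
    intro t ht
    have hp : ∑ i ∈ range (a + 1), qq ^ i = ∑ x ∈ t, qq ^ (t.filter fun y => x < y).card := by
      rw [sum_chE_pow, ht]
    rw [← (Fin.consEquiv fun _ => Fin N).sum_comp, Fintype.sum_prod_type, prod_range_succ,
      hp, mul_sum]
    rw [← sum_subset (subset_univ t) (fun x _ hx => ?_)]
    · refine sum_congr rfl fun x hx => ?_
      rw [← ih (t.erase x) (by rw [card_erase_of_mem hx, ht, Nat.add_sub_cancel]), sum_mul]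
      refine sum_congr rfl fun g _ => ?_
      have himg : univ.image (Fin.cons x g : Fin (a + 1) → Fin N) = insert x (univ.image g) := by
        ext y
        simp [Fin.exists_fin_succ, eq_comm]
      simp only [Fin.consEquiv, Equiv.coe_fn_mk, himg, chK_cons]
      by_cases hg : univ.image g = t.erase x
      · rw [if_pos hg, hg, if_pos (insert_erase hx), mul_comm (∏ j, chE x (g j))]
        congr 1
        have hinj : Set.InjOn g (univ : Finset (Fin a)) := card_image_iff.1 (by
          rw [hg, card_erase_of_mem hx, ht, card_univ, Fintype.card_fin, Nat.add_sub_cancel])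
        rw [← prod_image (f := fun y => chE x y) hinj, hg, ← prod_const, prod_filter,
          ← mul_prod_erase t _ hx]
        simp only [lt_self_iff_false, if_false, one_mul]
        exact prod_congr rfl fun y hy => by simp [chE, (ne_of_mem_erase hy).symm]
      · rw [if_neg hg, zero_mul]
        split_ifs with h
        · have hmem : x ∈ univ.image g := by
            by_contra hn
            exact hg (by rw [← h, erase_insert hn])
          obtain ⟨j, -, hj⟩ := mem_image.1 hmem
          rw [prod_eq_zero (mem_univ j) (by simp [chE, hj]), zero_mul]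
        · rfl
    · refine sum_eq_zero fun g _ => if_neg fun h => hx ?_
      rw [← h]
      exact mem_image.2 ⟨0, mem_univ _, by simp [Fin.consEquiv]⟩

theorem sum_clique (a : ℕ) :
    ∑ g : Fin a → Fin N, C (chK g) * ∏ j, X (g j) =
      C (∏ r ∈ range a, ∑ i ∈ range (r + 1), qq ^ i) * esymm (Fin N) (Polynomial ℤ) a := by
  classical
  rw [esymm, mul_sum]
  calc ∑ g : Fin a → Fin N, C (chK g) * ∏ j, X (g j)
      = ∑ g : Fin a → Fin N, ∑ t ∈ powersetCard a univ,
          C (if univ.image g = t then chK g else 0) * ∏ y ∈ t, X y := ?_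
    _ = _ := by
      rw [sum_comm]
      refine sum_congr rfl fun t ht => ?_
      rw [← sum_mul, ← map_sum, sum_chK a t (mem_powersetCard.1 ht).2]
  refine sum_congr rfl fun g _ => ?_
  by_cases hinj : Function.Injective g
  · rw [sum_eq_single (univ.image g) (fun t _ ht => by simp [Ne.symm ht])
      (fun h => absurd (mem_powersetCard.2 ⟨subset_univ _,
        by simp [card_image_of_injective _ hinj]⟩) h),
      if_pos rfl, prod_image fun x _ y _ h => hinj h]
  · rw [Function.Injective] at hinj
    push Not at hinj
    obtain ⟨x, y, hxy, hne⟩ := hinj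
    have h0 : chK g = 0 := by
      rcases lt_or_gt_of_ne hne with h | h
      · exact prod_eq_zero (mem_univ x) (prod_eq_zero (mem_univ y) (by simp [h, chE, hxy]))
      · exact prod_eq_zero (mem_univ y) (prod_eq_zero (mem_univ x) (by simp [h, chE, hxy]))
    simp [h0]

/-- The block of the vertices with a given bound. -/
def blockAt (h : Fin n → Fin n) (b : Fin n) : Finset (Fin n) := univ.filter fun i => h i = b

theorem sum_block (s : Finset (Fin n)) :
    ∑ g : s → Fin N, C (∏ i, ∏ j, if i.1 < j.1 then chE (g i) (g j) else 1) * ∏ j, X (g j) =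
      C (∏ r ∈ range s.card, ∑ i ∈ range (r + 1), qq ^ i) *
        esymm (Fin N) (Polynomial ℤ) s.card := by
  classical
  rw [← sum_clique s.card]
  set o := (s.orderIsoOfFin rfl).toEquiv with ho
  refine Fintype.sum_equiv (Equiv.arrowCongr o.symm (Equiv.refl (Fin N))) _ _ fun g => ?_
  rw [chK, ← o.prod_comp, ← o.prod_comp (fun j => (X (g j) : MvPolynomial (Fin N) (Polynomial ℤ)))]
  congr 2
  refine prod_congr rfl fun i _ => ?_
  rw [← o.prod_comp]
  refine prod_congr rfl fun j _ => ?_
  simp [ho, Equiv.arrowCongr]

theorem chi_cliqueUnion {h : Fin n → Fin n} (hh : IsHess h) (hc : CliqueUnion h) :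
    chi N h = C ((blocks h).map fun a => ∏ r ∈ range a, ∑ i ∈ range (r + 1), qq ^ i).prod *
      ((blocks h).map (esymm (Fin N) (Polynomial ℤ))).prod := by
  classical
  have hadj : ∀ a b, Adj h a b ↔ a < b ∧ h a = h b := fun a b =>
    ⟨fun H => ⟨H.1, (hc a b H.1.le H.2).symm⟩, fun H => ⟨H.1, H.2 ▸ hh.le b⟩⟩
  have hmap : ∀ {M : Type} [CommMonoid M] (F : ℕ → M),
      ((blocks h).map F).prod = ∏ b ∈ univ.image h, F (blockAt h b).card := by
    intro M _ F
    rw [blocks, Multiset.map_map]
    rfl
  rw [hmap, hmap, map_prod, ← prod_mul_distrib]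
  have hempty : ∀ b ∉ univ.image h, (blockAt h b).card = 0 := fun b hb =>
    card_eq_zero.2 (filter_eq_empty_iff.2 fun i _ e => hb (mem_image.2 ⟨i, mem_univ _, e⟩))
  rw [prod_subset (subset_univ _) fun b _ hb => by simp [hempty b hb]]
  simp only [← sum_block, Fintype.prod_sum]
  rw [chi_eq_sum]
  refine Fintype.sum_equiv
    { toFun := fun f b i => f i.1
      invFun := fun (G : ∀ b, blockAt h b → Fin N) a => G (h a) ⟨a, by simp [blockAt]⟩
      left_inv := fun f => rfl
      right_inv := fun G => by
        funext b ⟨a, ha⟩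
        obtain rfl : h a = b := (mem_filter.1 ha).2
        rfl } _ _ fun f => ?_
  simp only [Equiv.coe_fn_mk]
  rw [prod_mul_distrib, ← map_prod]
  have hfib : ∀ {M : Type} [CommMonoid M] (F : Fin n → M),
      ∏ b, ∏ i : blockAt h b, F i = ∏ a, F a := by
    intro M _ F
    simp_rw [prod_coe_sort (blockAt h _) F]
    exact prod_fiberwise univ h F
  congr 1
  · congr 1
    rw [chW, edges, prod_filter, Fintype.prod_prod_type,
      ← hfib fun a => ∏ b, if Adj h a b then chE (f a) (f b) else 1]
    refine prod_congr rfl fun b _ => prod_congr rfl fun i _ => ?_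
    rw [prod_coe_sort (blockAt h b) (fun j => if i.1 < j then chE (f i) (f j) else 1)]
    have hi : h i.1 = b := by simpa [blockAt] using i.2
    obtain ⟨i, hib⟩ := i
    dsimp only at hi ⊢
    simp only [blockAt, prod_filter]
    refine prod_congr rfl fun j _ => ?_
    by_cases hlt : i < j
    · by_cases hj : h j = b
      · rw [if_pos ((hadj i j).2 ⟨hlt, hi.trans hj.symm⟩), if_pos hj, if_pos hlt]
      · rw [if_neg fun H => hj (((hadj i j).1 H).2.symm.trans hi), if_neg hj]
    · rw [if_neg fun H => hlt H.1, if_neg hlt, ite_self]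
  · exact (hfib fun a => (X (f a) : MvPolynomial (Fin N) (Polynomial ℤ))).symm

/-- B. The chromatic side. -/
theorem chi_stmt : ChiStmt := fun _ _ => ⟨chiS_modular, fun _ => chi_cliqueUnion⟩

end Vale.Agent.P066.Z
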