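import Mathlib
import Vale.Agent.P066.Z.Spec

/-!
# P066: divided differences of GKM functions at twin slots
-/

noncomputable section

namespace Vale.Agent.P066.Z

open Finset MvPolynomial

variable {n : ℕ}

/-- The label of slot `a`, as a function. -/
def tau (a : Fin n) : Fn n := fun w => X (w a)

theorem sub_ne (a b : Fin n) (hab : a ≠ b) : (X a - X b : P n) ≠ 0 :=
  sub_ne_zero.2 fun h => hab (MvPolynomial.X_injective h)

/-- The substitution of `X a` for `X b`. -/
def merge (a b : Fin n) : P n →ₐ[ℚ] P n := aeval fun x => if x = b then X a else X x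

theorem dvd_iff_merge (a b : Fin n) (p : P n) : X a - X b ∣ p ↔ merge a b p = 0 := by
  have key : ∀ p : P n, X a - X b ∣ p - merge a b p := by
    intro p
    induction p using MvPolynomial.induction_on with
    | C c => simp [merge]
    | add p q hp hq => rw [map_add, add_sub_add_comm]; exact dvd_add hp hq
    | mul_X p x hp =>
      have hx : X a - X b ∣ (X x : P n) - merge a b (X x) := by
        by_cases h : x = b
        · subst h; rw [merge, aeval_X, if_pos rfl]; exact ⟨-1, by ring⟩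
        · simp [merge, h]
      rw [map_mul, show p * X x - merge a b p * merge a b (X x) =
        (p - merge a b p) * X x + merge a b p * (X x - merge a b (X x)) by ring]
      exact dvd_add (hp.mul_right _) (hx.mul_left _)
  constructor
  · rintro ⟨u, rfl⟩
    rw [map_mul]
    simp [merge]
  · intro h
    simpa [h] using key p

theorem dvd_cancel {a b : Fin n} {p q : P n} (h : X a - X b ∣ p * q) (hp : ¬ X a - X b ∣ p) :
    X a - X b ∣ q := by
  rw [dvd_iff_merge] at h hp ⊢
  rw [map_mul] at h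
  exact (mul_eq_zero.1 h).resolve_left hp

theorem not_dvd_sub {a b c d : Fin n} (hcd : c ≠ d)
    (h : ¬ ((a = c ∧ b = d) ∨ (a = d ∧ b = c))) : ¬ (X a - X b : P n) ∣ X c - X d := by
  rw [dvd_iff_merge, map_sub, merge, aeval_X, aeval_X, sub_eq_zero]
  intro e
  split_ifs at e with h1 h2 h2
  · exact hcd (h1.trans h2.symm)
  · exact h (Or.inr ⟨MvPolynomial.X_injective e, h1.symm⟩)
  · exact h (Or.inl ⟨(MvPolynomial.X_injective e).symm, h2.symm⟩)
  · exact hcd (MvPolynomial.X_injective e)

/-- The GKM condition at the pair of slots `a`, `b`. -/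
def Edge (f : Fn n) (a b : Fin n) : Prop :=
  ∀ w, X (w a) - X (w b) ∣ f w - f (w * Equiv.swap a b)

theorem mem_M {h : Fin n → Fin n} {f : Fn n} : f ∈ M h ↔ ∀ a b, Adj h a b → Edge f a b :=
  ⟨fun hf a b hab w => hf w a b hab, fun hf w a b hab => hf a b hab w⟩

theorem Edge.sub {f g : Fn n} {a b : Fin n} (hf : Edge f a b) (hg : Edge g a b) :
    Edge (f - g) a b := fun w => by
  rw [Pi.sub_apply, Pi.sub_apply, sub_sub_sub_comm]
  exact dvd_sub (hf w) (hg w)

theorem Edge.mul {f g : Fn n} {a b : Fin n} (hf : Edge f a b) (hg : Edge g a b) :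
    Edge (f * g) a b := fun w => by
  rw [Pi.mul_apply, Pi.mul_apply, show f w * g w - f (w * Equiv.swap a b) * g (w * Equiv.swap a b) =
    (f w - f (w * Equiv.swap a b)) * g w +
      f (w * Equiv.swap a b) * (g w - g (w * Equiv.swap a b)) by ring]
  exact dvd_add ((hf w).mul_right _) ((hg w).mul_left _)

theorem edge_tau (x a b : Fin n) : Edge (tau x) a b := fun w => by
  simp only [tau, Equiv.Perm.mul_apply]
  by_cases ha : x = a
  · subst ha; rw [Equiv.swap_apply_left]
  · by_cases hb : x = b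
    · subst hb; rw [Equiv.swap_apply_right]; exact ⟨-1, by ring⟩
    · rw [Equiv.swap_apply_of_ne_of_ne ha hb, sub_self]; exact dvd_zero _

theorem edge_one (a b : Fin n) : Edge (1 : Fn n) a b := fun w => by simp

theorem mul_mem_M {h : Fin n → Fin n} {f g : Fn n} (hf : f ∈ M h) (hg : g ∈ M h) : f * g ∈ M h :=
  mem_M.2 fun a b hab => (mem_M.1 hf a b hab).mul (mem_M.1 hg a b hab)

theorem tau_mem_M (h : Fin n → Fin n) (x : Fin n) : tau x ∈ M h :=
  mem_M.2 fun a b _ => edge_tau x a b

theorem slotSwap_apply (i i' : Fin n) (f : Fn n) (w : Equiv.Perm (Fin n)) :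
    slotSwap i i' f w = f (w * Equiv.swap i i') := rfl

theorem slotSwap_tau (i i' x : Fin n) : slotSwap i i' (tau x) = tau (Equiv.swap i i' x) := rfl

theorem slotSwap_mul (i i' : Fin n) (f g : Fn n) :
    slotSwap i i' (f * g) = slotSwap i i' f * slotSwap i i' g := rfl

theorem slotSwap_slotSwap (i i' : Fin n) (f : Fn n) : slotSwap i i' (slotSwap i i' f) = f := by
  funext w
  simp [slotSwap_apply, mul_assoc]

theorem swap_conj (i i' a b : Fin n) (w : Equiv.Perm (Fin n)) :
    w * Equiv.swap a b * Equiv.swap i i' =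
      w * Equiv.swap i i' * Equiv.swap (Equiv.swap i i' a) (Equiv.swap i i' b) := by
  rw [Equiv.swap_apply_apply, Equiv.swap_inv, mul_assoc, mul_assoc, ← mul_assoc (Equiv.swap i i'),
    ← mul_assoc (Equiv.swap i i'), Equiv.swap_mul_self, one_mul]

theorem Edge.slotSwap {f : Fn n} {i i' a b : Fin n}
    (hf : Edge f (Equiv.swap i i' a) (Equiv.swap i i' b)) : Edge (slotSwap i i' f) a b := fun w => by
  have h := hf (w * Equiv.swap i i')
  simp only [Equiv.Perm.mul_apply, Equiv.swap_apply_self] at h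
  rw [slotSwap_apply, slotSwap_apply, swap_conj]
  exact h

theorem Edge.symm {f : Fn n} {a b : Fin n} (hf : Edge f a b) : Edge f b a := fun w => by
  rw [Equiv.swap_comm, ← neg_dvd, neg_sub]
  exact hf w

theorem edge_of_fixed {f : Fn n} {i i' : Fin n} (hf : Z.slotSwap i i' f = f) : Edge f i i' :=
  fun w => by rw [← slotSwap_apply i i' f w, hf, sub_self]; exact dvd_zero _

theorem mem_Msym_iff {h : Fin n → Fin n} {i i' : Fin n} {f : Fn n} :
    f ∈ Msym h i i' ↔ f ∈ M h ∧ slotSwap i i' f = f := by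
  simp [Msym, sub_eq_zero]

theorem Twins.lt {h : Fin n → Fin n} {i i' : Fin n} (ht : Twins h i i') : i < i' := ht.edge.1

theorem Twins.adj_swap {h : Fin n → Fin n} {i i' : Fin n} (ht : Twins h i i') {a b : Fin n}
    (hab : Adj h a b) (hne : ¬ (a = i ∧ b = i')) :
    Adj h (Equiv.swap i i' a) (Equiv.swap i i' b) := by
  have hs := ht.succ
  have hlt : a < b := hab.1
  have hii := ht.lt
  by_cases ha : a = i
  · subst ha
    have hb : i' < b := by
      have h1 : b.1 ≠ i'.1 := fun e => hne ⟨rfl, Fin.ext e⟩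
      omega
    rw [Equiv.swap_apply_left, Equiv.swap_apply_of_ne_of_ne hlt.ne' hb.ne']
    exact (ht.after b hb).1 hab
  by_cases ha' : a = i'
  · subst ha'
    rw [Equiv.swap_apply_right, Equiv.swap_apply_of_ne_of_ne (hii.trans hlt).ne' hlt.ne']
    exact (ht.after b hlt).2 hab
  rw [Equiv.swap_apply_of_ne_of_ne ha ha']
  by_cases hb : b = i
  · subst hb
    rw [Equiv.swap_apply_left]
    exact (ht.before a hlt).1 hab
  by_cases hb' : b = i'
  · subst hb'
    have : a.1 ≠ i.1 := fun e => ha (Fin.ext e)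
    rw [Equiv.swap_apply_right]
    exact (ht.before a (by omega)).2 hab
  rw [Equiv.swap_apply_of_ne_of_ne hb hb']
  exact hab

theorem delta_ne {i i' : Fin n} (hii : i ≠ i') (w : Equiv.Perm (Fin n)) :
    (tau i - tau i' : Fn n) w ≠ 0 :=
  sub_ne _ _ fun e => hii (w.injective e)

theorem fn_cancel {δ f g : Fn n} (hδ : ∀ w, δ w ≠ 0) (h : δ * f = δ * g) : f = g :=
  funext fun w => mul_left_cancel₀ (hδ w) (congrFun h w)

theorem delta_not_dvd {i i' a b : Fin n} (hii : i ≠ i')
    (hne : ¬ ((a = i ∧ b = i') ∨ (a = i' ∧ b = i))) (w : Equiv.Perm (Fin n)) :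
    ¬ X (w a) - X (w b) ∣ (tau i - tau i' : Fn n) w :=
  not_dvd_sub (fun e => hii (w.injective e)) fun h => hne <| by
    rcases h with ⟨h1, h2⟩ | ⟨h1, h2⟩
    · exact Or.inl ⟨w.injective h1, w.injective h2⟩
    · exact Or.inr ⟨w.injective h1, w.injective h2⟩

/-- A quotient by a function that the edge form does not divide satisfies the condition. -/
theorem Edge.of_mul {δ g : Fn n} {a b : Fin n} (h : Edge (δ * g) a b) (hδ : Edge δ a b)
    (hn : ∀ w, ¬ X (w a) - X (w b) ∣ δ w) : Edge g a b := fun w => by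
  refine dvd_cancel (p := δ w) ?_ (hn w)
  have := dvd_sub (h w) ((hδ w).mul_right (g (w * Equiv.swap a b)))
  simp only [Pi.mul_apply] at this
  convert this using 1
  ring

/-- The twisted divided difference at twin slots. -/
theorem exists_div {i i' : Fin n} (hii : i ≠ i') {f al be : Fn n} (hf : Edge f i i')
    (hs : slotSwap i i' al = be)
    (hdiv : ∀ w, X (w i) - X (w i') ∣ al w - be w) :
    ∃ g : Fn n, (tau i - tau i') * g = al * f - be * slotSwap i i' f ∧ slotSwap i i' g = g ∧
      ∀ a b, ¬ ((a = i ∧ b = i') ∨ (a = i' ∧ b = i)) →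
        Edge (al * f) a b → Edge (be * slotSwap i i' f) a b → Edge g a b := by
  have hex : ∀ w, X (w i) - X (w i') ∣ (al * f - be * slotSwap i i' f) w := fun w => by
    simp only [Pi.sub_apply, Pi.mul_apply, slotSwap_apply]
    rw [show al w * f w - be w * f (w * Equiv.swap i i') =
      (al w - be w) * f w + be w * (f w - f (w * Equiv.swap i i')) by ring]
    exact dvd_add ((hdiv w).mul_right _) ((hf w).mul_left _)
  choose g hg using hex
  have hg' : (tau i - tau i') * g = al * f - be * slotSwap i i' f := funext fun w => (hg w).symm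
  refine ⟨g, hg', fn_cancel (delta_ne hii) ?_, fun a b hne h1 h2 => ?_⟩
  · have hbe : slotSwap i i' be = al := by rw [← hs, slotSwap_slotSwap]
    have e := congrArg (slotSwap i i') hg'
    simp only [slotSwap_mul, map_sub, slotSwap_tau, Equiv.swap_apply_left, Equiv.swap_apply_right,
      slotSwap_slotSwap, hs, hbe] at e
    linear_combination -e - hg'
  · refine Edge.of_mul ?_ ((edge_tau i a b).sub (edge_tau i' a b)) (delta_not_dvd hii hne)
    rw [hg']
    exact h1.sub h2

/-- The divided difference at twin slots. -/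
theorem exists_diff {i i' : Fin n} {hB hC : Fin n → Fin n} (ht : Twins hC i i')
    (hsub : ∀ a b, Adj hC a b → Adj hB a b) {f : Fn n} (hf : f ∈ M hB) :
    ∃ g ∈ Msym hC i i', (tau i - tau i') * g = f - slotSwap i i' f := by
  obtain ⟨g, hg, hgs, hge⟩ := exists_div ht.lt.ne
    (mem_M.1 hf i i' (hsub _ _ ht.edge)) (al := 1) (be := 1) rfl (fun w => by simp)
  rw [one_mul, one_mul] at hg hge
  refine ⟨g, mem_Msym_iff.2 ⟨mem_M.2 fun a b hab => ?_, hgs⟩, hg⟩
  by_cases hne : a = i ∧ b = i'
  · rw [hne.1, hne.2]; exact edge_of_fixed hgs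
  refine hge a b (fun h => h.elim hne fun h' => absurd (hab.1.trans (?_ : b < a)) (lt_irrefl a))
    (mem_M.1 hf a b (hsub _ _ hab))
    (Edge.slotSwap (mem_M.1 hf _ _ (hsub _ _ (ht.adj_swap hab hne))))
  rw [h'.1, h'.2]; exact ht.lt

theorem TripleR.adjM_mid {hm h0 hp : Fin n → Fin n} {i i' c : Fin n}
    (T : TripleR hm h0 hp i i' c) {a b : Fin n} (h : Adj hm a b) : Adj h0 a b :=
  (T.mid a b).2 (Or.inl h)

theorem TripleL.adjM_mid {hm h0 hp : Fin n → Fin n} {i i' c : Fin n}
    (T : TripleL hm h0 hp i i' c) {a b : Fin n} (h : Adj hm a b) : Adj h0 a b :=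
  (T.mid a b).2 (Or.inl h)

theorem M_anti {hB hC : Fin n → Fin n} (hsub : ∀ a b, Adj hC a b → Adj hB a b) : M hB ≤ M hC :=
  fun _ hf => mem_M.2 fun a b hab => mem_M.1 hf a b (hsub a b hab)

theorem TripleR.le_mid {hm h0 hp : Fin n → Fin n} {i i' c : Fin n}
    (T : TripleR hm h0 hp i i' c) : Msym hp i i' ≤ M h0 :=
  inf_le_left.trans (M_anti fun a b h => (T.top a b).2 (Or.inl h))

theorem TripleL.le_mid {hm h0 hp : Fin n → Fin n} {i i' c : Fin n}
    (T : TripleL hm h0 hp i i' c) : Msym hp i i' ≤ M h0 :=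
  inf_le_left.trans (M_anti fun a b h => (T.top a b).2 (Or.inl h))

theorem TripleR.fixed_mem {hm h0 hp : Fin n → Fin n} {i i' c : Fin n}
    (T : TripleR hm h0 hp i i' c) {f : Fn n} (hf : f ∈ M h0) (hs : slotSwap i i' f = f) :
    f ∈ Msym hp i i' := by
  refine mem_Msym_iff.2 ⟨mem_M.2 fun a b hab => ?_, hs⟩
  rcases (T.top a b).1 hab with h | ⟨rfl, rfl⟩
  · exact mem_M.1 hf a b h
  · rw [← hs]
    apply Edge.slotSwap
    rw [Equiv.swap_apply_left,
      Equiv.swap_apply_of_ne_of_ne (T.twinsM.lt.trans T.right).ne' T.right.ne']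
    exact mem_M.1 hf _ _ ((T.mid _ _).2 (Or.inr ⟨rfl, rfl⟩))

theorem TripleR.sec_mem {hm h0 hp : Fin n → Fin n} {i i' c : Fin n}
    (T : TripleR hm h0 hp i i' c) {g : Fn n} (hg : g ∈ Msym hm i i') :
    (tau c - tau i') * g ∈ M h0 := by
  refine mem_M.2 fun a b hab => ?_
  rcases (T.mid a b).1 hab with h | ⟨rfl, rfl⟩
  · exact ((edge_tau _ _ _).sub (edge_tau _ _ _)).mul (mem_M.1 hg.1 a b h)
  · intro w
    simp only [Pi.mul_apply, Pi.sub_apply, tau, Equiv.Perm.mul_apply, Equiv.swap_apply_left,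
      Equiv.swap_apply_right]
    exact ⟨-g w - g (w * Equiv.swap a b), by ring⟩

theorem TripleL.inj_mem {hm h0 hp : Fin n → Fin n} {i i' c : Fin n}
    (T : TripleL hm h0 hp i i' c) {f : Fn n} (hf : f ∈ Msym hm i i') :
    (tau i - tau c) * f ∈ M h0 := by
  refine mem_M.2 fun a b hab => ?_
  rcases (T.mid a b).1 hab with h | ⟨rfl, rfl⟩
  · exact ((edge_tau _ _ _).sub (edge_tau _ _ _)).mul (mem_M.1 hf.1 a b h)
  · intro w
    simp only [Pi.mul_apply, Pi.sub_apply, tau, Equiv.Perm.mul_apply, Equiv.swap_apply_left,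
      Equiv.swap_apply_right]
    exact ⟨-f w - f (w * Equiv.swap a b), by ring⟩

/-- The twisted divided difference of a left triple. -/
theorem TripleL.exists_diff {hm h0 hp : Fin n → Fin n} {i i' c : Fin n}
    (T : TripleL hm h0 hp i i' c) {f : Fn n} (hf : f ∈ M h0) :
    ∃ g ∈ Msym hp i i', (tau i - tau i') * g =
      (tau i' - tau c) * f - (tau i - tau c) * slotSwap i i' f := by
  have hii := T.twinsM.lt
  have hci : c < i := T.left
  have hc : Equiv.swap i i' c = c :=
    Equiv.swap_apply_of_ne_of_ne hci.ne (hci.trans hii).ne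
  obtain ⟨g, hg, hgs, hge⟩ := exists_div hii.ne
    (mem_M.1 hf i i' (T.adjM_mid T.twinsM.edge)) (al := tau i' - tau c) (be := tau i - tau c)
    (by rw [map_sub, slotSwap_tau, slotSwap_tau, Equiv.swap_apply_right, hc])
    (fun w => ⟨-1, by simp only [Pi.sub_apply, tau]; ring⟩)
  have e1 : ∀ a b, Edge (tau i' - tau c) a b ∧ Edge (tau i - tau c) a b := fun a b =>
    ⟨(edge_tau _ _ _).sub (edge_tau _ _ _), (edge_tau _ _ _).sub (edge_tau _ _ _)⟩
  have hci_edge : Edge g c i := by
    refine hge c i (fun h => h.elim (fun h' => hci.ne h'.1) fun h' => (hci.trans hii).ne h'.1)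
      ((e1 c i).1.mul (mem_M.1 hf c i ((T.mid c i).2 (Or.inr ⟨rfl, rfl⟩)))) ?_
    intro w
    have key : ∀ p q : P n, X (w c) - X (w i) ∣ (X (w i) - X (w c)) * p - (X (w c) - X (w i)) * q :=
      fun p q => ⟨-p - q, by ring⟩
    simpa only [Pi.mul_apply, Pi.sub_apply, tau, Equiv.Perm.mul_apply, Equiv.swap_apply_left,
      Equiv.swap_apply_right] using key (slotSwap i i' f w) (slotSwap i i' f (w * Equiv.swap c i))
  refine ⟨g, mem_Msym_iff.2 ⟨mem_M.2 fun a b hab => ?_, hgs⟩, hg⟩
  rcases (T.top a b).1 hab with h | ⟨ha, hb⟩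
  · rcases (T.mid a b).1 h with h' | ⟨ha, hb⟩
    · by_cases hne : a = i ∧ b = i'
      · rw [hne.1, hne.2]; exact edge_of_fixed hgs
      refine hge a b (fun k => k.elim hne fun k' => ?_)
        ((e1 a b).1.mul (mem_M.1 hf a b h))
        ((e1 a b).2.mul (Edge.slotSwap (mem_M.1 hf _ _ (T.adjM_mid (T.twinsM.adj_swap h' hne)))))
      rw [k'.1, k'.2] at hab
      exact lt_asymm hii hab.1
    · rw [ha, hb]; exact hci_edge
  · rw [ha, hb, ← hgs]
    apply Edge.slotSwap
    rw [hc, Equiv.swap_apply_right]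
    exact hci_edge

/-- The kernel of the twisted divided difference. -/
theorem TripleL.exists_factor {hm h0 hp : Fin n → Fin n} {i i' c : Fin n}
    (T : TripleL hm h0 hp i i' c) {f : Fn n} (hf : f ∈ M h0)
    (hk : (tau i' - tau c) * f = (tau i - tau c) * slotSwap i i' f) :
    ∃ g ∈ Msym hm i i', (tau i - tau c) * g = f := by
  have hii := T.twinsM.lt
  have hci : c < i := T.left
  have hc : Equiv.swap i i' c = c :=
    Equiv.swap_apply_of_ne_of_ne hci.ne (hci.trans hii).ne
  have hdvd : ∀ w, X (w i) - X (w c) ∣ f w := fun w => by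
    have hw : (X (w i') - X (w c)) * f w = (X (w i) - X (w c)) * slotSwap i i' f w := by
      simpa only [Pi.mul_apply, Pi.sub_apply, tau] using congrFun hk w
    refine dvd_cancel (p := X (w i') - X (w c)) ⟨_, hw⟩
      (not_dvd_sub (fun e => (hci.trans hii).ne (w.injective e).symm) fun h => ?_)
    rcases h with ⟨h1, -⟩ | ⟨h1, -⟩
    · exact hii.ne (w.injective h1)
    · exact hci.ne (w.injective h1).symm
  choose g hg using hdvd
  have hg' : (tau i - tau c) * g = f := funext fun w => (hg w).symm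
  have hgs : slotSwap i i' g = g := by
    refine fn_cancel (delta_ne hci.ne') (fn_cancel (delta_ne (hci.trans hii).ne') ?_)
    have e := congrArg (slotSwap i i') hg'
    simp only [slotSwap_mul, map_sub, slotSwap_tau, Equiv.swap_apply_left, hc] at e
    linear_combination (tau i - tau c) * e - hk - (tau i' - tau c) * hg'
  refine ⟨g, mem_Msym_iff.2 ⟨mem_M.2 fun a b hab => ?_, hgs⟩, hg'⟩
  refine Edge.of_mul ?_ ((edge_tau i a b).sub (edge_tau c a b))
    (delta_not_dvd hci.ne' fun k => ?_)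
  · rw [hg']; exact mem_M.1 hf a b (T.adjM_mid hab)
  · rcases k with ⟨rfl, rfl⟩ | ⟨rfl, rfl⟩
    · exact lt_asymm hci hab.1
    · exact T.notEdge.1 hab

end Vale.Agent.P066.Z
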