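import Mathlib
import Vale.Agent.P066.Z.Spec

/-!
# P066: Z preserves the GKM module and the degree

Over the Vandermonde product the value of Z at `w` has the numerator
`N w = ∑ v, Φ w v * f v * q v`, where `Φ` is the product over edges of `X (v j) - X (w i)` on
compatible pairs and `q v` is the signed product over non-edges. Every prime `X a - X b` divides
`N w`, by pairing `v` with `swap a b * v`; the same pairing applied to the divided differences of
`Φ` in `w` gives the GKM condition of the image.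
-/

noncomputable section

namespace Vale.Agent.P066.Z.Exists

open Finset MvPolynomial Equiv

variable {n : ℕ}

/-- The linear form of a pair of labels. -/
def dl (a b : Fin n) : P n := X b - X a

/-- All pairs of slots. -/
def pairs (n : ℕ) : Finset (Fin n × Fin n) := univ.filter fun e => e.1 < e.2

/-- The pairs that are not edges. -/
def nonEdges (h : Fin n → Fin n) : Finset (Fin n × Fin n) :=
  (pairs n).filter fun e => ¬ Adj h e.1 e.2

/-- The Vandermonde product. -/
def vand (n : ℕ) : P n := ∏ e ∈ pairs n, dl e.1 e.2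

/-- The sign of a permutation. -/
def sgn (v : Perm (Fin n)) : P n := ((Perm.sign v : ℤ) : P n)

/-- The cofactor of the edge product. -/
def cof (h : Fin n → Fin n) (v : Perm (Fin n)) : P n :=
  sgn v * ∏ e ∈ nonEdges h, dl (v e.1) (v e.2)

/-- The numerator of the kernel. -/
def num (h : Fin n → Fin n) (w v : Perm (Fin n)) : P n :=
  ∏ e ∈ edges h, dl (w e.1) (v e.2)

lemma dl_neg (a b : Fin n) : dl a b = -dl b a := by simp [dl]

lemma dl_dvd_symm {a b : Fin n} {x : P n} (h : dl a b ∣ x) : dl b a ∣ x := by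
  rw [dl_neg, neg_dvd]; exact h

lemma dl_sq_symm (a b : Fin n) : dl a b * dl a b = dl b a * dl b a := by
  rw [dl_neg, neg_mul_neg]

lemma dl_ne_zero {a b : Fin n} (hab : a ≠ b) : dl a b ≠ 0 :=
  sub_ne_zero.2 fun h => hab (X_injective h).symm

lemma rename_dl (σ : Perm (Fin n)) (a b : Fin n) : rename σ (dl a b) = dl (σ a) (σ b) := by
  simp [dl]

lemma rename_swap_dl (a b : Fin n) : rename (swap a b) (dl a b) = -dl a b := by
  rw [rename_dl, swap_apply_left, swap_apply_right, dl_neg]

/-- Exchanging two variables changes a polynomial by a multiple of their difference. -/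
lemma dvd_sub_rename (a b : Fin n) (x : P n) : dl a b ∣ x - rename (swap a b) x := by
  induction x using MvPolynomial.induction_on with
  | C c => simp
  | add p q hp hq =>
    rw [map_add, add_sub_add_comm]
    exact dvd_add hp hq
  | mul_X p i hp =>
    have hi : dl a b ∣ X i - rename (swap a b) (X i) := by
      rw [rename_X]
      by_cases ha : i = a
      · exact ⟨-1, by subst ha; rw [swap_apply_left, dl]; ring⟩
      by_cases hb : i = b
      · exact ⟨1, by subst hb; rw [swap_apply_right, dl]; ring⟩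
      exact ⟨0, by rw [swap_apply_of_ne_of_ne ha hb]; ring⟩
    rw [map_mul]
    have e : p * X i - rename (swap a b) p * rename (swap a b) (X i) =
        (p - rename (swap a b) p) * X i +
          rename (swap a b) p * (X i - rename (swap a b) (X i)) := by ring
    rw [e]
    exact dvd_add (hp.mul_right _) (hi.mul_left _)

/-- The symmetrisation of a multiple of `dl a b` is a multiple of its square. -/
lemma sq_dvd_add_rename {a b : Fin n} {x : P n} (h : dl a b ∣ x) :
    dl a b * dl a b ∣ x + rename (swap a b) x := by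
  obtain ⟨c, rfl⟩ := h
  have e : dl a b * c + rename (swap a b) (dl a b * c) =
      dl a b * (c - rename (swap a b) c) := by
    rw [map_mul, rename_swap_dl]; ring
  rw [e]
  exact mul_dvd_mul_left _ (dvd_sub_rename a b c)

/-! ### primes -/

lemma irreducible_dl {a b : Fin n} (hab : a ≠ b) : Irreducible (dl a b) := by
  have hc : (Finsupp.single b 1 - Finsupp.single a 1 : Fin n →₀ ℚ) b = 1 := by
    simp [Finsupp.single_eq_of_ne hab.symm]
  have h := irreducible_sumSMulX (Finsupp.single b 1 - Finsupp.single a 1 : Fin n →₀ ℚ)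
    ⟨b, Finsupp.mem_support_iff.2 (by rw [hc]; exact one_ne_zero)⟩
    fun r hr => isUnit_of_dvd_one (hc ▸ hr b)
  simpa [sumSMulX, dl, Finsupp.linearCombination_single] using h

lemma prime_dl {a b : Fin n} (hab : a ≠ b) : Prime (dl a b) := (irreducible_dl hab).prime

lemma eq_of_dvd_dl {a b c d : Fin n} (hab : a < b) (hcd : c < d) (h : dl a b ∣ dl c d) :
    a = c ∧ b = d := by
  obtain ⟨r, hr⟩ := h
  set x : Fin n → ℚ := fun i => if i = a ∨ i = b then 0 else (i.1 : ℚ) + 1 with hx
  have h0 : x d = x c := by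
    have := congrArg (eval x) hr
    simpa [dl, hx, sub_eq_zero] using this
  have hpos : ∀ i : Fin n, (i.1 : ℚ) + 1 ≠ 0 := fun i => by positivity
  by_cases hc : c = a ∨ c = b <;> by_cases hd : d = a ∨ d = b <;>
    simp only [hx, hc, hd, if_true, if_false] at h0
  · rcases hc with rfl | rfl <;> rcases hd with rfl | rfl
    · exact absurd hcd (lt_irrefl _)
    · exact ⟨rfl, rfl⟩
    · exact absurd hcd (lt_asymm hab)
    · exact absurd hcd (lt_irrefl _)
  · exact absurd h0 (hpos d)
  · exact absurd h0.symm (hpos c)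
  · exact absurd (Fin.ext (by exact_mod_cast add_right_cancel h0)) hcd.ne'

lemma vand_ne_zero (n : ℕ) : vand n ≠ 0 :=
  Finset.prod_ne_zero_iff.2 fun e he => dl_ne_zero (mem_filter.1 he).2.ne

lemma not_sq_dvd_vand {a b : Fin n} (hab : a < b) {x : P n}
    (h : dl a b * dl a b ∣ x * vand n) : dl a b ∣ x := by
  have he : (a, b) ∈ pairs n := mem_filter.2 ⟨mem_univ _, hab⟩
  rw [vand, ← mul_prod_erase _ _ he, mul_left_comm] at h
  have h' := (mul_dvd_mul_iff_left (dl_ne_zero hab.ne)).1 h
  refine ((prime_dl hab.ne).dvd_or_dvd h').resolve_right fun h2 => ?_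
  obtain ⟨e, he', hd⟩ := ((prime_dl hab.ne).dvd_finsetProd_iff _).1 h2
  obtain ⟨hne, hp⟩ := mem_erase.1 he'
  obtain ⟨h1, h2⟩ := eq_of_dvd_dl hab (mem_filter.1 hp).2 hd
  exact hne (Prod.ext h1.symm h2.symm)

lemma vand_dvd {x : P n} (h : ∀ a b : Fin n, a < b → dl a b ∣ x) : vand n ∣ x := by
  refine Finset.prod_dvd_of_isRelPrime (fun e he e' he' hne => ?_)
    fun e he => h _ _ (mem_filter.1 he).2
  have h1 := (mem_filter.1 (mem_coe.1 he)).2
  have h2 := (mem_filter.1 (mem_coe.1 he')).2
  exact (irreducible_dl h1.ne).isRelPrime_iff_not_dvd.2 fun hd =>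
    hne (Prod.ext (eq_of_dvd_dl h1 h2 hd).1 (eq_of_dvd_dl h1 h2 hd).2)

/-! ### the cofactor -/

lemma prod_pairs (f : Fin n → Fin n → P n) :
    ∏ e ∈ pairs n, f e.1 e.2 = ∏ i, ∏ j ∈ Ioi i, f i j :=
  Finset.prod_finset_product _ _ _ fun e => by simp [pairs]

lemma prod_pairs_perm (v : Perm (Fin n)) :
    ∏ e ∈ pairs n, dl (v e.1) (v e.2) = sgn v * vand n := by
  rw [prod_pairs fun i j => dl (v i) (v j), vand, prod_pairs fun i j => dl i j]
  simp only [dl]
  rw [← Matrix.det_vandermonde fun i => (X (v i) : P n),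
    ← Matrix.det_vandermonde (X : Fin n → P n), sgn, ← Matrix.det_permute]
  rfl

lemma sgn_mul_self (v : Perm (Fin n)) : sgn v * sgn v = 1 := by
  rw [sgn, ← Int.cast_mul, ← Units.val_mul, Int.units_mul_self]; simp

lemma edgeProd_mul_cof (h : Fin n → Fin n) (v : Perm (Fin n)) :
    (∏ e ∈ edges h, dl (v e.1) (v e.2)) * cof h v = vand n := by
  have he : edges h = (pairs n).filter fun e => Adj h e.1 e.2 := by
    ext e
    simp only [edges, pairs, mem_filter, mem_univ, true_and]
    exact ⟨fun h' => ⟨h'.1, h'⟩, fun h' => h'.2⟩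
  rw [cof, nonEdges, he, mul_left_comm, prod_filter_mul_prod_filter_not, prod_pairs_perm,
    ← mul_assoc, sgn_mul_self, one_mul]

lemma cof_swap (h : Fin n → Fin n) {a b : Fin n} (hab : a ≠ b) (v : Perm (Fin n)) :
    cof h (swap a b * v) = -rename (swap a b) (cof h v) := by
  simp [cof, sgn, map_mul, map_prod, rename_dl, Perm.sign_mul, Perm.sign_swap hab]

lemma num_rename (h : Fin n → Fin n) (σ w v : Perm (Fin n)) :
    num h (σ * w) (σ * v) = rename σ (num h w v) := by
  simp [num, map_prod, rename_dl]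

lemma swap_mul_swap_mul (a b : Fin n) (v : Perm (Fin n)) : swap a b * (swap a b * v) = v := by
  rw [← mul_assoc, swap_mul_self, one_mul]

/-! ### the pairing -/

/-- The labels `a`, `b` sit on an edge of `v`. -/
def OnEdge (h : Fin n → Fin n) (a b : Fin n) (v : Perm (Fin n)) : Prop :=
  ∃ k l, Adj h k l ∧ ((v k = a ∧ v l = b) ∨ (v k = b ∧ v l = a))

lemma dl_dvd_cof (h : Fin n → Fin n) {a b : Fin n} (hab : a ≠ b) {v : Perm (Fin n)}
    (hv : ¬ OnEdge h a b v) : dl a b ∣ cof h v := by
  refine Dvd.dvd.mul_left ?_ _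
  rcases lt_trichotomy (v.symm a) (v.symm b) with hlt | he | hgt
  · have hm : (v.symm a, v.symm b) ∈ nonEdges h := mem_filter.2 ⟨mem_filter.2 ⟨mem_univ _, hlt⟩,
      fun ha => hv ⟨_, _, ha, Or.inl ⟨v.apply_symm_apply a, v.apply_symm_apply b⟩⟩⟩
    simpa using dvd_prod_of_mem (fun e => dl (v e.1) (v e.2)) hm
  · exact absurd (v.symm.injective he) hab
  · have hm : (v.symm b, v.symm a) ∈ nonEdges h := mem_filter.2 ⟨mem_filter.2 ⟨mem_univ _, hgt⟩,
      fun ha => hv ⟨_, _, ha, Or.inr ⟨v.apply_symm_apply b, v.apply_symm_apply a⟩⟩⟩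
    exact dl_dvd_symm (by simpa using dvd_prod_of_mem (fun e => dl (v e.1) (v e.2)) hm)

lemma onEdge_swap {h : Fin n → Fin n} {a b : Fin n} {v : Perm (Fin n)} (hv : OnEdge h a b v) :
    OnEdge h a b (swap a b * v) := by
  obtain ⟨k, l, hkl, ⟨hk, hl⟩ | ⟨hk, hl⟩⟩ := hv
  · exact ⟨k, l, hkl, Or.inr ⟨by simp [hk], by simp [hl]⟩⟩
  · exact ⟨k, l, hkl, Or.inl ⟨by simp [hk], by simp [hl]⟩⟩

/-- A function congruent along the edges `{a, b}` pairs to zero modulo `dl a b`. -/
lemma dl_dvd_sum (h : Fin n → Fin n) {a b : Fin n} (hab : a ≠ b) (ψ : Perm (Fin n) → P n)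
    (hψ : ∀ v, OnEdge h a b v → dl a b ∣ ψ v - ψ (swap a b * v)) :
    dl a b ∣ ∑ v, ψ v * cof h v := by
  have h2 : dl a b ∣ ∑ v, (ψ v * cof h v + ψ (swap a b * v) * cof h (swap a b * v)) := by
    refine dvd_sum fun v _ => ?_
    by_cases hv : OnEdge h a b v
    · rw [cof_swap h hab]
      have e : ψ v * cof h v + ψ (swap a b * v) * -rename (swap a b) (cof h v) =
          (ψ v - ψ (swap a b * v)) * cof h v +
            ψ (swap a b * v) * (cof h v - rename (swap a b) (cof h v)) := by ring
      rw [e]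
      exact dvd_add ((hψ v hv).mul_right _) ((dvd_sub_rename a b _).mul_left _)
    · refine dvd_add ((dl_dvd_cof h hab hv).mul_left _) ((dl_dvd_cof h hab ?_).mul_left _)
      exact fun hs => hv (by simpa [swap_mul_swap_mul] using onEdge_swap hs)
  have es : ∑ v, ψ (swap a b * v) * cof h (swap a b * v) = ∑ v, ψ v * cof h v :=
    Equiv.sum_comp (Equiv.mulLeft (swap a b)) fun v => ψ v * cof h v
  rw [sum_add_distrib, es, ← two_mul] at h2
  have hu : IsUnit (2 : P n) := by
    have h' := (isUnit_iff_ne_zero.2 (two_ne_zero : (2 : ℚ) ≠ 0)).map (C : ℚ →+* P n)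
    rwa [map_ofNat] at h'
  exact hu.dvd_mul_left.1 h2

/-! ### compatibility -/

variable [NeZero n] {h : Fin n → Fin n}

lemma compat_iff {w v : Perm (Fin n)} :
    Compat w v ↔ ∀ a : Fin n, a ≠ 0 → v.symm a ≤ w.symm a := by
  constructor
  · intro hc a ha
    obtain ⟨j, hj, he⟩ := hc (w.symm a) (w.symm a) le_rfl (by simpa using ha)
    rw [w.apply_symm_apply] at he
    rw [← he, v.symm_apply_apply, he]
    exact hj
  · intro hc m i him hwi
    exact ⟨v.symm (w i), ((hc _ hwi).trans_eq (w.symm_apply_apply i)).trans him,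
      v.apply_symm_apply _⟩

lemma compat_swap {a b : Fin n} (ha : a ≠ 0) (hb : b ≠ 0) (w v : Perm (Fin n)) :
    Compat (swap a b * w) (swap a b * v) ↔ Compat w v := by
  simp only [compat_iff]
  have hs : ∀ x : Fin n, x ≠ 0 → swap a b x ≠ 0 := fun x hx hc => by
    rw [swap_apply_eq_iff, swap_apply_of_ne_of_ne ha.symm hb.symm] at hc
    exact hx hc
  constructor
  · intro hc x hx
    simpa [Perm.mul_def, Equiv.symm_trans_apply] using hc (swap a b x) (hs x hx)
  · intro hc x hx
    simpa [Perm.mul_def, Equiv.symm_trans_apply] using hc (swap a b x) (hs x hx)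

lemma compat_zero {w v : Perm (Fin n)} (hc : Compat w v) :
    w.symm 0 ≤ v.symm 0 ∧ (v.symm 0 = w.symm 0 → v = w) := by
  rw [compat_iff] at hc
  have hs : ∑ a, ((w.symm a).1 : ℕ) = ∑ a, ((v.symm a).1 : ℕ) := by
    rw [Equiv.sum_comp w.symm fun i => i.1, Equiv.sum_comp v.symm fun i => i.1]
  rw [← add_sum_erase _ _ (mem_univ (0 : Fin n)), ← add_sum_erase _ _ (mem_univ (0 : Fin n))] at hs
  have hle : ∑ a ∈ univ.erase 0, (v.symm a).1 ≤ ∑ a ∈ univ.erase 0, (w.symm a).1 :=
    sum_le_sum fun a ha => hc a (mem_erase.1 ha).1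
  refine ⟨Fin.le_def.2 (by omega), fun he => ?_⟩
  have heq : ∑ a ∈ univ.erase 0, (v.symm a).1 = ∑ a ∈ univ.erase 0, (w.symm a).1 := by
    rw [he] at hs; omega
  have hall := (sum_eq_sum_iff_of_le fun a ha => Fin.le_def.1 (hc a (mem_erase.1 ha).1)).1 heq
  refine Equiv.symm_bijective.injective (Equiv.ext fun a => ?_)
  by_cases ha : a = 0
  · rw [ha, he]
  · exact Fin.ext (hall a (mem_erase.2 ⟨ha, mem_univ _⟩))

lemma mem_edges {k l : Fin n} : (k, l) ∈ edges h ↔ Adj h k l := by simp [edges]

lemma dl_dvd_num {k l : Fin n} (w v : Perm (Fin n)) (hkl : Adj h k l) :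
    dl (w k) (v l) ∣ num h w v := by
  have he : (k, l) ∈ edges h := mem_edges.2 hkl
  rw [num, ← mul_prod_erase _ _ he]
  exact Dvd.intro _ rfl

lemma num_eq_zero {k l : Fin n} (w v : Perm (Fin n)) (hkl : Adj h k l) (he : w k = v l) :
    num h w v = 0 :=
  prod_eq_zero (mem_edges.2 hkl) (by simp [dl, he])

lemma symm_swap_mul (a b : Fin n) (v : Perm (Fin n)) (x : Fin n) :
    (swap a b * v).symm x = v.symm (swap a b x) := by
  simp [Perm.mul_def, Equiv.symm_trans_apply]

/-- Compatibility lost by exchanging an edge of `v` costs the factor of an edge. -/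
lemma dvd_num_of_lost (hh : IsHess h) {w v : Perm (Fin n)} {k l : Fin n} (hkl : Adj h k l)
    (hc : Compat w v) (hn : ¬ Compat w (swap (v k) (v l) * v)) :
    dl (v k) (v l) ∣ num h w v := by
  rw [compat_iff] at hc hn
  simp only [not_forall, not_le, exists_prop, symm_swap_mul] at hn
  obtain ⟨x, hx, hlt⟩ := hn
  have h1 := hc x hx
  by_cases hxk : x = v k
  · subst hxk
    rw [swap_apply_left, v.symm_apply_apply] at hlt
    rw [v.symm_apply_apply] at h1
    simpa using dl_dvd_num w v (k := w.symm (v k)) (l := l) ⟨hlt, hkl.2.trans (hh.mono h1)⟩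
  by_cases hxl : x = v l
  · subst hxl
    rw [swap_apply_right, v.symm_apply_apply] at hlt
    rw [v.symm_apply_apply] at h1
    exact absurd (h1.trans_lt hlt) (lt_asymm hkl.1)
  · rw [swap_apply_of_ne_of_ne hxk hxl] at hlt
    exact absurd hlt (not_lt.2 h1)

/-- Compatibility lost by exchanging an edge of `w` costs the factor of an edge. -/
lemma dvd_num_of_lost_left (hh : IsHess h) {w v : Perm (Fin n)} {i j : Fin n} (hij : Adj h i j)
    (hc : Compat w v) (hn : ¬ Compat (swap (w i) (w j) * w) v) :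
    dl (w i) (w j) ∣ num h w v := by
  rw [compat_iff] at hc hn
  simp only [not_forall, not_le, exists_prop, symm_swap_mul] at hn
  obtain ⟨x, hx, hlt⟩ := hn
  have h1 := hc x hx
  by_cases hxj : x = w j
  · subst hxj
    rw [swap_apply_right, w.symm_apply_apply] at hlt
    rw [w.symm_apply_apply] at h1
    simpa using dl_dvd_num w v (k := i) (l := v.symm (w j)) ⟨hlt, h1.trans hij.2⟩
  by_cases hxi : x = w i
  · subst hxi
    rw [swap_apply_left, w.symm_apply_apply] at hlt
    rw [w.symm_apply_apply] at h1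
    exact absurd (hlt.trans_le h1) (lt_asymm hij.1)
  · rw [swap_apply_of_ne_of_ne hxi hxj] at hlt
    exact absurd hlt (not_lt.2 h1)

open scoped Classical in
/-- The class of the correspondence. -/
def phi (h : Fin n → Fin n) (w v : Perm (Fin n)) : P n := if Compat w v then num h w v else 0

omit [NeZero n] in
/-- Products with congruent factors are congruent. -/
lemma dvd_prod_sub {ι : Type*} (δ : P n) (s : Finset ι) (f g : ι → P n)
    (hfg : ∀ e, δ ∣ f e - g e) : δ ∣ (∏ e ∈ s, f e) - ∏ e ∈ s, g e := by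
  classical
  induction s using Finset.induction_on with
  | empty => simp
  | insert x s hx ih =>
    rw [prod_insert hx, prod_insert hx]
    have e : f x * ∏ y ∈ s, f y - g x * ∏ y ∈ s, g y =
        (f x - g x) * ∏ y ∈ s, f y + g x * ((∏ y ∈ s, f y) - ∏ y ∈ s, g y) := by ring
    rw [e]
    exact dvd_add ((hfg x).mul_right _) (ih.mul_left _)

lemma num_congr (h : Fin n → Fin n) (a b : Fin n) (w v : Perm (Fin n)) :
    dl a b ∣ num h w v - num h w (swap a b * v) ∧
      dl a b ∣ num h w v - num h (swap a b * w) v := by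
  have hX : ∀ x : Fin n, dl a b ∣ (X x : P n) - X (swap a b x) := fun x => by
    simpa using dvd_sub_rename a b (X x : P n)
  constructor <;> refine dvd_prod_sub (dl a b) _ _ _ fun e => ?_
  · have := hX (v e.2)
    simp only [dl, Perm.mul_apply] at this ⊢
    convert this using 1; ring
  · have := hX (w e.1)
    simp only [dl, Perm.mul_apply] at this ⊢
    rw [← dvd_neg]; convert this using 1; ring

lemma phi_congr_right (hh : IsHess h) {a b : Fin n} (w : Perm (Fin n)) {v : Perm (Fin n)}
    (hv : OnEdge h a b v) : dl a b ∣ phi h w v - phi h w (swap a b * v) := by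
  obtain ⟨k, l, hkl, hlab⟩ := hv
  have hσ : swap (v k) (v l) = swap a b := by
    rcases hlab with ⟨hk, hl⟩ | ⟨hk, hl⟩ <;> rw [hk, hl]
    exact swap_comm b a
  have hd : ∀ x, dl (v k) (v l) ∣ x → dl a b ∣ x := fun x hx => by
    rcases hlab with ⟨hk, hl⟩ | ⟨hk, hl⟩ <;> rw [hk, hl] at hx
    exacts [hx, dl_dvd_symm hx]
  have hcong := (num_congr h a b w v).1
  unfold phi
  by_cases h1 : Compat w v <;> by_cases h2 : Compat w (swap a b * v) <;>
    simp only [h1, h2, if_true, if_false, sub_zero, zero_sub, dvd_neg, sub_self, dvd_zero]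
  · exact hcong
  · exact hd _ (dvd_num_of_lost hh hkl h1 (hσ ▸ h2))
  · refine hd _ (dl_dvd_symm ?_)
    have := dvd_num_of_lost hh (v := swap a b * v) hkl h2
    simp only [← hσ, Perm.mul_apply, swap_apply_left, swap_apply_right] at this ⊢
    refine this ?_
    rwa [swap_comm (v l), swap_mul_swap_mul]

lemma phi_congr_left (hh : IsHess h) {a b : Fin n} {w : Perm (Fin n)} (v : Perm (Fin n))
    (hw : OnEdge h a b w) : dl a b ∣ phi h w v - phi h (swap a b * w) v := by
  obtain ⟨k, l, hkl, hlab⟩ := hw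
  have hσ : swap (w k) (w l) = swap a b := by
    rcases hlab with ⟨hk, hl⟩ | ⟨hk, hl⟩ <;> rw [hk, hl]
    exact swap_comm b a
  have hd : ∀ x, dl (w k) (w l) ∣ x → dl a b ∣ x := fun x hx => by
    rcases hlab with ⟨hk, hl⟩ | ⟨hk, hl⟩ <;> rw [hk, hl] at hx
    exacts [hx, dl_dvd_symm hx]
  have hcong := (num_congr h a b w v).2
  unfold phi
  by_cases h1 : Compat w v <;> by_cases h2 : Compat (swap a b * w) v <;>
    simp only [h1, h2, if_true, if_false, sub_zero, zero_sub, dvd_neg, sub_self, dvd_zero]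
  · exact hcong
  · exact hd _ (dvd_num_of_lost_left hh hkl h1 (hσ ▸ h2))
  · refine hd _ (dl_dvd_symm ?_)
    have := dvd_num_of_lost_left hh (w := swap a b * w) hkl h2
    simp only [← hσ, Perm.mul_apply, swap_apply_left, swap_apply_right] at this ⊢
    refine this ?_
    rwa [swap_comm (w l), swap_mul_swap_mul]

/-- The mixed second difference of `phi`. -/
def mixed (h : Fin n → Fin n) (σ w v : Perm (Fin n)) : P n :=
  phi h w v + phi h (σ * w) (σ * v) - phi h w (σ * v) - phi h (σ * w) v

lemma mixed_swap_left (h : Fin n → Fin n) (a b : Fin n) (w v : Perm (Fin n)) :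
    mixed h (swap a b) (swap a b * w) v = -mixed h (swap a b) w v := by
  simp only [mixed, swap_mul_swap_mul]; ring

lemma mixed_swap_right (h : Fin n → Fin n) (a b : Fin n) (w v : Perm (Fin n)) :
    mixed h (swap a b) w (swap a b * v) = -mixed h (swap a b) w v := by
  simp only [mixed, swap_mul_swap_mul]; ring

/-- The second order congruence for the marked label. -/
lemma mixed_zero (hh : IsHess h) {b : Fin n} {w v : Perm (Fin n)} {i j k l : Fin n}
    (hij : Adj h i j) (hkl : Adj h k l) (hwi : w i = 0) (hwj : w j = b) (hvk : v k = 0)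
    (hvl : v l = b) : dl 0 b * dl 0 b ∣ mixed h (swap 0 b) w v := by
  have hb : b ≠ 0 := fun e => hij.1.ne (w.injective (by rw [hwi, hwj, e]))
  set σ := swap (0 : Fin n) b
  have pw : w.symm 0 = i ∧ w.symm b = j :=
    ⟨by rw [← hwi, w.symm_apply_apply], by rw [← hwj, w.symm_apply_apply]⟩
  have pv : v.symm 0 = k ∧ v.symm b = l :=
    ⟨by rw [← hvk, v.symm_apply_apply], by rw [← hvl, v.symm_apply_apply]⟩
  have pw' : (σ * w).symm 0 = j ∧ (σ * w).symm b = i := by simp [σ, symm_swap_mul, pw]
  have pv' : (σ * v).symm 0 = l ∧ (σ * v).symm b = k := by simp [σ, symm_swap_mul, pv]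
  have hσw : (σ * w) i = b ∧ (σ * w) j = 0 := by simp [σ, hwi, hwj]
  have hσv : (σ * v) k = b ∧ (σ * v) l = 0 := by simp [σ, hvk, hvl]
  -- the fourth term
  have h4 : phi h (σ * w) v = 0 := by
    refine if_neg fun hc => ?_
    have h1 := (compat_zero hc).1
    rw [pw'.1, pv.1] at h1
    have h2 := compat_iff.1 hc b hb
    rw [pw'.2, pv.2] at h2
    exact lt_irrefl _ ((hij.1.trans_le h1).trans (hkl.1.trans_le h2))
  -- the third term
  have h3 : dl 0 b * dl 0 b ∣ phi h w (σ * v) := by
    by_cases hc : Compat w (σ * v)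
    swap
    · rw [phi, if_neg hc]; exact dvd_zero _
    rw [phi, if_pos hc]
    obtain ⟨h1, h1'⟩ := compat_zero hc
    rw [pw.1, pv'.1] at h1 h1'
    have h2 := compat_iff.1 hc b hb
    rw [pw.2, pv'.2] at h2
    have hil : i < l := h1.lt_of_ne fun e => by
      have e' := congrArg (fun u : Perm (Fin n) => u.symm b) (h1' e.symm)
      simp only [pw.2, pv'.2] at e'
      exact lt_irrefl _ ((hij.1.trans_eq e'.symm).trans (hkl.1.trans_eq e.symm))
    by_cases hl : l ≤ h i
    · rw [num_eq_zero w _ ⟨hil, hl⟩ (by rw [hwi, hσv.2])]; exact dvd_zero _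
    have hik : i < k := lt_of_not_ge fun hki => hl (hkl.2.trans (hh.mono hki))
    have e1 : (i, k) ∈ edges h := mem_edges.2 ⟨hik, h2.trans hij.2⟩
    have e2 : (j, l) ∈ edges h := mem_edges.2
      ⟨(hij.2.trans_lt (not_le.1 hl)), hkl.2.trans (hh.mono h2)⟩
    have hne : (i, k) ≠ (j, l) := fun e => hij.1.ne (congrArg Prod.fst e)
    have hsub : ({(i, k), (j, l)} : Finset (Fin n × Fin n)) ⊆ edges h := by
      simp [insert_subset_iff, e1, e2]
    have := prod_dvd_prod_of_subset _ _ (fun e => dl (w e.1) ((σ * v) e.2)) hsub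
    rw [prod_pair hne, hwi, hwj, hσv.1, hσv.2, dl_neg b 0, mul_neg, neg_dvd] at this
    exact this
  rw [mixed, h4, sub_zero]
  refine dvd_sub ?_ h3
  -- the first two terms
  by_cases hvw : v = w
  · subst hvw
    have hr : ∀ u : Perm (Fin n), Compat u u := fun u => compat_iff.2 fun _ _ => le_rfl
    rw [phi, phi, if_pos (hr v), if_pos (hr _), num_rename]
    refine sq_dvd_add_rename ?_
    have := dl_dvd_num v v hij
    rwa [hwi, hwj] at this
  have h1z : phi h w v = 0 := by
    by_cases hc : Compat w v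
    swap
    · exact if_neg hc
    rw [phi, if_pos hc]
    obtain ⟨h1, h1'⟩ := compat_zero hc
    rw [pw.1, pv.1] at h1 h1'
    have h2 := compat_iff.1 hc b hb
    rw [pw.2, pv.2] at h2
    have hik : i < k := h1.lt_of_ne fun e => hvw (h1' e.symm)
    exact num_eq_zero w v ⟨hik, (hkl.1.le.trans h2).trans hij.2⟩ (by rw [hwi, hvk])
  have h2z : phi h (σ * w) (σ * v) = 0 := by
    by_cases hc : Compat (σ * w) (σ * v)
    swap
    · exact if_neg hc
    rw [phi, if_pos hc]
    obtain ⟨h1, h1'⟩ := compat_zero hc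
    rw [pw'.1, pv'.1] at h1 h1'
    have h2 := compat_iff.1 hc b hb
    rw [pw'.2, pv'.2] at h2
    have hjl : j < l := h1.lt_of_ne fun e => hvw (mul_left_cancel (h1' e.symm))
    exact num_eq_zero _ _ ⟨hjl, (hkl.2.trans (hh.mono h2)).trans (hh.mono hij.1.le)⟩
      (by rw [hσw.2, hσv.2])
  rw [h1z, h2z, add_zero]
  exact dvd_zero _

/-- The second order congruence. -/
lemma mixed_dvd (hh : IsHess h) {a b : Fin n} (hab : a ≠ b) {w v : Perm (Fin n)}
    (hw : OnEdge h a b w) (hv : OnEdge h a b v) :
    dl a b * dl a b ∣ mixed h (swap a b) w v := by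
  suffices key : ∀ c, c ≠ 0 → OnEdge h 0 c w → OnEdge h 0 c v →
      dl 0 c * dl 0 c ∣ mixed h (swap 0 c) w v by
    by_cases ha : a = 0
    · subst ha; exact key b hab.symm hw hv
    by_cases hb : b = 0
    · subst hb
      have hs : ∀ u, OnEdge h a 0 u → OnEdge h 0 a u := fun u ⟨k, l, hkl, h'⟩ => ⟨k, l, hkl, h'.symm⟩
      rw [dl_sq_symm, swap_comm]
      exact key a hab (hs w hw) (hs v hv)
    have he : ∀ u x : Perm (Fin n),
        phi h (swap a b * u) (swap a b * x) = rename (swap a b) (phi h u x) := fun u x => by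
      unfold phi
      by_cases hc : Compat u x
      · rw [if_pos hc, if_pos ((compat_swap ha hb u x).2 hc), num_rename]
      · rw [if_neg hc, if_neg (mt (compat_swap ha hb u x).1 hc), map_zero]
    have h4 : phi h (swap a b * w) v = rename (swap a b) (phi h w (swap a b * v)) := by
      rw [← he, swap_mul_swap_mul]
    rw [mixed, he, h4]
    have e : phi h w v + rename (swap a b) (phi h w v) - phi h w (swap a b * v) -
        rename (swap a b) (phi h w (swap a b * v)) =
        (phi h w v - phi h w (swap a b * v)) +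
          rename (swap a b) (phi h w v - phi h w (swap a b * v)) := by
      rw [map_sub]; ring
    rw [e]
    exact sq_dvd_add_rename (phi_congr_right hh w hv)
  intro c hc hw hv
  obtain ⟨i, j, hij, hwl⟩ := hw
  obtain ⟨k, l, hkl, hvl⟩ := hv
  rcases hwl with ⟨hi, hj⟩ | ⟨hi, hj⟩ <;> rcases hvl with ⟨hk, hl⟩ | ⟨hk, hl⟩
  · exact mixed_zero hh hij hkl hi hj hk hl
  · rw [← dvd_neg, ← mixed_swap_right]
    exact mixed_zero hh hij hkl hi hj (by simp [hk]) (by simp [hl])
  · rw [← dvd_neg, ← mixed_swap_left]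
    exact mixed_zero hh hij hkl (by simp [hi]) (by simp [hj]) hk hl
  · rw [← neg_neg (mixed h (swap 0 c) w v), ← mixed_swap_left, ← mixed_swap_right]
    exact mixed_zero hh hij hkl (by simp [hi]) (by simp [hj]) (by simp [hk]) (by simp [hl])

/-- The numerator of the value of Z. -/
def top (h : Fin n → Fin n) (f : Fn n) (w : Perm (Fin n)) : P n :=
  ∑ v, phi h w v * f v * cof h v

lemma fn_congr {f : Fn n} (hf : f ∈ M h) {a b : Fin n} {v : Perm (Fin n)}
    (hv : OnEdge h a b v) : dl a b ∣ f v - f (swap a b * v) := by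
  obtain ⟨k, l, hkl, hlab⟩ := hv
  have := hf v k l hkl
  rw [mul_swap_eq_swap_mul] at this
  rcases hlab with ⟨hk, hl⟩ | ⟨hk, hl⟩ <;> rw [hk, hl] at this
  · exact dl_dvd_symm this
  · rw [swap_comm]; exact this

lemma vand_dvd_top (hh : IsHess h) {f : Fn n} (hf : f ∈ M h) (w : Perm (Fin n)) :
    vand n ∣ top h f w := by
  refine vand_dvd fun a b hab => dl_dvd_sum h hab.ne (fun v => phi h w v * f v) fun v hv => ?_
  have e : phi h w v * f v - phi h w (swap a b * v) * f (swap a b * v) =
      (phi h w v - phi h w (swap a b * v)) * f v +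
        phi h w (swap a b * v) * (f v - f (swap a b * v)) := by ring
  simp only [e]
  exact dvd_add ((phi_congr_right hh w hv).mul_right _) ((fn_congr hf hv).mul_left _)

lemma sq_dvd_top_sub (hh : IsHess h) {f : Fn n} (hf : f ∈ M h) {a b : Fin n} (hab : a ≠ b)
    {w : Perm (Fin n)} (hw : OnEdge h a b w) :
    dl a b * dl a b ∣ top h f w - top h f (swap a b * w) := by
  choose ψ hψ using fun v => phi_congr_left hh v hw
  have e : top h f w - top h f (swap a b * w) = dl a b * ∑ v, ψ v * f v * cof h v := by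
    rw [top, top, ← sum_sub_distrib, mul_sum]
    refine sum_congr rfl fun v _ => ?_
    rw [← sub_mul, ← sub_mul, hψ v]; ring
  rw [e]
  refine mul_dvd_mul_left _ (dl_dvd_sum h hab (fun v => ψ v * f v) fun v hv => ?_)
  have hd : dl a b ∣ ψ v - ψ (swap a b * v) := by
    refine (mul_dvd_mul_iff_left (dl_ne_zero hab)).1 ?_
    rw [mul_sub, ← hψ, ← hψ]
    have := mixed_dvd hh hab hw hv
    rw [mixed] at this
    convert this using 1
    ring
  have e' : ψ v * f v - ψ (swap a b * v) * f (swap a b * v) =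
      (ψ v - ψ (swap a b * v)) * f v + ψ (swap a b * v) * (f v - f (swap a b * v)) := by ring
  simp only [e']
  exact dvd_add (hd.mul_right _) ((fn_congr hf hv).mul_left _)

lemma zk_mul_vand (h : Fin n → Fin n) (f : Fn n) (w : Perm (Fin n)) :
    ZK h f w * algebraMap (P n) (K n) (vand n) = algebraMap (P n) (K n) (top h f w) := by
  classical
  simp only [ZK, LinearMap.coe_mk, AddHom.coe_mk, top, map_sum, sum_mul, sum_filter]
  refine sum_congr rfl fun v _ => ?_
  by_cases hc : Compat w v
  · rw [if_pos hc, phi, if_pos hc]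
    have hk : ker h w v * algebraMap (P n) (K n) (∏ e ∈ edges h, dl (v e.1) (v e.2)) =
        algebraMap (P n) (K n) (num h w v) := by
      simp only [ker, num, dl, map_prod, map_sub, tK, ← prod_mul_distrib]
      refine prod_congr rfl fun e he => div_mul_cancel₀ _ (sub_ne_zero.2 fun h' => ?_)
      exact (mem_filter.1 he).2.1.ne'
        (v.injective (X_injective (IsFractionRing.injective (P n) (K n) h')))
    rw [← edgeProd_mul_cof h v, map_mul, map_mul, map_mul, ← hk]
    ring
  · rw [if_neg hc, phi, if_neg hc]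
    simp

lemma isHomogeneous_dl (a b : Fin n) : (dl a b).IsHomogeneous 1 :=
  (isHomogeneous_X ℚ b).sub (isHomogeneous_X ℚ a)

lemma isHomogeneous_top (h : Fin n → Fin n) {f : Fn n} {d : ℕ} (hf : f ∈ Deg d)
    (w : Perm (Fin n)) : (top h f w).IsHomogeneous (d + (pairs n).card) := by
  refine MvPolynomial.IsHomogeneous.sum _ _ _ fun v _ => ?_
  have hq : (cof h v).IsHomogeneous (nonEdges h).card := by
    have h1 := IsHomogeneous.prod (nonEdges h) (fun e => dl (v e.1) (v e.2)) (fun _ => 1)
      fun e _ => isHomogeneous_dl _ _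
    rw [cof, sgn]
    simpa using (isHomogeneous_C (Fin n) ((Perm.sign v : ℤ) : ℚ)).mul h1
  have hn : (phi h w v).IsHomogeneous (edges h).card := by
    unfold phi
    split_ifs
    · simpa [num] using IsHomogeneous.prod (edges h) (fun e => dl (w e.1) (v e.2)) (fun _ => 1)
        fun e _ => isHomogeneous_dl _ _
    · exact isHomogeneous_zero _ _ _
  have hcard : (edges h).card + d + (nonEdges h).card = d + (pairs n).card := by
    have he : edges h = (pairs n).filter fun e => Adj h e.1 e.2 := by
      ext e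
      simp only [edges, pairs, mem_filter, mem_univ, true_and]
      exact ⟨fun h' => ⟨h'.1, h'⟩, fun h' => h'.2⟩
    rw [he, nonEdges, add_right_comm, Finset.card_filter_add_card_filter_not, add_comm]
  rw [← hcard]
  exact (hn.mul (Submodule.mem_pi.1 hf v (Set.mem_univ v))).mul hq

/-- A factor of a homogeneous polynomial by a homogeneous one is homogeneous. -/
lemma isHomogeneous_of_mul {g D : P n} {d m : ℕ} (hD : D.IsHomogeneous m) (hD0 : D ≠ 0)
    (hg : (g * D).IsHomogeneous (d + m)) : g.IsHomogeneous d := by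
  have key : homogeneousComponent (d + m) (g * D) = homogeneousComponent d g * D := by
    conv_lhs => rw [← sum_homogeneousComponent g, sum_mul, map_sum]
    have hc : ∀ i, homogeneousComponent (d + m) (homogeneousComponent i g * D) =
        if i = d then homogeneousComponent i g * D else 0 := fun i => by
      rw [homogeneousComponent_of_mem ((homogeneousComponent_isHomogeneous i g).mul hD)]
      simp [eq_comm]
    simp only [hc, sum_ite_eq']
    split_ifs with hd
    · rfl
    · rw [homogeneousComponent_eq_zero _ _ (by simpa using hd), zero_mul]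
  rw [homogeneousComponent_eq_self hg] at key
  rw [mul_right_cancel₀ hD0 key]
  exact homogeneousComponent_isHomogeneous d g

end Vale.Agent.P066.Z.Exists

namespace Vale.Agent.P066.Z

open Finset MvPolynomial Equiv Exists

/-- Z preserves the GKM module and the degree. -/
theorem existsZ : ExistsStmt := by
  intro n _ h hh f hf
  choose g hg using fun w => vand_dvd_top hh hf w
  have hg' : ∀ w, g w * vand n = top h f w := fun w => by rw [hg w, mul_comm]
  refine ⟨g, fun w i j hij => ?_, fun w => ?_, fun d hd => ?_⟩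
  · rw [mul_swap_eq_swap_mul]
    have hne : w i ≠ w j := fun e => hij.1.ne (w.injective e)
    have h2 := sq_dvd_top_sub hh hf hne (w := w) ⟨i, j, hij, Or.inl ⟨rfl, rfl⟩⟩
    rw [← hg', ← hg', ← sub_mul] at h2
    change dl (w j) (w i) ∣ _
    rcases hne.lt_or_gt with hlt | hgt
    · exact dl_dvd_symm (not_sq_dvd_vand hlt h2)
    · exact not_sq_dvd_vand hgt (by rwa [dl_sq_symm] at h2)
  · have hne : algebraMap (P n) (K n) (vand n) ≠ 0 := fun h0 =>
      vand_ne_zero n (IsFractionRing.injective (P n) (K n) (h0.trans (map_zero _).symm))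
    refine mul_right_cancel₀ hne ?_
    rw [zk_mul_vand, ← map_mul, hg']
  · refine Submodule.mem_pi.2 fun w _ => ?_
    have hv : (vand n).IsHomogeneous (pairs n).card := by
      simpa [vand] using IsHomogeneous.prod (pairs n) (fun e => dl e.1 e.2) (fun _ => 1)
        fun e _ => isHomogeneous_dl _ _
    exact isHomogeneous_of_mul hv (vand_ne_zero n) (by rw [hg']; exact isHomogeneous_top h hd w)

end Vale.Agent.P066.Z
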