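import Mathlib
import Vale.Agent.P066.Z.Spec

/-!
# P066: the scalars of `p z^k p` separate the block sizes
-/

noncomputable section

namespace Vale.Agent.P066.Z

open Finset

/-- The functions `k ↦ multichoose k m` are independent for large `k`. -/
theorem multichoose_indep : ∀ (n : ℕ) (d : ℕ → ℚ) (K : ℕ),
    (∀ k, K ≤ k → ∑ m ∈ range n, (Nat.multichoose k m : ℚ) * d m = 0) → ∀ m < n, d m = 0 := by
  intro n
  induction n with
  | zero => intro d K _ m hm; omega
  | succ n ih =>
    intro d K h
    have hd : ∀ m < n, d (m + 1) = 0 := by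
      refine ih (fun m => d (m + 1)) (K + 1) fun k hk => ?_
      obtain ⟨k, rfl⟩ : ∃ k', k = k' + 1 := ⟨k - 1, by omega⟩
      have h1 := h (k + 1) (by omega)
      have h0 := h k (by omega)
      rw [sum_range_succ'] at h1 h0
      simp only [Nat.multichoose_zero_right, Nat.multichoose_succ_succ, Nat.cast_add, add_mul,
        sum_add_distrib] at h1 h0
      linarith
    intro m hm
    rcases m with _ | m
    · have h' := h K le_rfl
      rw [sum_range_succ', sum_eq_zero fun i hi => by rw [hd i (mem_range.1 hi), mul_zero]] at h'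
      simpa using h'
    · exact hd m (by omega)

theorem esymm_eq_zero_of_card_lt {s : Multiset ℕ} {j : ℕ} (h : s.card < j) : s.esymm j = 0 := by
  simp [Multiset.esymm, Multiset.powersetCard_eq_empty _ h]

theorem parts_card_le {n : ℕ} (μ : n.Partition) : μ.parts.card ≤ n := by
  conv_rhs => rw [← μ.parts_sum]
  simpa using Multiset.card_nsmul_le_sum fun x hx => μ.parts_pos hx

/-- A partition is determined by the elementary symmetric functions of its parts. -/
theorem partition_eq_of_esymm {n : ℕ} (μ ν : n.Partition)
    (h : ∀ m < n, μ.parts.esymm (m + 1) = ν.parts.esymm (m + 1)) : μ = ν := by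
  have key : ∀ π : n.Partition,
      (π.parts.map fun a : ℕ => Polynomial.X + Polynomial.C (a : ℚ)).prod *
        Polynomial.X ^ (n - π.parts.card) =
      ∑ j ∈ range (n + 1), Polynomial.C (π.parts.esymm j : ℚ) * Polynomial.X ^ (n - j) := by
    intro π
    have hc := parts_card_le π
    have hp := Multiset.prod_X_add_C_eq_sum_esymm (π.parts.map fun a : ℕ => (a : ℚ))
    rw [Multiset.map_map, Multiset.card_map] at hp
    simp only [Function.comp_def] at hp
    rw [hp, sum_mul]
    refine (sum_congr rfl fun j hj => ?_).trans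
      (sum_subset (range_subset_range.2 (by omega)) fun j _ hj => ?_)
    · rw [mem_range] at hj
      rw [mul_assoc, ← pow_add, show π.parts.card - j + (n - π.parts.card) = n - j by omega]
      congr 2
      simp [Multiset.esymm, Multiset.powersetCard_map, Nat.cast_multiset_sum,
        Nat.cast_multiset_prod, Function.comp_def]
    · rw [mem_range, not_lt] at hj
      rw [esymm_eq_zero_of_card_lt (by omega), Nat.cast_zero, map_zero, zero_mul]
  have hroots : ∀ π : n.Partition,
      ((π.parts.map fun a : ℕ => Polynomial.X + Polynomial.C (a : ℚ)).prod *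
        Polynomial.X ^ (n - π.parts.card)).roots.filter (· ≠ 0) =
      π.parts.map fun a : ℕ => -(a : ℚ) := by
    intro π
    have e : (π.parts.map fun a : ℕ => Polynomial.X + Polynomial.C (a : ℚ)).prod =
        ((π.parts.map fun a : ℕ => -(a : ℚ)).map fun r => Polynomial.X - Polynomial.C r).prod := by
      simp [Multiset.map_map]
    rw [e, Polynomial.roots_mul (mul_ne_zero
        (Polynomial.monic_multiset_prod_of_monic _ _ fun _ _ => Polynomial.monic_X_sub_C _).ne_zero
        (pow_ne_zero _ Polynomial.X_ne_zero)),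
      Polynomial.roots_multiset_prod_X_sub_C, Polynomial.roots_pow, Polynomial.roots_X,
      Multiset.filter_add, Multiset.filter_eq_self.2, Multiset.filter_eq_nil.2, add_zero]
    · intro a ha
      simpa using Multiset.mem_of_mem_nsmul ha
    · intro a ha
      obtain ⟨b, hb, rfl⟩ := Multiset.mem_map.1 ha
      exact neg_ne_zero.2 (Nat.cast_ne_zero.2 (π.parts_pos hb).ne')
  have hsum : ∑ j ∈ range (n + 1), Polynomial.C (μ.parts.esymm j : ℚ) * Polynomial.X ^ (n - j) =
      ∑ j ∈ range (n + 1), Polynomial.C (ν.parts.esymm j : ℚ) * Polynomial.X ^ (n - j) :=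
    sum_congr rfl fun j hj => by
      rcases j with _ | m
      · simp [Multiset.esymm]
      · rw [mem_range] at hj
        rw [h m (by omega)]
  rw [← key μ, ← key ν] at hsum
  have := congrArg (fun p => p.roots.filter (· ≠ 0)) hsum
  simp only [hroots] at this
  exact Nat.Partition.ext (Multiset.map_injective (neg_injective.comp Nat.cast_injective) this)

/-- I. -/
theorem interp : InterpStmt := by
  intro n _ μ
  classical
  have hn : (n : ℚ) ≠ 0 := Nat.cast_ne_zero.2 (NeZero.ne n)
  have hsep : ∀ ν : n.Partition, ν ≠ μ → ∃ k, val n μ.parts k - val n ν.parts k ≠ 0 := by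
    intro ν hν
    by_contra hcon
    push Not at hcon
    refine hν (partition_eq_of_esymm ν μ fun m hm => ?_)
    have := multichoose_indep n
      (fun m => (ν.parts.esymm (m + 1) : ℚ) - (μ.parts.esymm (m + 1) : ℚ)) 0 (fun k _ => ?_) m hm
    · exact_mod_cast sub_eq_zero.1 this
    · have := hcon k
      rw [val, val, ← sub_div, div_eq_zero_iff, sub_eq_zero] at this
      rcases this with this | this
      · simp only [mul_sub, sum_sub_distrib, this, sub_self]
      · exact absurd this hn
  choose! k hk using hsep
  set g : n.Partition → FreeAlgebra ℚ ℕ := fun ν =>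
    (val n μ.parts (k ν) - val n ν.parts (k ν))⁻¹ •
      (FreeAlgebra.ι ℚ (k ν) - algebraMap ℚ _ (val n ν.parts (k ν))) with hg
  refine ⟨((Finset.univ.erase μ).toList.map g).prod, ?_⟩
  have hev : ∀ ρ : n.Partition, evB n ρ.parts (FreeAlgebra.ι ℚ 0 *
      ((Finset.univ.erase μ).toList.map g).prod) =
      ∏ ν ∈ Finset.univ.erase μ, (val n μ.parts (k ν) - val n ν.parts (k ν))⁻¹ *
        (val n ρ.parts (k ν) - val n ν.parts (k ν)) := by
    intro ρ
    have h0 : val n ρ.parts 0 = 1 := by
      obtain ⟨N, rfl⟩ : ∃ N, n = N + 1 := ⟨n - 1, (Nat.succ_pred_eq_of_ne_zero (NeZero.ne n)).symm⟩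
      rw [val, sum_range_succ', sum_eq_zero fun i _ => by rw [Nat.multichoose_zero_succ]; simp]
      simp [Multiset.esymm, Multiset.powersetCard_one, ρ.parts_sum, Nat.cast_add_one_ne_zero]
    rw [map_mul, evB, FreeAlgebra.lift_ι_apply, h0, one_mul, map_list_prod, List.map_map,
      ← Finset.prod_map_toList]
    refine congrArg List.prod (List.map_congr_left fun ν _ => ?_)
    simp [hg]
  constructor
  · rw [hev]
    exact prod_eq_one fun ν hν => inv_mul_cancel₀ (hk ν (Finset.ne_of_mem_erase hν))
  · intro ν hν
    rw [hev]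
    exact prod_eq_zero (Finset.mem_erase.2 ⟨hν, Finset.mem_univ ν⟩) (by simp)

end Vale.Agent.P066.Z
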