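import Mathlib
import Vale.Agent.P066.Z.Spec

/-!
# P066: Z and left modular triples (LeftStmt)

The kernel identities behind the two maps of a left triple.  The proof pairs `v` with its composite
with the exchange of the twin slots.
-/

noncomputable section

namespace Vale.Agent.P066.Z

open Finset MvPolynomial

namespace Left

variable {n : ℕ}

theorem tK_injective : Function.Injective (tK (n := n)) := fun _ _ h =>
  MvPolynomial.X_injective (IsFractionRing.injective (P n) (K n) h)

theorem tK_sub_ne {a b : Fin n} (h : a ≠ b) : tK a - tK b ≠ 0 :=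
  sub_ne_zero.mpr fun e => h (tK_injective e)

theorem algebraMap_X (a : Fin n) : algebraMap (P n) (K n) (X a) = tK a := rfl

/-- `Compat` by positions. -/
theorem compat_iff [NeZero n] {w v : Equiv.Perm (Fin n)} :
    Compat w v ↔ ∀ k, w k ≠ 0 → v.symm (w k) ≤ k := by
  constructor
  · intro h k hk
    obtain ⟨j, hj, hjk⟩ := h k k le_rfl hk
    rw [← hjk, Equiv.symm_apply_apply]
    exact hj
  · intro h m i hi hw
    exact ⟨v.symm (w i), (h i hw).trans hi, v.apply_symm_apply _⟩

section Pair

variable {i i' : Fin n} {w v : Equiv.Perm (Fin n)}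

theorem le_swap_of_le (hii : i.1 + 1 = i'.1) {p k : Fin n} (h : p ≤ k)
    (h' : ¬ Equiv.swap i i' p ≤ k) : p = i ∧ k = i := by
  rw [Equiv.swap_apply_def] at h'
  split_ifs at h' with h1 h2 <;>
    simp only [Fin.le_def, Fin.ext_iff, not_le] at * <;> omega

theorem le_of_le_swap (hii : i.1 + 1 = i'.1) {p k : Fin n} (h : p ≤ Equiv.swap i i' k)
    (h' : ¬ p ≤ k) : p = i' ∧ k = i := by
  rw [Equiv.swap_apply_def] at h
  split_ifs at h with h1 h2 <;>
    simp only [Fin.le_def, Fin.ext_iff, not_le] at * <;> omega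

variable [NeZero n]

theorem compat_mul_swap_right (hii : i.1 + 1 = i'.1) (h : Compat w v)
    (h' : ¬ Compat w (v * Equiv.swap i i')) : v i = w i := by
  rw [compat_iff] at h h'
  push Not at h'
  obtain ⟨k, hk, hk'⟩ := h'
  have e : (v * Equiv.swap i i').symm (w k) = Equiv.swap i i' (v.symm (w k)) := rfl
  rw [e] at hk'
  obtain ⟨hp, rfl⟩ := le_swap_of_le hii (h k hk) (not_le.mpr hk')
  exact (v.symm_apply_eq.mp hp).symm

theorem compat_mul_swap_left (hii : i.1 + 1 = i'.1) (h : Compat w v)
    (h' : ¬ Compat (w * Equiv.swap i i') v) : v i' = w i' := by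
  rw [compat_iff] at h h'
  push Not at h'
  obtain ⟨k, hk, hk'⟩ := h'
  rw [Equiv.Perm.mul_apply] at hk hk'
  obtain ⟨hp, hk2⟩ := le_of_le_swap hii (h _ hk) (not_le.mpr hk')
  rw [hk2, Equiv.swap_apply_left] at hp
  exact (v.symm_apply_eq.mp hp).symm

theorem compat_swap_iff (hii : i.1 + 1 = i'.1) (hb : v i' = w i) :
    Compat w (v * Equiv.swap i i') ↔ Compat (w * Equiv.swap i i') v := by
  have hne : i ≠ i' := fun e => by rw [e] at hii; omega
  have key : ∀ x, w x = v i' → x = i := fun x hx => w.injective (hx.trans hb)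
  have e : ∀ x, (v * Equiv.swap i i').symm x = Equiv.swap i i' (v.symm x) := fun _ => rfl
  simp only [compat_iff, e, Equiv.Perm.mul_apply]
  constructor
  · intro h k hk
    have h1 := h _ hk
    rcases le_or_gt (v.symm (w (Equiv.swap i i' k))) k with h2 | h2
    · exact h2
    exfalso
    by_cases h3 : v.symm (w (Equiv.swap i i' k)) ≤ Equiv.swap i i' k
    · obtain ⟨hp, hk2⟩ := le_of_le_swap hii h3 (not_le.mpr h2)
      rw [hk2, Equiv.swap_apply_left] at hp
      exact hne (key i' (v.symm_apply_eq.mp hp)).symm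
    · have h4 : ¬ Equiv.swap i i' (Equiv.swap i i' (v.symm (w (Equiv.swap i i' k)))) ≤
          Equiv.swap i i' k := by rwa [Equiv.swap_apply_self]
      obtain ⟨hp, hk2⟩ := le_swap_of_le hii h1 h4
      have hk3 : k = i' := by
        rw [← Equiv.swap_apply_self i i' k, hk2, Equiv.swap_apply_left]
      have hp2 : v.symm (w (Equiv.swap i i' k)) = i' := by
        rw [← Equiv.swap_apply_self i i' (v.symm (w (Equiv.swap i i' k))), hp,
          Equiv.swap_apply_left]
      rw [hp2, hk3] at h2
      exact lt_irrefl _ h2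
  · intro h k hk
    have h1 := h (Equiv.swap i i' k) (by rwa [Equiv.swap_apply_self])
    rw [Equiv.swap_apply_self] at h1
    rcases le_or_gt (Equiv.swap i i' (v.symm (w k))) k with h2 | h2
    · exact h2
    exfalso
    by_cases h3 : v.symm (w k) ≤ k
    · obtain ⟨hp, hk2⟩ := le_swap_of_le hii h3 (not_le.mpr h2)
      rw [hk2] at hp
      have hv : v i = w i := (v.symm_apply_eq.mp hp).symm
      exact hne (v.injective (hv.trans hb.symm))
    · obtain ⟨hp, hk2⟩ := le_of_le_swap hii h1 h3
      rw [hk2] at hp h2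
      rw [hp, Equiv.swap_apply_right] at h2
      exact lt_irrefl _ h2

end Pair

/-- The numerator times inverse denominator over all edges but the twin edge. -/
def rest (h : Fin n → Fin n) (i i' : Fin n) (w v : Equiv.Perm (Fin n)) : K n :=
  ∏ e ∈ (edges h).erase (i, i'), (tK (v e.2) - tK (w e.1)) / (tK (v e.2) - tK (v e.1))

theorem ker_eq_rest {h : Fin n → Fin n} {i i' : Fin n} (he : Adj h i i')
    (w v : Equiv.Perm (Fin n)) :
    ker h w v = rest h i i' w v * ((tK (v i') - tK (w i)) / (tK (v i') - tK (v i))) :=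
  (Finset.prod_erase_mul _ _ (by simp [edges, he])).symm

theorem ker_add_edge {h h' : Fin n → Fin n} {p q : Fin n} (hn : ¬ Adj h p q)
    (hh : ∀ a b, Adj h' a b ↔ Adj h a b ∨ (a = p ∧ b = q)) (w v : Equiv.Perm (Fin n)) :
    ker h' w v = ker h w v * ((tK (v q) - tK (w p)) / (tK (v q) - tK (v p))) := by
  have e : edges h' = insert (p, q) (edges h) := by
    ext ⟨a, b⟩; simp [edges, hh, or_comm]
  rw [ker, e, Finset.prod_insert (by simp [edges, hn]), mul_comm]
  rfl

/-- Exchange of twins in the upper ends of the edges preserves them. -/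
theorem maps_upper {h : Fin n → Fin n} {i i' : Fin n} (ht : Twins h i i') {e : Fin n × Fin n}
    (he : e ∈ (edges h).erase (i, i')) :
    (e.1, Equiv.swap i i' e.2) ∈ (edges h).erase (i, i') := by
  obtain ⟨a, b⟩ := e
  simp only [mem_erase, edges, mem_filter, mem_univ, true_and, ne_eq, Prod.mk.injEq] at he ⊢
  have hs := ht.succ
  have hab : a < b := he.2.1
  rw [Equiv.swap_apply_def]
  split_ifs with h1 h2
  · subst h1
    exact ⟨fun x => absurd hab (by rw [x.1]; exact lt_irrefl _), (ht.before a hab).mp he.2⟩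
  · subst h2
    have ha : a ≠ i := fun x => he.1 ⟨x, rfl⟩
    have ha' : a < i := by simp only [Fin.lt_def, ne_eq, Fin.ext_iff] at *; omega
    exact ⟨fun x => ha x.1, (ht.before a ha').mpr he.2⟩
  · exact he

/-- Exchange of twins in the lower ends of the edges preserves them. -/
theorem maps_lower {h : Fin n → Fin n} {i i' : Fin n} (ht : Twins h i i') {e : Fin n × Fin n}
    (he : e ∈ (edges h).erase (i, i')) :
    (Equiv.swap i i' e.1, e.2) ∈ (edges h).erase (i, i') := by
  obtain ⟨a, b⟩ := e
  simp only [mem_erase, edges, mem_filter, mem_univ, true_and, ne_eq, Prod.mk.injEq] at he ⊢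
  have hs := ht.succ
  have hab : a < b := he.2.1
  rw [Equiv.swap_apply_def]
  split_ifs with h1 h2
  · subst h1
    have hb : b ≠ i' := fun x => he.1 ⟨rfl, x⟩
    have hb' : i' < b := by simp only [Fin.lt_def, ne_eq, Fin.ext_iff] at *; omega
    exact ⟨fun x => hb x.2, (ht.after b hb').mp he.2⟩
  · subst h2
    exact ⟨fun x => absurd hab (by rw [x.2]; exact lt_irrefl _), (ht.after b hab).mpr he.2⟩
  · exact he

theorem prod_upper {M : Type*} [CommMonoid M] {h : Fin n → Fin n} {i i' : Fin n}
    (ht : Twins h i i') (F : Fin n × Fin n → M) :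
    ∏ e ∈ (edges h).erase (i, i'), F (e.1, Equiv.swap i i' e.2) =
      ∏ e ∈ (edges h).erase (i, i'), F e :=
  Finset.prod_nbij' (fun e => (e.1, Equiv.swap i i' e.2)) (fun e => (e.1, Equiv.swap i i' e.2))
    (fun e he => maps_upper ht he) (fun e he => maps_upper ht he) (by simp) (by simp) (by simp)

theorem prod_lower {M : Type*} [CommMonoid M] {h : Fin n → Fin n} {i i' : Fin n}
    (ht : Twins h i i') (F : Fin n × Fin n → M) :
    ∏ e ∈ (edges h).erase (i, i'), F (Equiv.swap i i' e.1, e.2) =
      ∏ e ∈ (edges h).erase (i, i'), F e :=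
  Finset.prod_nbij' (fun e => (Equiv.swap i i' e.1, e.2)) (fun e => (Equiv.swap i i' e.1, e.2))
    (fun e he => maps_lower ht he) (fun e he => maps_lower ht he) (by simp) (by simp) (by simp)

theorem rest_swap_right {h : Fin n → Fin n} {i i' : Fin n} (ht : Twins h i i')
    (w v : Equiv.Perm (Fin n)) : rest h i i' w (v * Equiv.swap i i') = rest h i i' w v := by
  simp only [rest, Finset.prod_div_distrib, Equiv.Perm.mul_apply]
  congr 1
  · exact prod_upper ht fun e => tK (v e.2) - tK (w e.1)
  · exact (prod_lower ht fun e => tK (v (Equiv.swap i i' e.2)) - tK (v e.1)).trans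
      (prod_upper ht fun e => tK (v e.2) - tK (v e.1))

theorem rest_swap_left {h : Fin n → Fin n} {i i' : Fin n} (ht : Twins h i i')
    (w v : Equiv.Perm (Fin n)) : rest h i i' (w * Equiv.swap i i') v = rest h i i' w v := by
  simp only [rest, Finset.prod_div_distrib, Equiv.Perm.mul_apply]
  congr 1
  exact prod_lower ht fun e => tK (v e.2) - tK (w e.1)

open scoped Classical in
theorem ZK_apply [NeZero n] (h : Fin n → Fin n) (f : Fn n) (w : Equiv.Perm (Fin n)) :
    ZK h f w = ∑ v, if Compat w v then ker h w v * algebraMap (P n) (K n) (f v) else 0 := by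
  rw [← Finset.sum_filter]; rfl

variable [NeZero n] {hm h0 hp : Fin n → Fin n} {i i' c : Fin n}

/-- The vanishing sum behind the first map. -/
theorem sum_twin_zero (ht : Twins hm i i') {f : Fn n}
    (hf : ∀ v, f (v * Equiv.swap i i') = f v) (w : Equiv.Perm (Fin n)) :
    ZK hm (fun v => (X (v i) - X (w i)) * f v) w = 0 := by
  classical
  rw [ZK_apply]
  set T : Equiv.Perm (Fin n) → K n := fun v =>
    if Compat w v then ker hm w v * algebraMap (P n) (K n) ((X (v i) - X (w i)) * f v) else 0
    with hT
  show ∑ v, T v = 0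
  have hne : i ≠ i' := fun e => by have := ht.succ; rw [e] at this; omega
  have hpair : ∀ v, T v + T (v * Equiv.swap i i') = 0 := by
    intro v
    have d1 : tK (v i') - tK (v i) ≠ 0 := tK_sub_ne fun e => hne (v.injective e).symm
    have d2 : tK (v i) - tK (v i') ≠ 0 := tK_sub_ne fun e => hne (v.injective e)
    simp only [hT, ker_eq_rest ht.edge, rest_swap_right ht, hf, map_mul, map_sub, algebraMap_X,
      Equiv.Perm.mul_apply, Equiv.swap_apply_left, Equiv.swap_apply_right]
    by_cases c1 : Compat w v <;> by_cases c2 : Compat w (v * Equiv.swap i i')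
    · rw [if_pos c1, if_pos c2]
      field_simp
      ring
    · rw [if_pos c1, if_neg c2, compat_mul_swap_right ht.succ c1 c2]
      simp
    · have := compat_mul_swap_right ht.succ c2 (by rwa [mul_assoc, Equiv.swap_mul_self, mul_one])
      rw [Equiv.Perm.mul_apply, Equiv.swap_apply_left] at this
      rw [if_neg c1, if_pos c2, this]
      simp
    · simp [c1, c2]
  have h2 : ∑ v, T v + ∑ v, T (v * Equiv.swap i i') = 0 := by
    rw [← Finset.sum_add_distrib]
    exact Finset.sum_eq_zero fun v _ => hpair v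
  rw [Equiv.sum_comp (Equiv.mulRight (Equiv.swap i i')) T |>.symm] at h2 ⊢
  have h3 : ∑ v, T (v * Equiv.swap i i') = ∑ v, T v :=
    Equiv.sum_comp (Equiv.mulRight (Equiv.swap i i')) T
  simp only [Equiv.coe_mulRight] at h2 ⊢
  exact CharZero.eq_neg_self_iff.mp (eq_neg_of_add_eq_zero_left h2)

theorem first (ht : TripleL hm h0 hp i i' c) {f g : Fn n} (hf : f ∈ Msym hm i i')
    (hg : ZRel hm f g) :
    ZRel h0 (fun w => (X (w i) - X (w c)) * f w) (fun w => (X (w i) - X (w c)) * g w) := by
  classical
  intro w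
  have hf' : ∀ v, f (v * Equiv.swap i i') = f v := fun v => by
    have := congr_fun (LinearMap.mem_ker.mp hf.2) v
    simpa [slotSwap, sub_eq_zero] using this
  have hci : i ≠ c := ht.left.ne'
  have step : ZK h0 (fun v => (X (v i) - X (v c)) * f v) w =
      ZK hm (fun v => (X (v i) - X (w i)) * f v) w + (tK (w i) - tK (w c)) * ZK hm f w := by
    simp only [ZK_apply, Finset.mul_sum, ← Finset.sum_add_distrib]
    refine Finset.sum_congr rfl fun v _ => ?_
    have d : tK (v i) - tK (v c) ≠ 0 := tK_sub_ne fun e => hci (v.injective e)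
    by_cases cv : Compat w v
    · simp only [if_pos cv, ker_add_edge ht.notEdge.1 ht.mid, map_mul, map_sub, algebraMap_X]
      field_simp
      ring
    · simp [cv]
  rw [step, sum_twin_zero ht.twinsM hf', zero_add, ← hg w, map_mul, map_sub, algebraMap_X,
    algebraMap_X]

/-- The identity of rational functions behind the second map. -/
theorem alg_key {F : Type*} [Field F] (a b C D x y A : F) (c1 c2 c3 : Prop) [Decidable c1]
    [Decidable c2] [Decidable c3] (hab : a - b ≠ 0) (haC : a - C ≠ 0) (hbC : b - C ≠ 0)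
    (h12 : c1 → ¬ c2 → a = x) (h13 : c1 → ¬ c3 → b = y)
    (h21 : ¬ c1 → c2 → b = x) (h31 : ¬ c1 → c3 → b = x) (h23 : b = x → (c2 ↔ c3)) :
    (x - y) * ((if c1 then A * ((b - x) / (b - a)) * ((a - D) / (a - C)) * ((b - D) / (b - C)) *
          ((b - C) / (a - b)) else 0) -
        (if c2 then A * ((a - x) / (a - b)) * ((b - D) / (b - C)) * ((a - D) / (a - C)) *
          ((b - C) / (b - a)) else 0)) =
      (y - D) * (if c1 then A * ((b - x) / (b - a)) * ((a - D) / (a - C)) else 0) -
        (x - D) * (if c3 then A * ((b - y) / (b - a)) * ((a - D) / (a - C)) else 0) := by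
  have hba : b - a ≠ 0 := fun e => hab (by linear_combination -e)
  by_cases h1 : c1
  · by_cases h2 : c2 <;> by_cases h3 : c3
    · simp only [if_pos h1, if_pos h2, if_pos h3]; field_simp; ring
    · obtain rfl := h13 h1 h3
      simp only [if_pos h1, if_pos h2, if_neg h3]; field_simp; ring
    · obtain rfl := h12 h1 h2
      simp only [if_pos h1, if_neg h2, if_pos h3]; field_simp; ring
    · obtain rfl := h12 h1 h2
      obtain rfl := h13 h1 h3
      simp only [if_pos h1, if_neg h2, if_neg h3]; field_simp; ring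
  · by_cases h2 : c2
    · have hb := h21 h1 h2
      subst hb
      simp only [if_neg h1, if_pos h2, if_pos ((h23 rfl).mp h2)]; field_simp; ring
    · by_cases h3 : c3
      · exact absurd ((h23 (h31 h1 h3)).mpr h3) h2
      · simp [h1, h2, h3]

theorem second (ht : TripleL hm h0 hp i i' c) {f f' g g' : Fn n} (hg : ZRel h0 f g)
    (hg' : ZRel hp f' g')
    (hf : ∀ w, (X (w i) - X (w i')) * f' w =
      (X (w i') - X (w c)) * f w - (X (w i) - X (w c)) * f (w * Equiv.swap i i'))
    (w : Equiv.Perm (Fin n)) :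
    (X (w i) - X (w i')) * g' w =
      (X (w i') - X (w c)) * g w - (X (w i) - X (w c)) * g (w * Equiv.swap i i') := by
  classical
  apply IsFractionRing.injective (P n) (K n)
  simp only [map_sub, map_mul, algebraMap_X, hg w, hg' w, hg (w * Equiv.swap i i')]
  have hs := ht.twinsM.succ
  have hci : c ≠ i := ht.left.ne
  have hci' : c ≠ i' := fun e => by have := ht.left; rw [e, Fin.lt_def] at this; omega
  have hne : i ≠ i' := fun e => by rw [e] at hs; omega
  have hn0 : ¬ Adj h0 c i' := by
    rw [ht.mid]; rintro (h | ⟨_, h⟩)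
    · exact ht.notEdge.2 h
    · exact hne h.symm
  have hsc : Equiv.swap i i' c = c := Equiv.swap_apply_of_ne_of_ne hci hci'
  set F : Equiv.Perm (Fin n) → K n := fun v => algebraMap (P n) (K n) (f v) with hF
  have hf' : ∀ v, algebraMap (P n) (K n) (f' v) = ((tK (v i') - tK (v c)) * F v -
      (tK (v i) - tK (v c)) * F (v * Equiv.swap i i')) / (tK (v i) - tK (v i')) := by
    intro v
    have h := congrArg (algebraMap (P n) (K n)) (hf v)
    simp only [map_sub, map_mul, algebraMap_X] at h
    rw [eq_div_iff (tK_sub_ne fun e => hne (v.injective e)), mul_comm, h]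
  -- expand and reindex
  let k1 : Equiv.Perm (Fin n) → K n := fun v =>
    if Compat w v then ker hp w v * ((tK (v i') - tK (v c)) / (tK (v i) - tK (v i'))) else 0
  let k2 : Equiv.Perm (Fin n) → K n := fun v =>
    if Compat w v then ker hp w v * ((tK (v i) - tK (v c)) / (tK (v i) - tK (v i'))) else 0
  have hL : ZK hp f' w = ∑ v, (k1 v - k2 (v * Equiv.swap i i')) * F v := by
    have e1 : ZK hp f' w = ∑ v, k1 v * F v - ∑ v, k2 v * F (v * Equiv.swap i i') := by
      rw [ZK_apply, ← Finset.sum_sub_distrib]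
      refine Finset.sum_congr rfl fun v _ => ?_
      simp only [k1, k2, hf']
      split_ifs <;> ring
    have e2 : ∑ v, k2 v * F (v * Equiv.swap i i') = ∑ v, k2 (v * Equiv.swap i i') * F v := by
      rw [← Equiv.sum_comp (Equiv.mulRight (Equiv.swap i i'))]
      simp [mul_assoc]
    rw [e1, e2, ← Finset.sum_sub_distrib]
    exact Finset.sum_congr rfl fun v _ => (sub_mul _ _ _).symm
  rw [hL, ZK_apply, ZK_apply, Finset.mul_sum, Finset.mul_sum, Finset.mul_sum,
    ← Finset.sum_sub_distrib]
  refine Finset.sum_congr rfl fun v _ => ?_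
  have hval : ∀ j, (v * Equiv.swap i i') j = v (Equiv.swap i i' j) := fun _ => rfl
  have K0 : ∀ u x : Equiv.Perm (Fin n), ker h0 u x = rest hm i i' u x *
      ((tK (x i') - tK (u i)) / (tK (x i') - tK (x i))) *
        ((tK (x i) - tK (u c)) / (tK (x i) - tK (x c))) := fun u x => by
    rw [ker_add_edge ht.notEdge.1 ht.mid, ker_eq_rest ht.twinsM.edge]
  have key := alg_key (tK (v i)) (tK (v i')) (tK (v c)) (tK (w c)) (tK (w i)) (tK (w i'))
    (rest hm i i' w v) (Compat w v) (Compat w (v * Equiv.swap i i'))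
    (Compat (w * Equiv.swap i i') v)
    (tK_sub_ne fun e => hne (v.injective e)) (tK_sub_ne fun e => hci (v.injective e).symm)
    (tK_sub_ne fun e => hci' (v.injective e).symm)
    (fun a b => by rw [compat_mul_swap_right hs a b])
    (fun a b => by rw [compat_mul_swap_left hs a b])
    (fun a b => by
      have := compat_mul_swap_right hs b (by rwa [mul_assoc, Equiv.swap_mul_self, mul_one])
      rw [hval, Equiv.swap_apply_left] at this
      rw [this])
    (fun a b => by
      have := compat_mul_swap_left hs b (by rwa [mul_assoc, Equiv.swap_mul_self, mul_one])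
      rw [Equiv.Perm.mul_apply, Equiv.swap_apply_right] at this
      rw [this])
    (fun e => compat_swap_iff hs (tK_injective e))
  have k0w : (w * Equiv.swap i i') i = w i' ∧ (w * Equiv.swap i i') c = w c := by
    simp [hsc]
  simp only [k1, k2, ker_add_edge hn0 ht.top, K0, rest_swap_right ht.twinsM, hval, hsc,
    Equiv.swap_apply_left, Equiv.swap_apply_right, rest_swap_left ht.twinsM, k0w.1, k0w.2]
  rw [← mul_assoc, key]
  split_ifs <;> ring

end Left

/-- E3. -/
theorem left : LeftStmt := fun _ _ _ _ _ _ _ _ ht =>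
  ⟨fun _ _ hf hg => Left.first ht hf hg,
    fun _ _ _ _ hg hg' hf => Left.second ht hg hg' hf⟩

end Vale.Agent.P066.Z
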