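import Mathlib
import Vale.Agent.P066.Z.Spec

/-!
# P066: a constant sequence of traces is a natural number
-/

noncomputable section

namespace Vale.Agent.P066.Z

open Polynomial

/-- A polynomial without constant term in an endomorphism with constant traces of powers. -/
theorem trace_aeval_X_mul {V : Type} [AddCommGroup V] [Module ℚ V] (e : Module.End ℚ V) (c : ℚ)
    (h : ∀ k : ℕ, 1 ≤ k → LinearMap.trace ℚ V (e ^ k) = c) (g : ℚ[X]) :
    LinearMap.trace ℚ V (aeval e (Polynomial.X * g)) = c * g.eval 1 := by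
  induction g using Polynomial.induction_on' with
  | add p q hp hq => rw [mul_add, map_add, map_add, hp, hq, eval_add, mul_add]
  | monomial k a =>
    rw [X_mul_monomial, aeval_monomial, ← Algebra.smul_def, map_smul, h (k + 1) (by omega),
      eval_monomial, one_pow, mul_one, smul_eq_mul, mul_comm]

/-- P. -/
theorem pos : PosStmt := by
  intro V _ _ _ e c h
  obtain ⟨p, hp, hmon⟩ : ∃ p : ℚ[X], aeval e p = 0 ∧ p.Monic :=
    ⟨e.charpoly, e.aeval_self_charpoly, e.charpoly_monic⟩
  set q : ℚ[X] := (Polynomial.X - Polynomial.C 1) * p with hq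
  have hq0 : q ≠ 0 := mul_ne_zero (X_sub_C_ne_zero 1) hmon.ne_zero
  obtain ⟨r, hr, hnd⟩ := q.exists_eq_pow_rootMultiplicity_mul_and_not_dvd hq0 1
  set b := q.rootMultiplicity 1 with hbdef
  have hb : 0 < b := (rootMultiplicity_pos hq0).2 (by simp [hq])
  obtain ⟨u, v, huv⟩ : IsCoprime ((Polynomial.X - Polynomial.C (1 : ℚ)) ^ b) (Polynomial.X * r) := by
    refine IsCoprime.pow_left ((irreducible_X_sub_C 1).coprime_iff_not_dvd.2 fun hd => ?_)
    rcases (prime_X_sub_C 1).dvd_or_dvd hd with hd | hd
    · rw [dvd_iff_isRoot] at hd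
      simp at hd
    · exact hnd hd
  have hqe : aeval e q = 0 := by rw [hq, map_mul, hp, mul_zero]
  set f : Module.End ℚ V := aeval e (v * (Polynomial.X * r)) with hf
  have hidem : IsIdempotentElem f := by
    have hid : v * (Polynomial.X * r) * (v * (Polynomial.X * r)) =
        v * (Polynomial.X * r) - u * v * Polynomial.X * q := by
      rw [hr]
      linear_combination (v * (Polynomial.X * r)) * huv
    show f * f = f
    rw [hf, ← map_mul, hid, map_sub, map_mul _ _ q, hqe, mul_zero, sub_zero]
  obtain ⟨U, hU⟩ := LinearMap.isProj_iff_isIdempotentElem f |>.2 hidem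
  refine ⟨Module.finrank ℚ U, ?_⟩
  have h1 : LinearMap.trace ℚ V f = c := by
    rw [hf, mul_left_comm, trace_aeval_X_mul e c h]
    have := congrArg (Polynomial.eval 1) huv
    simp [zero_pow hb.ne'] at this
    simp [this]
  rw [← h1, hU.trace]

end Vale.Agent.P066.Z
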