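import Vale.Agent.P066.Z.Defs

/-!
# P066: the kernel of Z at a pair of twin slots

`Compat w v` says that every nonzero label sits weakly left in `v` of where it sits in `w`. Relaxing
this at slot `i` up to slot `i'` gives a condition `TQ` invariant under exchanging the two slots in
either argument; where the two differ the kernel vanishes.
-/

noncomputable section

namespace Vale.Agent.P066.Z

open Finset MvPolynomial

variable {n : ℕ}

theorem compat_iff [NeZero n] (w v : Equiv.Perm (Fin n)) :
    Compat w v ↔ ∀ j, w j ≠ 0 → v.symm (w j) ≤ j := by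
  constructor
  · intro h j hj
    obtain ⟨k, hk, e⟩ := h j j le_rfl hj
    rwa [← e, Equiv.symm_apply_apply]
  · intro h m j hjm hj
    exact ⟨v.symm (w j), (h j hj).trans hjm, v.apply_symm_apply _⟩

/-- Compatibility, relaxed at slot `i` up to slot `i'`. -/
def TQ [NeZero n] (i i' : Fin n) (w v : Equiv.Perm (Fin n)) : Prop :=
  ∀ j, w j ≠ 0 → v.symm (w j) ≤ if j = i then i' else j

theorem tK_sub_ne_zero {a b : Fin n} (h : a ≠ b) : tK a - tK b ≠ 0 :=
  sub_ne_zero.2 fun e => h (X_injective (IsFractionRing.injective (P n) (K n) e))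

variable {i i' : Fin n}

theorem swap_le_iff (hsucc : i.1 + 1 = i'.1) {p b : Fin n} (hb : b ≠ i) :
    Equiv.swap i i' p ≤ b ↔ p ≤ b := by
  have hbv : b.1 ≠ i.1 := fun e => hb (Fin.ext e)
  rcases eq_or_ne p i with rfl | h1
  · rw [Equiv.swap_apply_left, Fin.le_def, Fin.le_def]; omega
  rcases eq_or_ne p i' with rfl | h2
  · rw [Equiv.swap_apply_right, Fin.le_def, Fin.le_def]; omega
  · rw [Equiv.swap_apply_of_ne_of_ne h1 h2]

theorem TQ.of_compat [NeZero n] (hsucc : i.1 + 1 = i'.1) {w v : Equiv.Perm (Fin n)}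
    (h : Compat w v) : TQ i i' w v := by
  intro j hj
  refine ((compat_iff w v).1 h j hj).trans ?_
  split_ifs with e
  · rw [e, Fin.le_def]; omega
  · exact le_rfl

theorem tq_mul_swap_right [NeZero n] (hsucc : i.1 + 1 = i'.1) (w v : Equiv.Perm (Fin n)) :
    TQ i i' w (v * Equiv.swap i i') ↔ TQ i i' w v := by
  refine forall_congr' fun j => imp_congr_right fun _ => ?_
  have e : (v * Equiv.swap i i').symm (w j) = Equiv.swap i i' (v.symm (w j)) := by
    rw [Equiv.symm_apply_eq, Equiv.Perm.mul_apply, Equiv.swap_apply_self, Equiv.apply_symm_apply]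
  rw [e]
  refine swap_le_iff hsucc ?_
  split_ifs with h
  · exact fun e => by rw [e] at hsucc; omega
  · exact h

theorem tq_mul_swap_left [NeZero n] (hsucc : i.1 + 1 = i'.1) (w v : Equiv.Perm (Fin n)) :
    TQ i i' (w * Equiv.swap i i') v ↔ TQ i i' w v := by
  have hne : i' ≠ i := fun e => by rw [e] at hsucc; omega
  constructor <;> intro h j hj
  · have := h (Equiv.swap i i' j) (by rwa [Equiv.Perm.mul_apply, Equiv.swap_apply_self])
    rw [Equiv.Perm.mul_apply, Equiv.swap_apply_self] at this
    rcases eq_or_ne j i with rfl | h1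
    · simpa [hne] using this
    rcases eq_or_ne j i' with rfl | h2
    · simpa [hne] using this
    · simpa [Equiv.swap_apply_of_ne_of_ne h1 h2, h1] using this
  · rw [Equiv.Perm.mul_apply] at hj ⊢
    have := h (Equiv.swap i i' j) hj
    rcases eq_or_ne j i with rfl | h1
    · simpa [hne] using this
    rcases eq_or_ne j i' with rfl | h2
    · simpa [hne] using this
    · simpa [Equiv.swap_apply_of_ne_of_ne h1 h2, h1] using this

theorem ker_eq_zero [NeZero n] {h : Fin n → Fin n} (hsucc : i.1 + 1 = i'.1) (he : Adj h i i')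
    {w v : Equiv.Perm (Fin n)} (hQ : TQ i i' w v) (hC : ¬ Compat w v) : ker h w v = 0 := by
  rw [compat_iff] at hC
  push Not at hC
  obtain ⟨j, hj, hlt⟩ := hC
  have hle := hQ j hj
  split_ifs at hle with e
  · subst e
    have hv : v.symm (w j) = i' := Fin.ext (by rw [Fin.le_def] at hle; rw [Fin.lt_def] at hlt; omega)
    have hwv : v i' = w j := by rw [← hv, Equiv.apply_symm_apply]
    exact prod_eq_zero (i := (j, i')) (by simpa [edges] using he) (by simp [hwv])
  · exact absurd hle (not_le.2 hlt)

open scoped Classical in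
theorem ZK_eq_sum [NeZero n] {h : Fin n → Fin n} (hsucc : i.1 + 1 = i'.1) (he : Adj h i i')
    (f : Fn n) (w : Equiv.Perm (Fin n)) :
    ZK h f w = ∑ v ∈ univ.filter (TQ i i' w), ker h w v * algebraMap (P n) (K n) (f v) := by
  refine sum_subset (fun v hv => ?_) fun v hv hv' => ?_
  · exact mem_filter.2 ⟨mem_univ _, TQ.of_compat hsucc (mem_filter.1 hv).2⟩
  · rw [ker_eq_zero hsucc he (mem_filter.1 hv).2 fun hC => hv' (mem_filter.2 ⟨mem_univ _, hC⟩),
      zero_mul]

open scoped Classical in
theorem filter_tq_swap_left [NeZero n] (hsucc : i.1 + 1 = i'.1) (w : Equiv.Perm (Fin n)) :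
    univ.filter (TQ i i' (w * Equiv.swap i i')) = univ.filter (TQ i i' w) :=
  Finset.ext fun v => by simp [tq_mul_swap_left hsucc]

open scoped Classical in
theorem sum_tq_swap [NeZero n] (hsucc : i.1 + 1 = i'.1) {A : Type*} [AddCommMonoid A]
    (w : Equiv.Perm (Fin n)) (F : Equiv.Perm (Fin n) → A) :
    ∑ v ∈ univ.filter (TQ i i' w), F (v * Equiv.swap i i') =
      ∑ v ∈ univ.filter (TQ i i' w), F v :=
  sum_nbij' (· * Equiv.swap i i') (· * Equiv.swap i i')
    (fun v hv => by simpa [tq_mul_swap_right hsucc] using hv)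
    (fun v hv => by simpa [tq_mul_swap_right hsucc] using hv)
    (fun v _ => by simp [mul_assoc]) (fun v _ => by simp [mul_assoc]) (fun v _ => rfl)

/-- A set of pairs stable under exchanging `i` and `i'` in either place. -/
def TStable (i i' : Fin n) (R : Finset (Fin n × Fin n)) : Prop :=
  ∀ e ∈ R, (e.1, Equiv.swap i i' e.2) ∈ R ∧ (Equiv.swap i i' e.1, e.2) ∈ R

/-- The part of the kernel over a set of pairs. -/
def rat (R : Finset (Fin n × Fin n)) (w v : Equiv.Perm (Fin n)) : K n :=
  ∏ e ∈ R, (tK (v e.2) - tK (w e.1)) / (tK (v e.2) - tK (v e.1))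

theorem ker_eq_rat (h : Fin n → Fin n) (w v : Equiv.Perm (Fin n)) :
    ker h w v = rat (edges h) w v := rfl

theorem rat_insert {R : Finset (Fin n × Fin n)} {e : Fin n × Fin n} (he : e ∉ R)
    (w v : Equiv.Perm (Fin n)) :
    rat (insert e R) w v = (tK (v e.2) - tK (w e.1)) / (tK (v e.2) - tK (v e.1)) * rat R w v :=
  prod_insert he

theorem TStable.rat_right {R : Finset (Fin n × Fin n)} (hR : TStable i i' R)
    (w v : Equiv.Perm (Fin n)) : rat R w (v * Equiv.swap i i') = rat R w v := by
  simp only [rat, prod_div_distrib, Equiv.Perm.mul_apply]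
  congr 1
  · exact prod_nbij' (fun e => (e.1, Equiv.swap i i' e.2)) (fun e => (e.1, Equiv.swap i i' e.2))
      (fun e he => (hR e he).1) (fun e he => (hR e he).1) (fun e _ => by simp)
      (fun e _ => by simp) (fun e _ => rfl)
  · exact prod_nbij' (fun e => (Equiv.swap i i' e.1, Equiv.swap i i' e.2))
      (fun e => (Equiv.swap i i' e.1, Equiv.swap i i' e.2))
      (fun e he => (hR _ (hR e he).1).2) (fun e he => (hR _ (hR e he).1).2) (fun e _ => by simp)
      (fun e _ => by simp) (fun e _ => rfl)

theorem TStable.rat_left {R : Finset (Fin n × Fin n)} (hR : TStable i i' R)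
    (w v : Equiv.Perm (Fin n)) : rat R (w * Equiv.swap i i') v = rat R w v := by
  simp only [rat, prod_div_distrib, Equiv.Perm.mul_apply]
  congr 1
  exact prod_nbij' (fun e => (Equiv.swap i i' e.1, e.2)) (fun e => (Equiv.swap i i' e.1, e.2))
    (fun e he => (hR e he).2) (fun e he => (hR e he).2) (fun e _ => by simp)
    (fun e _ => by simp) (fun e _ => rfl)

theorem Twins.stable {h : Fin n → Fin n} (ht : Twins h i i') :
    TStable i i' ((edges h).erase (i, i')) := by
  have hs := ht.succ
  rintro ⟨a, b⟩ he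
  simp only [mem_erase, edges, mem_filter, mem_univ, true_and, ne_eq, Prod.mk.injEq] at he ⊢
  obtain ⟨hne, hab⟩ := he
  have hlt : a.1 < b.1 := hab.1
  constructor
  · rcases eq_or_ne b i with rfl | h1
    · rw [Equiv.swap_apply_left]
      refine ⟨fun e => by rw [e.1] at hlt; omega, (ht.before a (Fin.lt_def.2 hlt)).1 hab⟩
    rcases eq_or_ne b i' with rfl | h2
    · rw [Equiv.swap_apply_right]
      have ha : a ≠ i := fun e => hne ⟨e, rfl⟩
      have : a.1 ≠ i.1 := fun e => ha (Fin.ext e)
      refine ⟨fun e => ha e.1, (ht.before a (Fin.lt_def.2 (by omega))).2 hab⟩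
    · rw [Equiv.swap_apply_of_ne_of_ne h1 h2]; exact ⟨hne, hab⟩
  · rcases eq_or_ne a i with rfl | h1
    · rw [Equiv.swap_apply_left]
      have hb : b ≠ i' := fun e => hne ⟨rfl, e⟩
      have : b.1 ≠ i'.1 := fun e => hb (Fin.ext e)
      refine ⟨fun e => by have := congrArg Fin.val e.1; omega,
        (ht.after b (Fin.lt_def.2 (by omega))).1 hab⟩
    rcases eq_or_ne a i' with rfl | h2
    · rw [Equiv.swap_apply_right]
      refine ⟨fun e => by have := congrArg Fin.val e.2; omega, (ht.after b hab.1).2 hab⟩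
    · rw [Equiv.swap_apply_of_ne_of_ne h1 h2]; exact ⟨hne, hab⟩

/-- The kernel of twins: the edge `(i, i')` and the part invariant under both exchanges. -/
theorem Twins.ker_eq {h : Fin n → Fin n} (ht : Twins h i i') (w v : Equiv.Perm (Fin n)) :
    ker h w v = (tK (v i') - tK (w i)) / (tK (v i') - tK (v i)) *
      rat ((edges h).erase (i, i')) w v := by
  have hmem : (i, i') ∈ edges h := by simpa [edges] using ht.edge
  have e : edges h = insert (i, i') ((edges h).erase (i, i')) := (insert_erase hmem).symm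
  rw [ker_eq_rat]
  conv_lhs => rw [e, rat_insert (notMem_erase _ _)]

end Vale.Agent.P066.Z
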