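import Vale.Agent.P066.Z.Spec
import Vale.Agent.P066.Z.TwinCore

/-!
# P066: right triples commute with Z

Module E2 of the positivity proof. After `ZK_eq_sum` both parts are identities for each pair `w, v`.
-/

noncomputable section

namespace Vale.Agent.P066.Z

open Finset MvPolynomial

variable {n : ℕ}

theorem TripleR.edges_mid {hm h0 hp : Fin n → Fin n} {i i' c : Fin n}
    (ht : TripleR hm h0 hp i i' c) :
    edges h0 = insert (i', c) (edges hm) ∧ (i', c) ∉ edges hm := by
  refine ⟨Finset.ext fun e => ?_, by simpa [edges] using ht.notEdge.2⟩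
  simp [edges, ht.mid, Prod.ext_iff, or_comm]

theorem TripleR.edges_top {hm h0 hp : Fin n → Fin n} {i i' c : Fin n}
    (ht : TripleR hm h0 hp i i' c) :
    edges hp = insert (i, c) (edges h0) ∧ (i, c) ∉ edges h0 := by
  refine ⟨Finset.ext fun e => ?_, ?_⟩
  · simp [edges, ht.top, Prod.ext_iff, or_comm]
  · have hne : i ≠ i' := fun e => by have := ht.twinsM.succ; rw [e] at this; omega
    simp [edges, ht.mid, ht.notEdge.1, hne]

theorem TripleR.ker_mid {hm h0 hp : Fin n → Fin n} {i i' c : Fin n}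
    (ht : TripleR hm h0 hp i i' c) (w v : Equiv.Perm (Fin n)) :
    ker h0 w v = (tK (v c) - tK (w i')) / (tK (v c) - tK (v i')) * ker hm w v := by
  rw [ker_eq_rat, ker_eq_rat, ht.edges_mid.1, rat_insert ht.edges_mid.2]

theorem TripleR.ker_top {hm h0 hp : Fin n → Fin n} {i i' c : Fin n}
    (ht : TripleR hm h0 hp i i' c) (w v : Equiv.Perm (Fin n)) :
    ker hp w v = (tK (v c) - tK (w i)) / (tK (v c) - tK (v i)) * ker h0 w v := by
  rw [ker_eq_rat, ker_eq_rat, ht.edges_top.1, rat_insert ht.edges_top.2]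

variable [NeZero n]

omit [NeZero n] in
theorem TripleR.adj_mid {hm h0 hp : Fin n → Fin n} {i i' c : Fin n}
    (ht : TripleR hm h0 hp i i' c) : Adj h0 i i' := (ht.mid i i').2 (Or.inl ht.twinsM.edge)

/-- The inclusion of the functions symmetric for the top graph commutes with Z. -/
theorem TripleR.incl {hm h0 hp : Fin n → Fin n} {i i' c : Fin n} (ht : TripleR hm h0 hp i i' c)
    {f : Fn n} (hf : ∀ v, f (v * Equiv.swap i i') = f v) (w : Equiv.Perm (Fin n)) :
    ZK hp f w = ZK h0 f w := by
  classical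
  have hs := ht.twinsM.succ
  have hic : i.1 < c.1 := lt_trans (by omega) ht.right
  rw [ZK_eq_sum hs ht.twinsP.edge, ZK_eq_sum hs ht.adj_mid, ← sub_eq_zero, ← sum_sub_distrib]
  refine add_self_eq_zero.1 ?_
  nth_rewrite 2 [← sum_tq_swap hs]
  rw [← sum_add_distrib]
  refine sum_eq_zero fun v _ => ?_
  rw [hf v, ← sub_mul, ← sub_mul, ← add_mul]
  refine mul_eq_zero_of_left ?_ _
  have hR := ht.twinsM.stable
  have ne : ∀ {x y : Fin n}, x.1 ≠ y.1 → tK (v x) - tK (v y) ≠ 0 := fun h =>
    tK_sub_ne_zero fun e => h (congrArg Fin.val (v.injective e))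
  have hc : Equiv.swap i i' c = c :=
    Equiv.swap_apply_of_ne_of_ne (fun e => by rw [e] at hic; omega) ht.right.ne'
  simp only [ht.ker_top, ht.ker_mid, ht.twinsM.ker_eq, hR.rat_right, Equiv.Perm.mul_apply, hc,
    Equiv.swap_apply_left, Equiv.swap_apply_right]
  have h1 : tK (v c) - tK (v i) ≠ 0 := ne (by omega)
  have h2 : tK (v c) - tK (v i') ≠ 0 := ne fun e => ht.right.ne' (Fin.ext e)
  have h3 : tK (v i') - tK (v i) ≠ 0 := ne (by omega)
  have h4 : tK (v i) - tK (v i') ≠ 0 := ne (by omega)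
  field_simp
  ring

/-- The divided difference of the middle graph commutes with Z. -/
theorem TripleR.divdiff {hm h0 hp : Fin n → Fin n} {i i' c : Fin n} (ht : TripleR hm h0 hp i i' c)
    {f f' : Fn n}
    (hf : ∀ v, (X (v i) - X (v i')) * f' v = f v - f (v * Equiv.swap i i'))
    (w : Equiv.Perm (Fin n)) :
    (tK (w i) - tK (w i')) * ZK hm f' w = ZK h0 f w - ZK h0 f (w * Equiv.swap i i') := by
  classical
  have hs := ht.twinsM.succ
  have hR := ht.twinsM.stable
  have hf' : ∀ v : Equiv.Perm (Fin n), algebraMap (P n) (K n) (f' v) =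
      algebraMap (P n) (K n) (f v) / (tK (v i) - tK (v i')) -
        algebraMap (P n) (K n) (f (v * Equiv.swap i i')) / (tK (v i) - tK (v i')) := by
    intro v
    rw [← sub_div, ← map_sub, ← hf v, map_mul, map_sub]
    change _ = (tK (v i) - tK (v i')) * _ / _
    rw [mul_div_cancel_left₀]
    exact tK_sub_ne_zero fun e => by have := congrArg Fin.val (v.injective e); omega
  let G : Equiv.Perm (Fin n) → K n := fun v =>
    (tK (w i) - tK (w i')) * ker hm w (v * Equiv.swap i i') / (tK (v i) - tK (v i'))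
  have e1 : (tK (w i) - tK (w i')) * ZK hm f' w = ∑ v ∈ univ.filter (TQ i i' w),
      ((tK (w i) - tK (w i')) * ker hm w v / (tK (v i) - tK (v i')) + G v) *
        algebraMap (P n) (K n) (f v) := by
    rw [ZK_eq_sum hs ht.twinsM.edge, mul_sum]
    have h : ∀ v : Equiv.Perm (Fin n),
        (tK (w i) - tK (w i')) * (ker hm w v * algebraMap (P n) (K n) (f' v)) =
          (tK (w i) - tK (w i')) * ker hm w v / (tK (v i) - tK (v i')) *
              algebraMap (P n) (K n) (f v) -
            (tK (w i) - tK (w i')) * ker hm w v / (tK (v i) - tK (v i')) *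
              algebraMap (P n) (K n) (f (v * Equiv.swap i i')) := fun v => by
      rw [hf' v]; ring
    rw [sum_congr rfl fun v _ => h v, sum_sub_distrib]
    nth_rewrite 2 [← sum_tq_swap hs]
    rw [← sum_sub_distrib]
    refine sum_congr rfl fun v _ => ?_
    simp only [G, mul_assoc, Equiv.swap_mul_self, mul_one, Equiv.Perm.mul_apply,
      Equiv.swap_apply_left, Equiv.swap_apply_right]
    rw [← neg_sub (tK (v i)) (tK (v i')), div_neg]
    ring
  rw [e1, ZK_eq_sum hs ht.adj_mid, ZK_eq_sum hs ht.adj_mid, filter_tq_swap_left hs,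
    ← sum_sub_distrib]
  refine sum_congr rfl fun v _ => ?_
  rw [← sub_mul]
  congr 1
  have ne : ∀ {x y : Fin n}, x.1 ≠ y.1 → tK (v x) - tK (v y) ≠ 0 := fun h =>
    tK_sub_ne_zero fun e => h (congrArg Fin.val (v.injective e))
  simp only [G, ht.ker_mid, ht.twinsM.ker_eq, hR.rat_right, hR.rat_left, Equiv.Perm.mul_apply,
    Equiv.swap_apply_left, Equiv.swap_apply_right]
  have h2 : tK (v c) - tK (v i') ≠ 0 := ne fun e => ht.right.ne' (Fin.ext e)
  have h3 : tK (v i') - tK (v i) ≠ 0 := ne (by omega)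
  have h4 : tK (v i) - tK (v i') ≠ 0 := ne (by omega)
  field_simp
  ring

/-- E2. -/
theorem right : RightStmt := by
  intro n _ hm h0 hp i i' c ht
  refine ⟨fun f g hf hg w => ?_, fun f f' g g' hg hg' hf w => ?_⟩
  · rw [hg w]
    refine ht.incl (fun v => ?_) w
    have := congrFun (LinearMap.mem_ker.1 hf.2) v
    simpa [slotSwap, sub_eq_zero] using this
  · refine IsFractionRing.injective (P n) (K n) ?_
    rw [map_mul, map_sub, map_sub, hg w, hg _, hg' w]
    exact ht.divdiff hf w

end Vale.Agent.P066.Z
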