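import Mathlib
import Vale.Agent.P066.Z.Act
import Vale.Agent.P066.Z.DivDiff

/-!
# P066: split equivariant sequences and traces on the graded pieces
-/

noncomputable section

namespace Vale.Agent.P066.Z

open Finset MvPolynomial

variable {n : ℕ}

theorem trace_ext {R A B C : Type*} [Field R] [AddCommGroup A] [Module R A] [FiniteDimensional R A]
    [AddCommGroup B] [Module R B] [FiniteDimensional R B]
    [AddCommGroup C] [Module R C] [FiniteDimensional R C]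
    (i : A →ₗ[R] B) (r : B →ₗ[R] A) (q : B →ₗ[R] C) (s : C →ₗ[R] B)
    (hri : r ∘ₗ i = LinearMap.id) (hqs : q ∘ₗ s = LinearMap.id)
    (hid : i ∘ₗ r + s ∘ₗ q = LinearMap.id)
    (TA : Module.End R A) (TB : Module.End R B) (TC : Module.End R C)
    (hi : TB ∘ₗ i = i ∘ₗ TA) (hq : q ∘ₗ TB = TC ∘ₗ q) :
    LinearMap.trace R B TB = LinearMap.trace R A TA + LinearMap.trace R C TC := by
  have e1 : LinearMap.trace R B (i ∘ₗ (r ∘ₗ TB)) = LinearMap.trace R A TA := by
    rw [LinearMap.trace_comp_comm', LinearMap.comp_assoc, hi, ← LinearMap.comp_assoc, hri,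
      LinearMap.id_comp]
  have e2 : LinearMap.trace R B (s ∘ₗ (q ∘ₗ TB)) = LinearMap.trace R C TC := by
    rw [LinearMap.trace_comp_comm', hq, LinearMap.comp_assoc, hqs, LinearMap.comp_id]
  rw [← e1, ← e2, ← map_add, ← LinearMap.comp_assoc, ← LinearMap.comp_assoc, ← LinearMap.add_comp,
    hid, LinearMap.id_comp]

theorem evW_comm {A B : Type*} [AddCommGroup A] [Module ℚ A] [AddCommGroup B] [Module ℚ B]
    (f : A →ₗ[ℚ] B) {p z : Module.End ℚ A} {p' z' : Module.End ℚ B}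
    (hp : ∀ x, p' (f x) = f (p x)) (hz : ∀ x, z' (f x) = f (z x)) (a : FreeAlgebra ℚ ℕ) :
    (p' * evW p' z' a) ∘ₗ f = f ∘ₗ (p * evW p z a) := by
  have hk : ∀ k x, (z' ^ k) (f x) = f ((z ^ k) x) := by
    intro k
    induction k with
    | zero => intro x; simp
    | succ k ih => intro x; rw [pow_succ, pow_succ, Module.End.mul_apply, Module.End.mul_apply, hz, ih]
  have hev : ∀ x, evW p' z' a (f x) = f (evW p z a x) := by
    induction a using FreeAlgebra.induction with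
    | grade0 r => intro x; simp
    | grade1 k => intro x; simp [evW, hp, hk]
    | mul a b ha hb => intro x; simp [ha, hb]
    | add a b ha hb => intro x; simp [ha, hb]
  refine LinearMap.ext fun x => ?_
  simp [hp, hev]

/-! ### Degrees -/

theorem isHomogeneous_cancel {p g : P n} {k m : ℕ} (hp : p.IsHomogeneous k) (hp0 : p ≠ 0)
    (h : (p * g).IsHomogeneous m) (hmk : k ≤ m) : g.IsHomogeneous (m - k) := by
  have key : ∀ e, e + k ≠ m → homogeneousComponent e g = 0 := by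
    intro e he
    refine (mul_eq_zero.1 ?_).resolve_left hp0
    have e1 : homogeneousComponent (k + e) (p * g) = p * homogeneousComponent e g := by
      conv_lhs => rw [← sum_homogeneousComponent g, Finset.mul_sum, map_sum]
      rw [Finset.sum_eq_single e]
      · rw [homogeneousComponent_of_mem (hp.mul (homogeneousComponent_isHomogeneous e g)), if_pos rfl]
      · intro b _ hb
        rw [homogeneousComponent_of_mem (hp.mul (homogeneousComponent_isHomogeneous b g)),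
          if_neg (by omega)]
      · intro hb
        rw [homogeneousComponent_eq_zero e g (by simpa [Nat.lt_succ_iff] using hb)]
        simp
    rw [← e1, homogeneousComponent_of_mem h, if_neg (by omega)]
  rw [← sum_homogeneousComponent g]
  refine IsHomogeneous.sum _ _ _ fun e _ => ?_
  by_cases he : e = m - k
  · subst he; exact homogeneousComponent_isHomogeneous _ g
  · rw [key e (by omega)]; exact isHomogeneous_zero _ _ _

theorem eq_zero_of_mul {p g : P n} (hp : p.IsHomogeneous 1) (hp0 : p ≠ 0)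
    (h : (p * g).IsHomogeneous 0) : g = 0 := by
  refine (mul_eq_zero.1 ?_).resolve_left hp0
  by_contra hne
  have hg : homogeneousComponent 0 (p * g) = p * g := by rw [homogeneousComponent_of_mem h, if_pos rfl]
  apply hne
  rw [← hg]
  conv_lhs => rw [← sum_homogeneousComponent g, Finset.mul_sum, map_sum]
  refine Finset.sum_eq_zero fun e _ => ?_
  rw [homogeneousComponent_of_mem (hp.mul (homogeneousComponent_isHomogeneous e g)),
    if_neg (by omega)]

theorem tau_mem_Deg (a : Fin n) : tau a ∈ Deg 1 := mem_Deg.2 fun _ => isHomogeneous_X _ _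

theorem mul_mem_Deg {f g : Fn n} {a b : ℕ} (hf : f ∈ Deg a) (hg : g ∈ Deg b) :
    f * g ∈ Deg (a + b) :=
  mem_Deg.2 fun w => (mem_Deg.1 hf w).mul (mem_Deg.1 hg w)

theorem slotSwap_mem_Deg (i i' : Fin n) {f : Fn n} {d : ℕ} (hf : f ∈ Deg d) :
    slotSwap i i' f ∈ Deg d :=
  mem_Deg.2 fun _ => mem_Deg.1 hf _

theorem mem_Deg_of_mul {δ g : Fn n} {d : ℕ} (hδ : δ ∈ Deg 1) (h0 : ∀ w, δ w ≠ 0)
    (h : δ * g ∈ Deg (d + 1)) : g ∈ Deg d :=
  mem_Deg.2 fun w => by
    simpa using isHomogeneous_cancel (mem_Deg.1 hδ w) (h0 w) (mem_Deg.1 h w) (by omega)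

theorem eq_zero_of_mul_mem {δ g : Fn n} (hδ : δ ∈ Deg 1) (h0 : ∀ w, δ w ≠ 0)
    (h : δ * g ∈ Deg 0) : g = 0 := by
  funext w
  have hw := mem_Deg.1 h w
  rw [Pi.mul_apply] at hw
  exact eq_zero_of_mul (p := δ w) (g := g w) (mem_Deg.1 hδ w) (h0 w) hw

/-! ### Maps of modules of functions -/

theorem tpart_mem (N : Submodule (P n) (Fn n)) (d : ℕ) {f : Fn n} (hf : f ∈ tpart N d) :
    f ∈ N := by
  cases d with
  | zero => rw [(Submodule.mem_bot ℚ).1 hf]; exact zero_mem _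
  | succ d =>
    induction hf using Submodule.iSup_induction' with
    | mem j g hg => obtain ⟨a, ha, rfl⟩ := hg; exact N.smul_mem _ ha.1
    | zero => exact zero_mem _
    | add x y _ _ hx hy => exact add_mem hx hy

section maps

variable {NA NB : Submodule (P n) (Fn n)}

/-- `T` maps degree `d` to degree `e`, compatibly with multiples of the variables. -/
structure MapsDeg (T : NA →ₗ[P n] NB) (d e : ℕ) : Prop where
  deg : ∀ f : NA, (f : Fn n) ∈ Deg d → (T f : Fn n) ∈ Deg e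
  tdeg : ∀ f : NA, (f : Fn n) ∈ tpart NA d → (T f : Fn n) ∈ tpart NB e

/-- `T` preserves degrees. -/
def Homog (T : NA →ₗ[P n] NB) : Prop := ∀ d (f : NA), (f : Fn n) ∈ Deg d → (T f : Fn n) ∈ Deg d

/-- `T` raises degrees by one. -/
def Raises (T : NA →ₗ[P n] NB) : Prop :=
  ∀ d (f : NA), (f : Fn n) ∈ Deg d → (T f : Fn n) ∈ Deg (d + 1)

/-- `T` lowers degrees by one. -/
def Lowers (T : NA →ₗ[P n] NB) : Prop :=
  (∀ d (f : NA), (f : Fn n) ∈ Deg (d + 1) → (T f : Fn n) ∈ Deg d) ∧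
    ∀ f : NA, (f : Fn n) ∈ Deg 0 → (T f : Fn n) = 0

theorem map_tpart (T : NA →ₗ[P n] NB) {d e : ℕ}
    (hT : ∀ f : NA, (f : Fn n) ∈ Deg d → (T f : Fn n) ∈ Deg e) (f : NA)
    (hf : (f : Fn n) ∈ tpart NA (d + 1)) : (T f : Fn n) ∈ tpart NB (e + 1) := by
  suffices H : ∀ x ∈ tpart NA (d + 1), ∃ hx : x ∈ NA, (T ⟨x, hx⟩ : Fn n) ∈ tpart NB (e + 1) by
    obtain ⟨_, hx⟩ := H _ hf
    exact hx
  intro x hx
  induction hx using Submodule.iSup_induction' with
  | mem j g hg =>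
    obtain ⟨a, ha, rfl⟩ := hg
    refine ⟨NA.smul_mem _ ha.1, Submodule.mem_iSup_of_mem j
      ⟨(T ⟨a, ha.1⟩ : Fn n), ⟨(T ⟨a, ha.1⟩).2, hT ⟨a, ha.1⟩ ha.2⟩, ?_⟩⟩
    show (X j : P n) • (T ⟨a, ha.1⟩ : Fn n) = (T ((X j : P n) • ⟨a, ha.1⟩) : Fn n)
    rw [map_smul]
    rfl
  | zero => exact ⟨zero_mem _, by rw [show (⟨0, zero_mem _⟩ : NA) = 0 from rfl, map_zero]; exact zero_mem _⟩
  | add x y _ _ hx hy =>
    obtain ⟨hx1, hx2⟩ := hx
    obtain ⟨hy1, hy2⟩ := hy
    refine ⟨add_mem hx1 hy1, ?_⟩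
    rw [show (⟨x + y, add_mem hx1 hy1⟩ : NA) = ⟨x, hx1⟩ + ⟨y, hy1⟩ from rfl, map_add]
    exact add_mem hx2 hy2

theorem tpart_zero_eq (T : NA →ₗ[P n] NB) (f : NA) (hf : (f : Fn n) ∈ tpart NA 0) :
    (T f : Fn n) = 0 := by
  have : f = 0 := Subtype.ext ((Submodule.mem_bot ℚ).1 hf)
  simp [this]

theorem Homog.mapsDeg {T : NA →ₗ[P n] NB} (hT : Homog T) (d : ℕ) : MapsDeg T d d := by
  refine ⟨hT d, fun f hf => ?_⟩
  cases d with
  | zero => rw [tpart_zero_eq T f hf]; exact zero_mem _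
  | succ d => exact map_tpart T (hT d) f hf

theorem Raises.mapsDeg {T : NA →ₗ[P n] NB} (hT : Raises T) (d : ℕ) : MapsDeg T d (d + 1) := by
  refine ⟨hT d, fun f hf => ?_⟩
  cases d with
  | zero => rw [tpart_zero_eq T f hf]; exact zero_mem _
  | succ d => exact map_tpart T (hT d) f hf

theorem Lowers.mapsDeg {T : NA →ₗ[P n] NB} (hT : Lowers T) (d : ℕ) : MapsDeg T (d + 1) d := by
  refine ⟨hT.1 d, fun f hf => ?_⟩
  cases d with
  | zero =>
    have key : ∀ x ∈ tpart NA 1, ∃ hx : x ∈ NA, (T ⟨x, hx⟩ : Fn n) = 0 := by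
      intro x hx
      induction hx using Submodule.iSup_induction' with
      | mem j g hg =>
        obtain ⟨a, ha, rfl⟩ := hg
        refine ⟨NA.smul_mem _ ha.1, ?_⟩
        show (T ((X j : P n) • ⟨a, ha.1⟩) : Fn n) = 0
        rw [map_smul, Submodule.coe_smul, hT.2 _ ha.2, smul_zero]
      | zero => exact ⟨zero_mem _, by rw [show (⟨0, zero_mem _⟩ : NA) = 0 from rfl, map_zero]; rfl⟩
      | add x y _ _ hx hy =>
        obtain ⟨hx1, hx2⟩ := hx
        obtain ⟨hy1, hy2⟩ := hy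
        refine ⟨add_mem hx1 hy1, ?_⟩
        rw [show (⟨x + y, add_mem hx1 hy1⟩ : NA) = ⟨x, hx1⟩ + ⟨y, hy1⟩ from rfl, map_add,
          Submodule.coe_add, hx2, hy2, add_zero]
    obtain ⟨_, h0⟩ := key _ hf
    rw [h0]; exact zero_mem _
  | succ d => exact map_tpart T (hT.1 d) f hf

/-- The map on the graded pieces. -/
def onW (T : NA →ₗ[P n] NB) {d e : ℕ} (hT : MapsDeg T d e) : W NA d →ₗ[ℚ] W NB e :=
  Submodule.mapQ _ _
    { toFun := fun f => (⟨(T ⟨f, f.2.1⟩ : Fn n), (T ⟨f, f.2.1⟩).2, hT.deg ⟨f, f.2.1⟩ f.2.2⟩ : part NB e)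
      map_add' := fun f g => Subtype.ext (congrArg (Subtype.val : NB → Fn n)
        (T.map_add ⟨f, f.2.1⟩ ⟨g, g.2.1⟩) :)
      map_smul' := fun c f => Subtype.ext (congrArg (Subtype.val : NB → Fn n)
        ((T.restrictScalars ℚ).map_smul c ⟨f, f.2.1⟩) :) }
    fun f hf => hT.tdeg ⟨f, f.2.1⟩ hf

theorem onW_mk (T : NA →ₗ[P n] NB) {d e : ℕ} (hT : MapsDeg T d e) (f : part NA d) :
    onW T hT (Submodule.Quotient.mk f) = Submodule.Quotient.mk
      ⟨(T ⟨f, f.2.1⟩ : Fn n), (T ⟨f, f.2.1⟩).2, hT.deg ⟨f, f.2.1⟩ f.2.2⟩ :=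
  rfl

/-- `T` commutes with the average and with Z. -/
structure Equiv' [NeZero n] (hA hB : Fin n → Fin n) (T : NA →ₗ[P n] NB) : Prop where
  avg : ∀ f g : NA, Z.avg (f : Fn n) = g → Z.avg (T f : Fn n) = T g
  z : ∀ f g : NA, ZRel hA (f : Fn n) g → ZRel hB (T f : Fn n) (T g)

theorem Equiv'.onW_comm [NeZero n] {hA hB : Fin n → Fin n} {T : NA →ₗ[P n] NB}
    (hE : Equiv' hA hB T) (SA : Stable hA NA) {d e : ℕ} (hT : MapsDeg T d e)
    {p z : Module.End ℚ (W NA d)} {p' z' : Module.End ℚ (W NB e)}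
    (hpz : IsAct hA NA d p z) (hpz' : IsAct hB NB e p' z') (a : FreeAlgebra ℚ ℕ) :
    (p' * evW p' z' a) ∘ₗ onW T hT = onW T hT ∘ₗ (p * evW p z a) := by
  refine evW_comm _ (fun x => ?_) (fun x => ?_) a <;>
    obtain ⟨f, rfl⟩ := Submodule.Quotient.mk_surjective _ x
  · rw [hpz.p_mk SA, onW_mk, onW_mk]
    exact hpz'.1 _ _ (hE.avg ⟨f, f.2.1⟩ ⟨_, (SA.avg_mem_part f.2).1⟩ rfl)
  · obtain ⟨g, hg, hfg, hdeg⟩ := SA.exists_z f f.2.1
    rw [hpz.2 f ⟨g, hg, hdeg d f.2.2⟩ hfg, onW_mk, onW_mk]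
    exact hpz'.2 _ _ (hE.z ⟨f, f.2.1⟩ ⟨g, hg⟩ hfg)

end maps

section seq

variable [NeZero n] {hA hB hC : Fin n → Fin n} {NA NB NC : Submodule (P n) (Fn n)}

/-- A split equivariant sequence of modules of functions. -/
structure Seq (hA hB hC : Fin n → Fin n) (i : NA →ₗ[P n] NB) (r : NB →ₗ[P n] NA)
    (q : NB →ₗ[P n] NC) (s : NC →ₗ[P n] NB) : Prop where
  ri : ∀ x, r (i x) = x
  qs : ∀ x, q (s x) = x
  sum : ∀ x, i (r x) + s (q x) = x
  ei : Equiv' hA hB i
  eq : Equiv' hB hC q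

variable {i : NA →ₗ[P n] NB} {r : NB →ₗ[P n] NA} {q : NB →ₗ[P n] NC} {s : NC →ₗ[P n] NB}

theorem Seq.phi_add (Q : Seq hA hB hC i r q s) (SA : Stable hA NA) (SB : Stable hB NB)
    (SC : Stable hC NC) {dA dB dC : ℕ} (hi : MapsDeg i dA dB) (hr : MapsDeg r dB dA)
    (hq : MapsDeg q dB dC) (hs : MapsDeg s dC dB) (a : FreeAlgebra ℚ ℕ) :
    phi hB NB dB a = phi hA NA dA a + phi hC NC dC a := by
  obtain ⟨pA, zA, hpA⟩ := SA.exists_act dA
  obtain ⟨pB, zB, hpB⟩ := SB.exists_act dB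
  obtain ⟨pC, zC, hpC⟩ := SC.exists_act dC
  rw [hpA.phi_eq SA, hpB.phi_eq SB, hpC.phi_eq SC]
  refine trace_ext (onW i hi) (onW r hr) (onW q hq) (onW s hs) ?_ ?_ ?_ _ _ _
    (Q.ei.onW_comm SA hi hpA hpB a) (Q.eq.onW_comm SB hq hpB hpC a).symm <;>
    refine LinearMap.ext fun x => ?_ <;> obtain ⟨f, rfl⟩ := Submodule.Quotient.mk_surjective _ x
  · exact congrArg Submodule.Quotient.mk (Subtype.ext (congrArg (Subtype.val : NA → Fn n) (Q.ri ⟨f, f.2.1⟩) :))
  · exact congrArg Submodule.Quotient.mk (Subtype.ext (congrArg (Subtype.val : NC → Fn n) (Q.qs ⟨f, f.2.1⟩) :))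
  · exact congrArg Submodule.Quotient.mk (Subtype.ext (congrArg (Subtype.val : NB → Fn n) (Q.sum ⟨f, f.2.1⟩) :))

/-- Without a quotient in the degree at hand, the injection is an isomorphism. -/
theorem Seq.phi_eq_left (Q : Seq hA hB hC i r q s) (SA : Stable hA NA) (SB : Stable hB NB)
    {dA dB : ℕ} (hi : MapsDeg i dA dB) (hr : MapsDeg r dB dA)
    (hq : ∀ f : NB, (f : Fn n) ∈ Deg dB → (q f : Fn n) = 0) (a : FreeAlgebra ℚ ℕ) :
    phi hB NB dB a = phi hA NA dA a := by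
  obtain ⟨pA, zA, hpA⟩ := SA.exists_act dA
  obtain ⟨pB, zB, hpB⟩ := SB.exists_act dB
  rw [hpA.phi_eq SA, hpB.phi_eq SB]
  have hri : onW r hr ∘ₗ onW i hi = LinearMap.id := by
    refine LinearMap.ext fun x => ?_
    obtain ⟨f, rfl⟩ := Submodule.Quotient.mk_surjective _ x
    exact congrArg Submodule.Quotient.mk (Subtype.ext (congrArg (Subtype.val : NA → Fn n) (Q.ri ⟨f, f.2.1⟩) :))
  have hir : onW i hi ∘ₗ onW r hr = LinearMap.id := by
    refine LinearMap.ext fun x => ?_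
    obtain ⟨f, rfl⟩ := Submodule.Quotient.mk_surjective _ x
    refine congrArg Submodule.Quotient.mk (Subtype.ext ?_)
    have e := Q.sum ⟨f, f.2.1⟩
    rw [show q ⟨f, f.2.1⟩ = 0 from Subtype.ext (hq ⟨f, f.2.1⟩ f.2.2), map_zero, add_zero] at e
    exact (congrArg (Subtype.val : NB → Fn n) e :)
  have h := Q.ei.onW_comm SA hi hpA hpB a
  rw [← LinearMap.comp_id (pB * evW pB zB a), ← hir, ← LinearMap.comp_assoc,
    LinearMap.trace_comp_comm', h, ← LinearMap.comp_assoc, hri, LinearMap.id_comp]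

/-- Without a submodule in the degree at hand, the quotient is an isomorphism. -/
theorem Seq.phi_eq_right (Q : Seq hA hB hC i r q s) (SB : Stable hB NB) (SC : Stable hC NC)
    {dB dC : ℕ} (hq : MapsDeg q dB dC) (hs : MapsDeg s dC dB)
    (hr : ∀ f : NB, (f : Fn n) ∈ Deg dB → (r f : Fn n) = 0) (a : FreeAlgebra ℚ ℕ) :
    phi hB NB dB a = phi hC NC dC a := by
  obtain ⟨pB, zB, hpB⟩ := SB.exists_act dB
  obtain ⟨pC, zC, hpC⟩ := SC.exists_act dC
  rw [hpB.phi_eq SB, hpC.phi_eq SC]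
  have hqs : onW q hq ∘ₗ onW s hs = LinearMap.id := by
    refine LinearMap.ext fun x => ?_
    obtain ⟨f, rfl⟩ := Submodule.Quotient.mk_surjective _ x
    exact congrArg Submodule.Quotient.mk (Subtype.ext (congrArg (Subtype.val : NC → Fn n) (Q.qs ⟨f, f.2.1⟩) :))
  have hsq : onW s hs ∘ₗ onW q hq = LinearMap.id := by
    refine LinearMap.ext fun x => ?_
    obtain ⟨f, rfl⟩ := Submodule.Quotient.mk_surjective _ x
    refine congrArg Submodule.Quotient.mk (Subtype.ext ?_)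
    have e := Q.sum ⟨f, f.2.1⟩
    rw [show r ⟨f, f.2.1⟩ = 0 from Subtype.ext (hr ⟨f, f.2.1⟩ f.2.2), map_zero, zero_add] at e
    exact (congrArg (Subtype.val : NB → Fn n) e :)
  have h := Q.eq.onW_comm SB hq hpB hpC a
  rw [← LinearMap.id_comp (pB * evW pB zB a), ← hsq, LinearMap.comp_assoc,
    LinearMap.trace_comp_comm', ← h, LinearMap.comp_assoc, hqs, LinearMap.comp_id]

end seq

end Vale.Agent.P066.Z
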