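import Mathlib
import Vale.Agent.P066.Z.SplitGen

/-!
# P066: the three split sequences and the trace identities

Twins: `0 → Msym h → M h → Msym h → 0` by the divided difference. Right triples:
`0 → Msym hp → M h0 → Msym hm → 0`. Left triples: `0 → Msym hm → M h0 → Msym hp → 0`.
-/

noncomputable section

namespace Vale.Agent.P066.Z

open Finset MvPolynomial

variable {n : ℕ}

/-! ### Invariance under the dot action -/

theorem dot_fn_mul (σ : Equiv.Perm (Fin n)) (f g : Fn n) : dot σ (f * g) = dot σ f * dot σ g := by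
  funext w
  simp [dot_apply]

theorem dot_tau (σ : Equiv.Perm (Fin n)) (a : Fin n) : dot σ (tau a) = tau a := by
  funext w
  simp [dot_apply, tau]

theorem avg_fn_mul {α : Fn n} (hα : ∀ σ, dot σ α = α) (f : Fn n) : avg (α * f) = α * avg f := by
  simp only [avg_apply, dot_fn_mul, hα, ← Finset.mul_sum, mul_smul_comm]

theorem avg_slotSwap (i i' : Fin n) (f : Fn n) : avg (slotSwap i i' f) = slotSwap i i' (avg f) := by
  have hd : ∀ σ, dot σ (slotSwap i i' f) = slotSwap i i' (dot σ f) := fun σ => funext fun w => by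
    simp [dot_apply, slotSwap_apply, mul_assoc]
  funext w
  simp only [avg_apply, hd, slotSwap_apply, Pi.smul_apply, Finset.sum_apply]

theorem dot_tau_sub (a b : Fin n) (σ : Equiv.Perm (Fin n)) :
    dot σ (tau a - tau b) = tau a - tau b := by
  rw [map_sub, dot_tau, dot_tau]

theorem tau_sub_mem_Deg (a b : Fin n) : (tau a - tau b : Fn n) ∈ Deg 1 :=
  sub_mem (tau_mem_Deg a) (tau_mem_Deg b)

/-! ### Maps defined by division -/

section quot

variable {N N' : Submodule (P n) (Fn n)} {δ : Fn n} (hδ : ∀ w, δ w ≠ 0) (D : N →ₗ[P n] Fn n)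
  (hD : ∀ f : N, ∃ g ∈ N', δ * g = D f)

/-- The map `f ↦ D f / δ`. -/
def quotMap : N →ₗ[P n] N' where
  toFun f := ⟨(hD f).choose, (hD f).choose_spec.1⟩
  map_add' f g := Subtype.ext (fn_cancel hδ (by
    rw [Submodule.coe_add, mul_add, (hD f).choose_spec.2, (hD g).choose_spec.2,
      (hD (f + g)).choose_spec.2, map_add]))
  map_smul' c f := Subtype.ext (fn_cancel hδ (by
    rw [Submodule.coe_smul, mul_smul_comm, RingHom.id_apply, (hD f).choose_spec.2,
      (hD (c • f)).choose_spec.2, map_smul]))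

theorem quotMap_spec (f : N) : δ * (quotMap hδ D hD f : Fn n) = D f := (hD f).choose_spec.2

theorem quotMap_eq (f : N) {g : N'} (h : δ * (g : Fn n) = D f) : quotMap hδ D hD f = g :=
  Subtype.ext (fn_cancel hδ ((quotMap_spec hδ D hD f).trans h.symm))

theorem quotMap_lowers (hd : δ ∈ Deg 1)
    (hDd : ∀ d (f : N), (f : Fn n) ∈ Deg d → D f ∈ Deg d) : Lowers (quotMap hδ D hD) := by
  refine ⟨fun d f hf => mem_Deg_of_mul hd hδ ?_, fun f hf => eq_zero_of_mul_mem hd hδ ?_⟩ <;>
    (rw [quotMap_spec]; exact hDd _ f hf)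

theorem quotMap_homog (hd : δ ∈ Deg 1)
    (hDd : ∀ d (f : N), (f : Fn n) ∈ Deg d → D f ∈ Deg (d + 1)) : Homog (quotMap hδ D hD) :=
  fun d f hf => mem_Deg_of_mul hd hδ (by rw [quotMap_spec]; exact hDd _ f hf)

theorem quotMap_avg (hinv : ∀ σ, dot σ δ = δ) (hcomm : ∀ f g : N, avg (f : Fn n) = g → avg (D f) = D g)
    (f g : N) (h : avg (f : Fn n) = g) :
    avg (quotMap hδ D hD f : Fn n) = (quotMap hδ D hD g : Fn n) :=
  fn_cancel hδ (by rw [← avg_fn_mul hinv, quotMap_spec, quotMap_spec, hcomm f g h])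

end quot

/-- Multiplication by a fixed function, between two modules. -/
def mulMap {N N' : Submodule (P n) (Fn n)} (α : Fn n) (h : ∀ f ∈ N, α * f ∈ N') : N →ₗ[P n] N' :=
  ((LinearMap.mulLeft (P n) α).comp N.subtype).codRestrict N' fun f => h f f.2

theorem coe_mulMap {N N' : Submodule (P n) (Fn n)} (α : Fn n) (h : ∀ f ∈ N, α * f ∈ N') (f : N) :
    (mulMap α h f : Fn n) = α * f := rfl

theorem mulMap_raises {N N' : Submodule (P n) (Fn n)} {α : Fn n} (h : ∀ f ∈ N, α * f ∈ N')
    (hα : α ∈ Deg 1) : Raises (mulMap α h) := fun d f hf => by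
  rw [coe_mulMap, add_comm]
  exact mul_mem_Deg hα hf

/-- The divided difference as a map. -/
def diffD (i i' : Fin n) (N : Submodule (P n) (Fn n)) : N →ₗ[P n] Fn n :=
  (LinearMap.id - slotSwap i i').comp N.subtype

theorem diffD_apply (i i' : Fin n) (N : Submodule (P n) (Fn n)) (f : N) :
    diffD i i' N f = (f : Fn n) - slotSwap i i' f := rfl

theorem diffD_deg (i i' : Fin n) (N : Submodule (P n) (Fn n)) (d : ℕ) (f : N)
    (hf : (f : Fn n) ∈ Deg d) : diffD i i' N f ∈ Deg d :=
  sub_mem hf (slotSwap_mem_Deg i i' hf)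

theorem diffD_avg (i i' : Fin n) (N : Submodule (P n) (Fn n)) (f g : N)
    (h : avg (f : Fn n) = g) : avg (diffD i i' N f) = diffD i i' N g := by
  rw [diffD_apply, diffD_apply, map_sub, avg_slotSwap, h]

/-! ### Twins and right triples -/

section right

variable {hB hC hA : Fin n → Fin n} {i i' : Fin n}
  (hii : i < i') (hq : ∀ f ∈ M hB, ∃ g ∈ Msym hC i i', (tau i - tau i') * g = f - slotSwap i i' f)
  (hle : Msym hA i i' ≤ M hB)
  (hfix : ∀ f ∈ M hB, slotSwap i i' f = f → f ∈ Msym hA i i')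
  (σ : Fn n) (hsec : ∀ g ∈ Msym hC i i', σ * g ∈ M hB)
  (hσ : σ - slotSwap i i' σ = tau i - tau i')

/-- The divided difference on `M hB`. -/
def dq : M hB →ₗ[P n] Msym hC i i' :=
  quotMap (δ := tau i - tau i') (delta_ne hii.ne) (diffD i i' (M hB)) fun f => hq f f.2

include hσ in
theorem sigma_fixed {g : Fn n} (hg : slotSwap i i' g = g) :
    σ * g - slotSwap i i' (σ * g) = (tau i - tau i') * g := by
  rw [slotSwap_mul, hg, ← sub_mul, hσ]

/-- The complementary projection. -/
def dr : M hB →ₗ[P n] Msym hA i i' :=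
  (((M hB).subtype - (M hB).subtype.comp ((mulMap σ hsec).comp (dq hii hq))).codRestrict
    (Msym hA i i') fun f => hfix _ (sub_mem f.2 (mulMap σ hsec (dq hii hq f)).2) (by
      show slotSwap i i' ((f : Fn n) - σ * (dq hii hq f : Fn n)) = (f : Fn n) - σ * (dq hii hq f : Fn n)
      have e := sigma_fixed σ hσ (mem_Msym_iff.1 (dq hii hq f).2).2
      have e' : (tau i - tau i') * (dq hii hq f : Fn n) = (f : Fn n) - slotSwap i i' f :=
        quotMap_spec _ _ _ f
      rw [map_sub]
      linear_combination e + e'))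

theorem coe_dr (f : M hB) :
    (dr hii hq hfix σ hsec hσ f : Fn n) = (f : Fn n) - σ * (dq hii hq f : Fn n) := rfl

theorem dq_lowers : Lowers (dq hii hq) :=
  quotMap_lowers _ _ _ (tau_sub_mem_Deg i i') (diffD_deg i i' _)

theorem dr_homog (hσd : σ ∈ Deg 1) : Homog (dr hii hq hfix σ hsec hσ) := fun d f hf => by
  rw [coe_dr]
  refine sub_mem hf ?_
  cases d with
  | zero => rw [(dq_lowers hii hq).2 f hf, mul_zero]; exact zero_mem _
  | succ d => rw [add_comm d 1]; exact mul_mem_Deg hσd ((dq_lowers hii hq).1 d f hf)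

include hle in
theorem right_seq [NeZero n]
    (hzi : ∀ f g, f ∈ Msym hA i i' → g ∈ Msym hA i i' → ZRel hA f g → ZRel hB f g)
    (hzq : ∀ f f' g g' : Fn n, ZRel hB f g → ZRel hC f' g' →
      (∀ w, (X (w i) - X (w i')) * f' w = f w - f (w * Equiv.swap i i')) →
      ∀ w, (X (w i) - X (w i')) * g' w = g w - g (w * Equiv.swap i i'))
    (SC : Stable hC (Msym hC i i')) :
    Seq hA hB hC (Submodule.inclusion hle) (dr hii hq hfix σ hsec hσ) (dq hii hq) (mulMap σ hsec) := by
  have q0 : ∀ f : M hB, slotSwap i i' (f : Fn n) = f → dq hii hq f = 0 := fun f hf => by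
    refine quotMap_eq _ _ _ f ?_
    rw [diffD_apply, hf, sub_self, ZeroMemClass.coe_zero, mul_zero]
  refine ⟨fun x => Subtype.ext ?_, fun x => quotMap_eq _ _ _ _ ?_, fun x => Subtype.ext ?_,
    ⟨fun f g h => h, fun f g h => hzi _ _ f.2 g.2 h⟩, ⟨fun f g h => ?_, fun f g h => ?_⟩⟩
  · rw [coe_dr, q0 _ (mem_Msym_iff.1 x.2).2, ZeroMemClass.coe_zero, mul_zero, sub_zero]
    rfl
  · rw [diffD_apply, coe_mulMap, sigma_fixed σ hσ (mem_Msym_iff.1 x.2).2]
  · rw [Submodule.coe_add, Submodule.coe_inclusion, coe_dr, coe_mulMap, sub_add_cancel]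
  · exact quotMap_avg _ _ _ (dot_tau_sub i i') (diffD_avg i i' _) f g h
  · obtain ⟨g', hg', hfg', -⟩ := SC.exists_z _ (dq hii hq f).2
    have hrel : ∀ w, (X (w i) - X (w i')) * (dq hii hq f : Fn n) w =
        (f : Fn n) w - (f : Fn n) (w * Equiv.swap i i') :=
      fun w => congrFun (quotMap_spec _ _ _ f) w
    have e : dq hii hq g = ⟨g', hg'⟩ :=
      quotMap_eq _ _ _ g (funext fun w => hzq _ _ _ _ h hfg' hrel w)
    rw [e]
    exact hfg'

include hii hq hle hfix hsec hσ in
theorem right_phi [NeZero n] (hσd : σ ∈ Deg 1)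
    (hzi : ∀ f g, f ∈ Msym hA i i' → g ∈ Msym hA i i' → ZRel hA f g → ZRel hB f g)
    (hzq : ∀ f f' g g' : Fn n, ZRel hB f g → ZRel hC f' g' →
      (∀ w, (X (w i) - X (w i')) * f' w = f w - f (w * Equiv.swap i i')) →
      ∀ w, (X (w i) - X (w i')) * g' w = g w - g (w * Equiv.swap i i'))
    (SA : Stable hA (Msym hA i i')) (SB : Stable hB (M hB)) (SC : Stable hC (Msym hC i i'))
    (a : FreeAlgebra ℚ ℕ) :
    phiS hB (M hB) a =
      phiS hA (Msym hA i i') a + PowerSeries.X * phiS hC (Msym hC i i') a := by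
  have Q := right_seq hii hq hle hfix σ hsec hσ hzi hzq SC
  have hi : Homog (Submodule.inclusion hle) := fun d f hf => hf
  have hr := dr_homog hii hq hfix σ hsec hσ hσd
  have hl := dq_lowers hii hq
  ext d
  cases d with
  | zero =>
    simp only [phiS, map_add, PowerSeries.coeff_mk, PowerSeries.coeff_zero_X_mul, add_zero]
    exact Q.phi_eq_left SA SB (hi.mapsDeg 0) (hr.mapsDeg 0) hl.2 a
  | succ d =>
    simp only [phiS, map_add, PowerSeries.coeff_mk, PowerSeries.coeff_succ_X_mul]
    exact Q.phi_add SA SB SC (hi.mapsDeg _) (hr.mapsDeg _) (hl.mapsDeg d)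
      ((mulMap_raises hsec hσd).mapsDeg d) a

end right

/-! ### Left triples -/

section left

variable {hm h0 hp : Fin n → Fin n} {i i' c : Fin n} (T : TripleL hm h0 hp i i' c)

include T in
theorem TripleL.fixed_c : Equiv.swap i i' c = c :=
  Equiv.swap_apply_of_ne_of_ne T.left.ne (T.left.trans T.twinsM.lt).ne

/-- The numerator of the twisted divided difference. -/
def twistD (hB : Fin n → Fin n) (i i' c : Fin n) : M hB →ₗ[P n] Fn n :=
  (LinearMap.mulLeft (P n) (tau i' - tau c) -
    (LinearMap.mulLeft (P n) (tau i - tau c)).comp (slotSwap i i')).comp (M hB).subtype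

theorem twistD_apply (hB : Fin n → Fin n) (i i' c : Fin n) (f : M hB) :
    twistD hB i i' c f = (tau i' - tau c) * (f : Fn n) - (tau i - tau c) * slotSwap i i' f := rfl

/-- The twisted divided difference. -/
def lq : M h0 →ₗ[P n] Msym hp i i' :=
  quotMap (δ := tau i - tau i') (delta_ne T.twinsM.lt.ne) (twistD h0 i i' c) fun f =>
    T.exists_diff f.2

theorem lr_exists (f : M h0) : ∃ g ∈ Msym hm i i',
    (tau i - tau c) * g = (f : Fn n) + (lq T f : Fn n) := by
  have hs : slotSwap i i' (lq T f : Fn n) = lq T f := (mem_Msym_iff.1 (lq T f).2).2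
  have e : (tau i - tau i') * (lq T f : Fn n) = twistD h0 i i' c f := quotMap_spec _ _ _ f
  rw [twistD_apply] at e
  refine T.exists_factor (add_mem f.2 (T.le_mid (lq T f).2)) ?_
  rw [map_add, hs]
  linear_combination -e

/-- The factor of the kernel part. -/
def lr : M h0 →ₗ[P n] Msym hm i i' :=
  quotMap (δ := tau i - tau c) (delta_ne T.left.ne') ((M h0).subtype + (Msym hp i i').subtype.comp (lq T))
    fun f => lr_exists T f

theorem lq_homog : Homog (lq T) :=
  quotMap_homog _ _ _ (tau_sub_mem_Deg i i') fun d f hf => by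
    rw [twistD_apply, add_comm d 1]
    exact sub_mem (mul_mem_Deg (tau_sub_mem_Deg _ _) hf)
      (mul_mem_Deg (tau_sub_mem_Deg _ _) (slotSwap_mem_Deg i i' hf))

theorem lr_lowers : Lowers (lr T) :=
  quotMap_lowers _ _ _ (tau_sub_mem_Deg i c) fun d f hf => add_mem hf (lq_homog T d f hf)

include T in
theorem left_phi [NeZero n]
    (hzi : ∀ f g, f ∈ Msym hm i i' → ZRel hm f g →
      ZRel h0 (fun w => (X (w i) - X (w c)) * f w) (fun w => (X (w i) - X (w c)) * g w))
    (hzq : ∀ f f' g g' : Fn n, ZRel h0 f g → ZRel hp f' g' →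
      (∀ w, (X (w i) - X (w i')) * f' w =
        (X (w i') - X (w c)) * f w - (X (w i) - X (w c)) * f (w * Equiv.swap i i')) →
      ∀ w, (X (w i) - X (w i')) * g' w =
        (X (w i') - X (w c)) * g w - (X (w i) - X (w c)) * g (w * Equiv.swap i i'))
    (SA : Stable hm (Msym hm i i')) (SB : Stable h0 (M h0)) (SC : Stable hp (Msym hp i i'))
    (a : FreeAlgebra ℚ ℕ) :
    phiS h0 (M h0) a =
      phiS hp (Msym hp i i') a + PowerSeries.X * phiS hm (Msym hm i i') a := by
  let li : Msym hm i i' →ₗ[P n] M h0 := mulMap (tau i - tau c) fun f hf => T.inj_mem hf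
  let ls : Msym hp i i' →ₗ[P n] M h0 := -Submodule.inclusion T.le_mid
  have q0 : ∀ x : Msym hm i i', lq T (li x) = 0 := fun x => by
    refine quotMap_eq _ _ _ _ ?_
    rw [twistD_apply, ZeroMemClass.coe_zero, mul_zero, coe_mulMap, slotSwap_mul, map_sub,
      slotSwap_tau, slotSwap_tau, Equiv.swap_apply_left, T.fixed_c, (mem_Msym_iff.1 x.2).2]
    ring
  have Q : Seq hm h0 hp li (lr T) (lq T) ls := by
    refine ⟨fun x => quotMap_eq _ _ _ _ ?_, fun x => quotMap_eq _ _ _ _ ?_, fun x => Subtype.ext ?_,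
      ⟨fun f g h => ?_, fun f g h => hzi _ _ f.2 h⟩, ⟨fun f g h => ?_, fun f g h => ?_⟩⟩
    · simp only [LinearMap.add_apply, LinearMap.comp_apply, Submodule.subtype_apply, q0,
        ZeroMemClass.coe_zero, add_zero]
      rfl
    · rw [twistD_apply]
      show _ = (tau i' - tau c) * (-(x : Fn n)) - (tau i - tau c) * slotSwap i i' (-(x : Fn n))
      rw [map_neg, (mem_Msym_iff.1 x.2).2]
      ring
    · show (tau i - tau c) * (lr T x : Fn n) + -(lq T x : Fn n) = (x : Fn n)
      rw [show (tau i - tau c) * (lr T x : Fn n) = (x : Fn n) + (lq T x : Fn n) from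
        quotMap_spec _ _ _ x]
      ring
    · rw [coe_mulMap, coe_mulMap, avg_fn_mul (dot_tau_sub i c), h]
    · exact quotMap_avg _ _ _ (dot_tau_sub i i') (fun f g hfg => by
        rw [twistD_apply, twistD_apply, map_sub, avg_fn_mul (dot_tau_sub i' c),
          avg_fn_mul (dot_tau_sub i c), avg_slotSwap, hfg]) f g h
    · obtain ⟨g', hg', hfg', -⟩ := SC.exists_z _ (lq T f).2
      have hrel : ∀ w, (X (w i) - X (w i')) * (lq T f : Fn n) w =
          (X (w i') - X (w c)) * (f : Fn n) w -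
            (X (w i) - X (w c)) * (f : Fn n) (w * Equiv.swap i i') :=
        fun w => congrFun (quotMap_spec _ _ _ f) w
      have e : lq T g = ⟨g', hg'⟩ :=
        quotMap_eq _ _ _ g (funext fun w => hzq _ _ _ _ h hfg' hrel w)
      rw [e]
      exact hfg'
  have hq := lq_homog T
  have hs : Homog ls := fun d f hf => neg_mem hf
  have hl := lr_lowers T
  ext d
  cases d with
  | zero =>
    simp only [phiS, map_add, PowerSeries.coeff_mk, PowerSeries.coeff_zero_X_mul, add_zero]
    exact Q.phi_eq_right SB SC (hq.mapsDeg 0) (hs.mapsDeg 0) hl.2 a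
  | succ d =>
    simp only [phiS, map_add, PowerSeries.coeff_mk, PowerSeries.coeff_succ_X_mul]
    rw [Q.phi_add SA SB SC ((mulMap_raises _ (tau_sub_mem_Deg i c)).mapsDeg d) (hl.mapsDeg d)
      (hq.mapsDeg _) (hs.mapsDeg _) a, add_comm]

end left

/-- **F2.** The trace identities of the three exact sequences. -/
theorem split (hD : ExistsStmt) (hS : SymStmt) (hT : TwinStmt) (hR : RightStmt) (hL : LeftStmt) :
    SplitStmt := by
  intro n _ a
  refine ⟨fun h i i' hh ht => ?_, fun hm h0 hp i i' c H => ?_⟩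
  · rw [add_mul, one_mul]
    exact right_phi ht.lt (fun f hf => exists_diff ht (fun _ _ h => h) hf) inf_le_left
      (fun f hf hs => mem_Msym_iff.2 ⟨hf, hs⟩) (tau i)
      (fun g hg => mul_mem_M (tau_mem_M h i) hg.1)
      (by rw [slotSwap_tau, Equiv.swap_apply_left]) (tau_mem_Deg i)
      (fun f g _ _ h => h) (hT n h i i' hh ht)
      (Stable.ofMsym hD hS hh ht) (Stable.ofM hD hh) (Stable.ofMsym hD hS hh ht) a
  · rcases H with T | T
    · obtain ⟨h1, h2⟩ := hR n hm h0 hp i i' c T
      exact right_phi T.twinsM.lt (fun f hf => exists_diff T.twinsM (fun _ _ h => T.adjM_mid h) hf)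
        T.le_mid (fun f hf hs => T.fixed_mem hf hs) (tau c - tau i')
        (fun g hg => T.sec_mem hg)
        (by
          rw [map_sub, slotSwap_tau, slotSwap_tau, Equiv.swap_apply_right,
            Equiv.swap_apply_of_ne_of_ne (T.twinsM.lt.trans T.right).ne' T.right.ne']
          ring)
        (tau_sub_mem_Deg c i') (fun f g hf _ h => h1 f g hf h) h2
        (Stable.ofMsym hD hS T.hessP T.twinsP) (Stable.ofM hD T.hess0)
        (Stable.ofMsym hD hS T.hessM T.twinsM) a
    · obtain ⟨h1, h2⟩ := hL n hm h0 hp i i' c T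
      exact left_phi T h1 h2 (Stable.ofMsym hD hS T.hessM T.twinsM) (Stable.ofM hD T.hess0)
        (Stable.ofMsym hD hS T.hessP T.twinsP) a

end Vale.Agent.P066.Z
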