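import Mathlib
import Vale.Agent.P066.Z.Spec

/-!
# P066: the kernel of Z at two adjacent slots

For adjacent slots `i`, `i'` the sum defining `ZK` may be taken over the relation `Q`, invariant
under the exchange of the two slots on either side. Products over sets of edges stable under the
exchange are invariant as well.
-/

noncomputable section

namespace Vale.Agent.P066.Z

open Finset MvPolynomial

variable {n : ℕ}

lemma tK_ne {a b : Fin n} (h : a ≠ b) : tK (n := n) a - tK b ≠ 0 :=
  sub_ne_zero.2 fun e => h (MvPolynomial.X_injective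
    (IsFractionRing.injective (P n) (K n) e))

namespace Twin

/-- `Compat` without the condition at the first of two twin slots. -/
def Q [NeZero n] (i i' : Fin n) (w v : Equiv.Perm (Fin n)) : Prop :=
  ∀ j, w j ≠ 0 → v.symm (w j) ≤ if j = i then i' else j

lemma compat_iff [NeZero n] (w v : Equiv.Perm (Fin n)) :
    Compat w v ↔ ∀ j, w j ≠ 0 → v.symm (w j) ≤ j := by
  constructor
  · intro h j hj
    obtain ⟨k, hk, e⟩ := h j j le_rfl hj
    rw [← e]; simpa using hk
  · intro h m i him hi
    exact ⟨v.symm (w i), (h i hi).trans him, by simp⟩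

variable {h : Fin n → Fin n} {i i' : Fin n}

lemma swap_le (hs : i.1 + 1 = i'.1) {b k : Fin n} (hb : b ≠ i) (hk : k ≤ b) :
    Equiv.swap i i' k ≤ b := by
  rw [Fin.le_def] at hk ⊢
  have hb' : b.1 ≠ i.1 := fun e => hb (Fin.ext e)
  rw [Equiv.swap_apply_def]
  split_ifs with h1 h2
  · rw [← hs]; subst h1; omega
  · subst h2; omega
  · omega

lemma bound_ne (hs : i.1 + 1 = i'.1) (j : Fin n) : (if j = i then i' else j) ≠ i := by
  split_ifs with h
  · exact fun e => by rw [e] at hs; omega
  · exact h

lemma bound_swap (j : Fin n) :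
    (if Equiv.swap i i' j = i then i' else Equiv.swap i i' j) = if j = i then i' else j := by
  rcases eq_or_ne j i with rfl | h1
  · simp
  rcases eq_or_ne j i' with rfl | h2
  · simp [h1]
  · simp [Equiv.swap_apply_of_ne_of_ne h1 h2]

lemma Q_left [NeZero n] (w v : Equiv.Perm (Fin n)) :
    Q i i' (w * Equiv.swap i i') v ↔ Q i i' w v := by
  simp only [Q, Equiv.Perm.mul_apply]
  refine (Equiv.swap i i').forall_congr fun j => ?_
  rw [bound_swap]

lemma Q_right [NeZero n] (hs : i.1 + 1 = i'.1) (w v : Equiv.Perm (Fin n)) :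
    Q i i' w (v * Equiv.swap i i') ↔ Q i i' w v := by
  have e : ∀ x, (v * Equiv.swap i i').symm x = Equiv.swap i i' (v.symm x) := fun x => by
    rw [Equiv.symm_apply_eq]; simp
  simp only [Q, e]
  constructor <;> intro H j hj <;> have := swap_le hs (bound_ne hs j) (H j hj) <;> simpa using this

lemma ker_eq_zero [NeZero n] (hs : i.1 + 1 = i'.1) (he : Adj h i i') {w v : Equiv.Perm (Fin n)}
    (hQ : Q i i' w v) (hc : ¬ Compat w v) : ker h w v = 0 := by
  rw [compat_iff] at hc
  push Not at hc
  obtain ⟨j, hj, hlt⟩ := hc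
  have hb := hQ j hj
  split_ifs at hb with hji
  · subst hji
    have hv : v.symm (w j) = i' := le_antisymm hb (by rw [Fin.le_def, ← hs]; exact hlt)
    refine prod_eq_zero (i := (j, i')) (by simp [edges, he]) ?_
    rw [← hv]; simp
  · exact absurd hb (not_le.2 hlt)

open scoped Classical in
lemma ZK_eq [NeZero n] (hs : i.1 + 1 = i'.1) (he : Adj h i i') (f : Fn n)
    (w : Equiv.Perm (Fin n)) :
    ZK h f w = ∑ v ∈ univ.filter (fun v => Q i i' w v), ker h w v * algebraMap (P n) (K n) (f v) := by
  show ∑ v ∈ univ.filter (fun v => Compat w v), _ = _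
  refine sum_subset (fun v hv => ?_) fun v hv hv' => ?_
  · rw [mem_filter, compat_iff] at hv
    refine mem_filter.2 ⟨mem_univ _, fun j hj => (hv.2 j hj).trans ?_⟩
    split_ifs with hji
    · subst hji; rw [Fin.le_def]; omega
    · exact le_rfl
  · rw [ker_eq_zero hs he (mem_filter.1 hv).2 fun hc => hv' (mem_filter.2 ⟨mem_univ _, hc⟩),
      zero_mul]

/-- The product of the factors of a set of edges. -/
def prodE (R : Finset (Fin n × Fin n)) (w v : Equiv.Perm (Fin n)) : K n :=
  ∏ e ∈ R, (tK (v e.2) - tK (w e.1)) / (tK (v e.2) - tK (v e.1))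

/-- A set of edges stable under the exchange at either end. -/
def Stable (i i' : Fin n) (R : Finset (Fin n × Fin n)) : Prop :=
  ∀ e ∈ R, (Equiv.swap i i' e.1, e.2) ∈ R ∧ (e.1, Equiv.swap i i' e.2) ∈ R

lemma ker_eq_prodE (h : Fin n → Fin n) (w v : Equiv.Perm (Fin n)) :
    ker h w v = prodE (edges h) w v := rfl

lemma ker_eq (he : Adj h i i') (w v : Equiv.Perm (Fin n)) :
    ker h w v =
      (tK (v i') - tK (w i)) / (tK (v i') - tK (v i)) * prodE ((edges h).erase (i, i')) w v :=
  (mul_prod_erase _ _ (show (i, i') ∈ edges h by simp [edges, he])).symm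

variable {R : Finset (Fin n × Fin n)}

lemma prodE_left (hR : Stable i i' R) (w v : Equiv.Perm (Fin n)) :
    prodE R (w * Equiv.swap i i') v = prodE R w v := by
  rw [prodE, prodE, prod_div_distrib, prod_div_distrib]
  congr 1
  refine prod_nbij' (fun e => (Equiv.swap i i' e.1, e.2)) (fun e => (Equiv.swap i i' e.1, e.2))
    (fun e he => (hR e he).1) (fun e he => (hR e he).1) (fun e _ => by simp)
    (fun e _ => by simp) fun e _ => by simp

lemma prodE_right (hR : Stable i i' R) (w v : Equiv.Perm (Fin n)) :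
    prodE R w (v * Equiv.swap i i') = prodE R w v := by
  rw [prodE, prodE, prod_div_distrib, prod_div_distrib]
  congr 1
  · refine prod_nbij' (fun e => (e.1, Equiv.swap i i' e.2)) (fun e => (e.1, Equiv.swap i i' e.2))
      (fun e he => (hR e he).2) (fun e he => (hR e he).2) (fun e _ => by simp)
      (fun e _ => by simp) fun e _ => by simp
  · refine prod_nbij' (fun e => (Equiv.swap i i' e.1, Equiv.swap i i' e.2))
      (fun e => (Equiv.swap i i' e.1, Equiv.swap i i' e.2))
      (fun e he => (hR _ (hR e he).1).2) (fun e he => (hR _ (hR e he).1).2) (fun e _ => by simp)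
      (fun e _ => by simp) fun e _ => by simp

lemma stable_twins (hT : Twins h i i') : Stable i i' ((edges h).erase (i, i')) := by
  rintro ⟨a, b⟩ hm
  simp only [mem_erase, edges, mem_filter, mem_univ, true_and, ne_eq, Prod.mk.injEq] at hm ⊢
  obtain ⟨hne, hab⟩ := hm
  have hlt : a < b := hab.1
  have hs := hT.succ
  constructor
  · rcases eq_or_ne a i with rfl | h1
    · have hb : i' < b := by
        rw [Fin.lt_def] at hlt ⊢
        have : b.1 ≠ i'.1 := fun e => hne ⟨rfl, Fin.ext e⟩
        omega
      rw [Equiv.swap_apply_left]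
      exact ⟨fun e => by rw [Fin.lt_def] at hb; omega, (hT.after b hb).1 hab⟩
    rcases eq_or_ne a i' with rfl | h2
    · rw [Equiv.swap_apply_right]
      exact ⟨fun e => (ne_of_gt hlt) e.2, (hT.after b hlt).2 hab⟩
    rw [Equiv.swap_apply_of_ne_of_ne h1 h2]
    exact ⟨hne, hab⟩
  · rcases eq_or_ne b i with rfl | h1
    · rw [Equiv.swap_apply_left]
      exact ⟨fun e => (ne_of_lt hlt) e.1, (hT.before a hlt).1 hab⟩
    rcases eq_or_ne b i' with rfl | h2
    · have ha : a < i := by
        rw [Fin.lt_def] at hlt ⊢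
        have : a.1 ≠ i.1 := fun e => hne ⟨Fin.ext e, rfl⟩
        omega
      rw [Equiv.swap_apply_right]
      exact ⟨fun e => (ne_of_lt ha) e.1, (hT.before a ha).2 hab⟩
    rw [Equiv.swap_apply_of_ne_of_ne h1 h2]
    exact ⟨hne, hab⟩

open scoped Classical in
lemma sum_swap [NeZero n] (hs : i.1 + 1 = i'.1) (w : Equiv.Perm (Fin n))
    (F : Equiv.Perm (Fin n) → K n) :
    ∑ v ∈ univ.filter (fun v => Q i i' w v), F v =
      ∑ v ∈ univ.filter (fun v => Q i i' w v), F (v * Equiv.swap i i') := by
  have hinv : ∀ v, v ∈ univ.filter (fun v => Q i i' w v) →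
      v * Equiv.swap i i' ∈ univ.filter (fun v => Q i i' w v) := fun v hv =>
    mem_filter.2 ⟨mem_univ _, (Q_right hs w v).2 (mem_filter.1 hv).2⟩
  exact sum_nbij' (fun v => v * Equiv.swap i i') (fun v => v * Equiv.swap i i') hinv hinv
    (fun v _ => by simp [mul_assoc]) (fun v _ => by simp [mul_assoc])
    fun v _ => by simp [mul_assoc]

end Twin

end Vale.Agent.P066.Z
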