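import Mathlib
import Vale.Agent.P066.Z.TwinKer

/-!
# P066 E1: twins

Z commutes with the exchange and with the divided difference at two twin slots.
-/

noncomputable section

namespace Vale.Agent.P066.Z

open Finset MvPolynomial

namespace Twin

variable {n : ℕ} {h : Fin n → Fin n} {i i' : Fin n}

open scoped Classical in
lemma ZK_sub [NeZero n] (hT : Twins h i i') (f : Fn n) (w : Equiv.Perm (Fin n)) :
    ZK h f w - ZK h f (w * Equiv.swap i i') = ∑ v ∈ univ.filter (fun v => Q i i' w v),
      prodE ((edges h).erase (i, i')) w v * ((tK (w i') - tK (w i)) / (tK (v i') - tK (v i))) *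
        algebraMap (P n) (K n) (f v) := by
  rw [ZK_eq hT.succ hT.edge f w, ZK_eq hT.succ hT.edge f (w * Equiv.swap i i')]
  simp only [Q_left]
  rw [← sum_sub_distrib]
  refine sum_congr rfl fun v _ => ?_
  rw [ker_eq hT.edge, ker_eq hT.edge, prodE_left (stable_twins hT), Equiv.Perm.mul_apply, Equiv.swap_apply_left]
  ring

theorem sym : SymStmt := by
  intro n _ h i i' _ hT f g hf hg hZ
  refine ⟨hg, ?_⟩
  rw [SetLike.mem_coe, LinearMap.mem_ker]
  funext w
  simp only [LinearMap.sub_apply, LinearMap.id_apply, Pi.sub_apply, Pi.zero_apply, sub_eq_zero]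
  show g (w * Equiv.swap i i') = g w
  apply IsFractionRing.injective (P n) (K n)
  rw [hZ, hZ, eq_comm, ← sub_eq_zero, ZK_sub hT f w]
  have hsym : ∀ v, f (v * Equiv.swap i i') = f v := fun v =>
    sub_eq_zero.1 (congrFun (LinearMap.mem_ker.1 hf.2) v)
  refine CharZero.eq_neg_self_iff.1 ?_
  conv_lhs => rw [sum_swap hT.succ w]
  rw [← sum_neg_distrib]
  refine sum_congr rfl fun v _ => ?_
  simp only [hsym, prodE_right (stable_twins hT), Equiv.Perm.mul_apply, Equiv.swap_apply_left, Equiv.swap_apply_right]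
  rw [← neg_sub (tK (v i')) (tK (v i)), div_neg]
  ring

theorem twin : TwinStmt := by
  intro n _ h i i' _ hT f f' g g' hg hg' hd w
  have hne : i ≠ i' := fun e => by have := hT.succ; rw [e] at this; omega
  apply IsFractionRing.injective (P n) (K n)
  rw [map_mul, map_sub, map_sub, hg, hg, hg', ZK_sub hT f w, ZK_eq hT.succ hT.edge f' w]
  show (tK (w i) - tK (w i')) * _ = _
  rw [mul_sum]
  set φ := fun x => algebraMap (P n) (K n) x
  have hf' : ∀ v, φ (f' v) = (φ (f v) - φ (f (v * Equiv.swap i i'))) / (tK (v i) - tK (v i')) :=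
    fun v => by
      rw [eq_div_iff (tK_ne (v.injective.ne hne)), mul_comm]
      simp only [φ, tK, ← map_sub, ← map_mul, hd v]
  set X : Equiv.Perm (Fin n) → K n := fun v =>
    prodE ((edges h).erase (i, i')) w v * ((tK (v i') - tK (w i)) / (tK (v i') - tK (v i))) *
      ((tK (w i) - tK (w i')) / (tK (v i) - tK (v i')))
  have e : ∀ v, (tK (w i) - tK (w i')) * (ker h w v * φ (f' v)) =
      X v * φ (f v) - X v * φ (f (v * Equiv.swap i i')) := fun v => by
    simp only [X, hf' v, ker_eq hT.edge]
    ring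
  simp only [φ] at e ⊢
  rw [sum_congr rfl fun v _ => e v, sum_sub_distrib,
    sum_swap hT.succ w (fun v => X v * algebraMap (P n) (K n) (f (v * Equiv.swap i i'))),
    ← sum_sub_distrib]
  refine sum_congr rfl fun v _ => ?_
  simp only [X, prodE_right (stable_twins hT), Equiv.Perm.mul_apply, Equiv.swap_apply_left, Equiv.swap_apply_right,
    mul_assoc, Equiv.swap_mul_self, mul_one]
  have h2 : tK (v i') - tK (v i) ≠ 0 := tK_ne (v.injective.ne hne.symm)
  rw [← neg_sub (tK (v i')) (tK (v i))]
  field_simp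
  ring

end Twin

/-- E1, symmetry. -/
theorem sym : SymStmt := Twin.sym

/-- E1, divided difference. -/
theorem twins : TwinStmt := Twin.twin

end Vale.Agent.P066.Z
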