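import Mathlib
import Vale.Agent.P066.Z.Spec

/-!
# P066: the modular laws and the disjoint unions of cliques determine a function

* `eqTwins`: if no row has value `x` and `x` is joined to `x + 1`, then the value at `h` follows
  from the values at functions with the same rows before `x` and `h x = h (x + 1)`.
* `toPaths`: hence the values at disjoint unions of paths determine everything.
* `pathsVanish`: those follow from disjoint unions of cliques, through lollipops.
-/

noncomputable section

namespace Vale.Agent.P066.Z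

open Finset Function

variable {n : ℕ} {F : (Fin n → Fin n) → PowerSeries ℚ} {h : Fin n → Fin n}

theorem isHess_update (hh : IsHess h) {c j : Fin n} (hcj : c ≤ j) (hlo : ∀ u, u < c → h u ≤ j)
    (hhi : ∀ u, c < u → j ≤ h u) : IsHess (update h c j) where
  mono := by
    intro a b hab
    simp only [update_apply]
    split_ifs with ha hb hb
    · exact le_rfl
    · exact hhi b (lt_of_le_of_ne (ha ▸ hab) (Ne.symm hb))
    · exact hlo a (lt_of_le_of_ne (hb ▸ hab) ha)
    · exact hh.mono hab
  le := by
    intro a
    simp only [update_apply]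
    split_ifs with ha
    · exact ha ▸ hcj
    · exact hh.le a

/-- Two consecutive rows with consecutive values form the middle of a right triple. -/
theorem tripleR_of (hh : IsHess h) {x x' : Fin n} (hs : x.1 + 1 = x'.1) (hedge : x' ≤ h x)
    (hgap : (h x).1 + 1 = (h x').1) (hno : ∀ u, h u ≠ x) :
    TripleR (update h x' (h x)) h (update h x (h x')) x x' (h x') := by
  have hxx : x ≠ x' := by intro e; subst e; omega
  have hhitv : ∀ u, (h u).1 ≠ x.1 := fun u e => hno u (Fin.ext e)
  have hmono : ∀ {a b : Fin n}, a ≤ b → (h a).1 ≤ (h b).1 := fun hab => hh.mono hab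
  simp only [Fin.le_def] at hedge
  refine ⟨isHess_update hh ?_ ?_ ?_, hh, isHess_update hh ?_ ?_ ?_, ⟨hs, ?_, ?_, ?_⟩,
    ⟨hs, ?_, ?_, ?_⟩, ?_, ?_, ?_, ?_⟩
  · simp only [Fin.le_def]; omega
  · intro u hu
    simp only [Fin.lt_def] at hu
    have := hmono (a := u) (b := x) (by simp only [Fin.le_def]; omega)
    simp only [Fin.le_def]; omega
  · intro u hu
    simp only [Fin.lt_def] at hu
    have := hmono (a := x) (b := u) (by simp only [Fin.le_def]; omega)
    simp only [Fin.le_def]; omega
  · simp only [Fin.le_def]; omega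
  · intro u hu
    simp only [Fin.lt_def] at hu
    have := hmono (a := u) (b := x') (by simp only [Fin.le_def]; omega)
    simp only [Fin.le_def]; omega
  · intro u hu
    simp only [Fin.lt_def] at hu
    have := hmono (a := x') (b := u) (by simp only [Fin.le_def]; omega)
    simp only [Fin.le_def]; omega
  · simp only [Adj, update_of_ne hxx, Fin.le_def, Fin.lt_def]; omega
  · intro u hu
    have hu' : u ≠ x' := by intro e; subst e; simp only [Fin.lt_def] at hu; omega
    simp only [Adj, update_of_ne hu', Fin.le_def, Fin.lt_def] at hu ⊢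
    have := hhitv u
    omega
  · intro u hu
    simp only [Adj, update_of_ne hxx, update_self, Fin.le_def, Fin.lt_def] at hu ⊢
    omega
  · simp only [Adj, update_self, Fin.le_def, Fin.lt_def]; omega
  · intro u hu
    have hu' : u ≠ x := ne_of_lt hu
    simp only [Adj, update_of_ne hu', Fin.le_def, Fin.lt_def] at hu ⊢
    have := hhitv u
    omega
  · intro u hu
    simp only [Adj, update_of_ne (Ne.symm hxx), update_self, Fin.le_def, Fin.lt_def] at hu ⊢
    omega
  · simp only [Fin.lt_def]; omega
  · simp only [Adj, update_of_ne hxx, update_self, Fin.le_def, Fin.lt_def]; omega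
  · intro a b
    simp only [Adj, update_apply, Fin.le_def, Fin.lt_def, Fin.ext_iff]
    split_ifs with ha
    · rw [Fin.ext ha]; omega
    · omega
  · intro a b
    simp only [Adj, update_apply, Fin.le_def, Fin.lt_def, Fin.ext_iff]
    split_ifs with ha
    · rw [Fin.ext ha]; omega
    · omega

/-- A row ending at the second of two twins is the top of a left triple. -/
theorem tripleL_of (hh : IsHess h) {c j i i' : Fin n} (hi : i.1 + 1 = i'.1) (hj : j.1 + 1 = i.1)
    (hc : h c = i') (hci : c < i) (htw : h i = h i') (hno : ∀ u, h u ≠ i)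
    (hlo : ∀ u, u < c → h u ≤ j) :
    TripleL (update h c j) (update h c i) h i i' c := by
  have hv : ∀ u, (h u).1 ≠ i.1 := fun u e => hno u (Fin.ext e)
  have hle : (i'.1) ≤ (h i').1 := hh.le i'
  simp only [Fin.lt_def] at hci
  have hic : i ≠ c := by intro e; subst e; omega
  have hi'c : i' ≠ c := by intro e; subst e; omega
  have hhi : ∀ u, c < u → i' ≤ h u := fun u hu => hc ▸ hh.mono hu.le
  refine ⟨isHess_update hh ?_ hlo ?_, isHess_update hh ?_ ?_ ?_, hh, ⟨hi, ?_, ?_, ?_⟩,
    ⟨hi, ?_, ?_, ?_⟩, ?_, ?_, ?_, ?_⟩
  · simp only [Fin.le_def]; omega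
  · intro u hu
    have := hhi u hu
    simp only [Fin.le_def] at this ⊢
    omega
  · simp only [Fin.le_def]; omega
  · intro u hu
    have := hlo u hu
    simp only [Fin.le_def] at this ⊢
    omega
  · intro u hu
    have := hhi u hu
    simp only [Fin.le_def] at this ⊢
    omega
  · simp only [Adj, update_of_ne hic, htw, Fin.le_def, Fin.lt_def]; omega
  · intro u hu
    simp only [Adj, update_apply, Fin.le_def, Fin.lt_def] at hu ⊢
    have := hv u
    split_ifs <;> omega
  · intro u hu
    simp only [Adj, update_of_ne hic, update_of_ne hi'c, htw, Fin.le_def, Fin.lt_def] at hu ⊢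
    omega
  · simp only [Adj, htw, Fin.le_def, Fin.lt_def]; omega
  · intro u hu
    simp only [Adj, Fin.le_def, Fin.lt_def] at hu ⊢
    have := hv u
    omega
  · intro u hu
    simp only [Adj, htw, Fin.le_def, Fin.lt_def] at hu ⊢
    omega
  · simp only [Fin.lt_def]; omega
  · simp only [Adj, update_self, Fin.le_def, Fin.lt_def]; omega
  · intro a b
    simp only [Adj, update_apply, Fin.le_def, Fin.lt_def, Fin.ext_iff]
    split_ifs with ha <;> omega
  · intro a b
    simp only [Adj, update_apply, Fin.le_def, Fin.lt_def, Fin.ext_iff]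
    split_ifs with ha
    · rw [Fin.ext ha, hc]; omega
    · omega

theorem one_add_X_ne_zero : (1 + PowerSeries.X : PowerSeries ℚ) ≠ 0 := fun e => by
  simpa using congrArg PowerSeries.constantCoeff e

theorem mid_zero (hF : Modular F) {hm h0 hp : Fin n → Fin n} {i i' c : Fin n}
    (ht : TripleR hm h0 hp i i' c ∨ TripleL hm h0 hp i i' c) (h1 : F hm = 0) (h2 : F hp = 0) :
    F h0 = 0 := by
  have e := hF hm h0 hp i i' c ht
  rw [h1, h2, mul_zero, add_zero] at e
  exact (mul_eq_zero.1 e).resolve_left one_add_X_ne_zero

theorem top_zero (hF : Modular F) {hm h0 hp : Fin n → Fin n} {i i' c : Fin n}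
    (ht : TripleR hm h0 hp i i' c ∨ TripleL hm h0 hp i i' c) (h1 : F hm = 0) (h2 : F h0 = 0) :
    F hp = 0 := by
  have e := hF hm h0 hp i i' c ht
  rw [h1, h2, mul_zero, mul_zero, add_zero] at e
  exact e.symm

/-- Reduction to `h x = h (x + 1)`, with the rows before `x` unchanged. -/
theorem eqTwins (hF : Modular F) : ∀ (k : ℕ) (x x' : Fin n), n - x.1 = k → x.1 + 1 = x'.1 →
    ∀ (g : ℕ) (h : Fin n → Fin n), (h x').1 - (h x).1 = g → IsHess h → x' ≤ h x →
    (∀ u, h u ≠ x) →
    (∀ h' : Fin n → Fin n, IsHess h' → (∀ u, u < x → h' u = h u) → h' x = h' x' → F h' = 0) →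
    F h = 0 := by
  intro k
  induction k using Nat.strong_induction_on with
  | _ k ihk =>
  intro x x' hk hs g
  induction g using Nat.strong_induction_on with
  | _ g ihg =>
  intro h hg hh hedge hno H
  have hxx : x ≠ x' := by intro e; subst e; omega
  have hmx : (h x).1 ≤ (h x').1 := hh.mono (by simp only [Fin.le_def]; omega)
  rcases Nat.lt_trichotomy g 1 with hg1 | hg1 | hg1
  · exact H h hh (fun _ _ => rfl) (Fin.ext (by omega))
  · have ht := tripleR_of hh hs hedge (by omega) hno
    refine mid_zero hF (Or.inl ht) (H _ ht.hessM (fun u hu => ?_) ?_) (H _ ht.hessP (fun u hu => ?_) ?_)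
    · exact update_of_ne (fun e => by subst e; simp only [Fin.lt_def] at hu; omega) _ _
    · rw [update_self, update_of_ne hxx]
    · exact update_of_ne (ne_of_lt hu) _ _
    · rw [update_self, update_of_ne (Ne.symm hxx)]
  · -- lower `h x'` by one and by two
    simp only [Fin.le_def] at hedge
    have hbn := (h x').isLt
    let y : Fin n := ⟨(h x').1 - 1, by omega⟩
    let z : Fin n := ⟨(h x').1 - 2, by omega⟩
    have hy : y.1 = (h x').1 - 1 := rfl
    have hz : z.1 = (h x').1 - 2 := rfl
    have hlow : ∀ u, u ≤ x → (h u).1 ≤ (h x).1 := fun u hu => hh.mono hu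
    have hhigh : ∀ u, x' ≤ u → (h x').1 ≤ (h u).1 := fun u hu => hh.mono hu
    have hnoy : ∀ u, h u ≠ y := by
      intro u e
      have e' : (h u).1 = y.1 := congrArg Fin.val e
      by_cases hu : u ≤ x
      · have := hlow u hu; omega
      · have := hhigh u (by simp only [Fin.le_def] at hu ⊢; omega); omega
    have hey : h x' ≤ h y := hh.mono (by simp only [Fin.le_def]; omega)
    refine ihk (n - y.1) (by omega) y (h x') rfl (by omega) _ h rfl hh hey hnoy ?_
    intro h' hh' hagree htw
    have hax : ∀ u, u ≤ x' → h' u = h u := fun u hu =>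
      hagree u (by simp only [Fin.le_def] at hu; simp only [Fin.lt_def]; omega)
    have hx' : h' x' = h x' := hax x' le_rfl
    have hno' : ∀ u, h' u ≠ y := by
      intro u e
      have e' : (h' u).1 = y.1 := congrArg Fin.val e
      by_cases hu : u ≤ x'
      · exact hnoy u (hax u hu ▸ e)
      · have : (h' x').1 ≤ (h' u).1 := hh'.mono (le_of_not_ge hu)
        rw [hx'] at this
        omega
    have ht := tripleL_of (c := x') (j := z) (i := y) hh' (by omega) (by omega) hx'
      (by simp only [Fin.lt_def]; omega) htw hno' (fun u hu => by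
        have h1 := hlow u (by simp only [Fin.le_def, Fin.lt_def] at hu ⊢; omega)
        rw [hax u hu.le]; simp only [Fin.le_def]; omega)
    have key : ∀ w : Fin n, (h x).1 ≤ w.1 → w.1 < (h x').1 → IsHess (update h' x' w) →
        F (update h' x' w) = 0 := by
      intro w hw1 hw2 hhw
      have hsame : ∀ u, u ≤ x → update h' x' w u = h u := fun u hu => by
        rw [update_of_ne (fun e => by subst e; simp only [Fin.le_def] at hu; omega),
          hax u (by simp only [Fin.le_def] at hu ⊢; omega)]
      refine ihg (w.1 - (h x).1) (by omega) _ ?_ hhw ?_ ?_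
        (fun h'' hh'' ha'' he'' => H h'' hh'' (fun u hu => (ha'' u hu).trans (hsame u hu.le)) he'')
      · rw [update_self, hsame x le_rfl]
      · rw [hsame x le_rfl]; simp only [Fin.le_def]; omega
      · intro u e
        by_cases hu : u ≤ x
        · exact hno u (hsame u hu ▸ e)
        · have : (update h' x' w x').1 ≤ (update h' x' w u).1 :=
            hhw.mono (by simp only [Fin.le_def] at hu ⊢; omega)
          rw [update_self, e] at this
          omega
    exact top_zero hF (Or.inr ht) (key z (by omega) (by omega) ht.hessM)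
      (key y (by omega) (by omega) ht.hess0)

/-- Disjoint unions of paths determine everything. -/
theorem toPaths (hF : Modular F)
    (hP : ∀ h : Fin n → Fin n, IsHess h → (∀ u, (h u).1 ≤ u.1 + 1) → F h = 0) :
    ∀ (k s : ℕ), n - s = k → ∀ h : Fin n → Fin n, IsHess h →
      (∀ u, u.1 < s → (h u).1 ≤ u.1 + 1) → F h = 0 := by
  intro k
  induction k using Nat.strong_induction_on with
  | _ k ihk =>
  intro s hk h hh hpre
  by_cases hs : n ≤ s
  · exact hP h hh fun u => hpre u (by omega)
  let x : Fin n := ⟨s, by omega⟩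
  have hxs : x.1 = s := rfl
  suffices H : ∀ v : ℕ, ∀ h : Fin n → Fin n, (h x).1 = v → IsHess h →
      (∀ u, u.1 < s → (h u).1 ≤ u.1 + 1) → F h = 0 from H _ h rfl hh hpre
  intro v
  induction v using Nat.strong_induction_on with
  | _ v ihv =>
  intro h hv hh hpre
  by_cases hv2 : v ≤ s + 1
  · refine ihk (n - (s + 1)) (by omega) (s + 1) rfl h hh fun u hu => ?_
    by_cases he : u.1 = s
    · have : u = x := Fin.ext he
      subst this; omega
    · exact hpre u (by omega)
  have hvn := (h x).isLt
  let y : Fin n := ⟨v - 1, by omega⟩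
  let z : Fin n := ⟨v - 2, by omega⟩
  have hy : y.1 = v - 1 := rfl
  have hz : z.1 = v - 2 := rfl
  have hnoy : ∀ h' : Fin n → Fin n, IsHess h' → (∀ u, u < y → h' u = h u) → ∀ u, h' u ≠ y := by
    intro h' hh' ha u e
    have e' : (h' u).1 = y.1 := congrArg Fin.val e
    by_cases hu : u.1 < s
    · rw [ha u (by simp only [Fin.lt_def]; omega)] at e'
      have := hpre u hu
      omega
    · have : (h' x).1 ≤ (h' u).1 := hh'.mono (by simp only [Fin.le_def]; omega)
      rw [ha x (by simp only [Fin.lt_def]; omega)] at this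
      omega
  refine eqTwins hF _ y (h x) rfl (by omega) _ h rfl hh
    (hh.mono (by simp only [Fin.le_def]; omega)) (hnoy h hh fun _ _ => rfl) ?_
  intro h' hh' ha htw
  have ht := tripleL_of (c := x) (j := z) (i := y) hh' (by omega) (by omega)
    (ha x (by simp only [Fin.lt_def]; omega)) (by simp only [Fin.lt_def]; omega) htw
    (hnoy h' hh' ha) (fun u hu => by
      simp only [Fin.lt_def] at hu
      have := hpre u (by omega)
      rw [ha u (by simp only [Fin.lt_def]; omega)]
      simp only [Fin.le_def]; omega)
  have key : ∀ w : Fin n, w.1 < v → IsHess (update h' x w) → F (update h' x w) = 0 := by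
    intro w hw hhw
    refine ihv w.1 hw _ (by rw [update_self]) hhw fun u hu => ?_
    rw [update_of_ne (fun e => by subst e; omega), ha u (by simp only [Fin.lt_def]; omega)]
    exact hpre u hu
  exact top_zero hF (Or.inr ht) (key z (by omega) ht.hessM) (key y (by omega) ht.hess0)

/-- A sequence satisfying the modular recurrence with zeros at both ends is zero. -/
theorem recurrence_zero (m : ℕ) (Y : ℕ → PowerSeries ℚ)
    (hrec : ∀ j, j < m → (1 + PowerSeries.X) * Y (j + 1) = Y (j + 2) + PowerSeries.X * Y j)
    (h0 : Y 0 = 0) (h1 : Y (m + 1) = 0) : Y 1 = 0 := by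
  have hd : ∀ j, j ≤ m → Y (j + 1) - Y j = PowerSeries.X ^ j * Y 1 := by
    intro j
    induction j with
    | zero => intro _; simp [h0]
    | succ j ih =>
      intro hj
      linear_combination -(hrec j (by omega)) + PowerSeries.X * ih (by omega)
  have hsum : (∑ j ∈ range (m + 1), PowerSeries.X ^ j) * Y 1 = 0 := by
    rw [sum_mul, ← sum_congr rfl fun j hj => hd j (by simp only [mem_range] at hj; omega),
      sum_range_sub, h0, h1, sub_zero]
  refine (mul_eq_zero.1 hsum).resolve_left fun e => ?_
  have := congrArg PowerSeries.constantCoeff e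
  simp [sum_range_succ'] at this

/-- Rows `[s, p)` have value `a` and rows `[p, a]` have value `b`. -/
def block (h : Fin n → Fin n) (a b : Fin n) (s p : ℕ) : Fin n → Fin n := fun u =>
  if s ≤ u.1 ∧ u.1 ≤ a.1 then (if u.1 < p then a else b) else h u

/-- A lollipop state: cliques before `s`, the rows `[s, a)` have value `a`, a path from `a` on. -/
structure Lolli (h : Fin n → Fin n) (s : ℕ) (a : Fin n) : Prop where
  hess : IsHess h
  closed : ∀ u, u.1 < s → (h u).1 < s ∧ ∀ j, u ≤ j → j ≤ h u → h j = h u
  sa : s ≤ a.1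
  full : ∀ u, s ≤ u.1 → u.1 < a.1 → h u = a
  path : ∀ u, a ≤ u → (h u).1 ≤ u.1 + 1

theorem pathsVanish (hF : Modular F)
    (hC : ∀ h, IsHess h → CliqueUnion h → F h = 0) :
    ∀ (k s : ℕ), n - s = k → ∀ h : Fin n → Fin n, IsHess h →
      (∀ u, u.1 < s → (h u).1 < s ∧ ∀ j, u ≤ j → j ≤ h u → h j = h u) →
      (∀ u, s ≤ u.1 → (h u).1 ≤ u.1 + 1) → F h = 0 := by
  intro k
  induction k using Nat.strong_induction_on with
  | _ k ihk =>
  intro s hk h hh hclosed hpath
  by_cases hs : n ≤ s
  · exact hC h hh fun i j hij hjh => (hclosed i (by omega)).2 j hij hjh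
  suffices H : ∀ (m : ℕ) (a : Fin n) (h : Fin n → Fin n), n - a.1 = m → Lolli h s a → F h = 0 by
    refine H _ ⟨s, by omega⟩ h rfl ⟨hh, hclosed, le_rfl, fun u h1 h2 => ?_, fun u hu => hpath u ?_⟩
    · exact absurd h2 (by simp only [not_lt]; exact h1)
    · exact hu
  intro m
  induction m using Nat.strong_induction_on with
  | _ m ihm =>
  intro a h hm L
  have hsa := L.sa
  -- the states whose block from `s` is closed
  have closedCase : ∀ g : Fin n → Fin n, IsHess g → (∀ u, u.1 < s → g u = h u) →
      (∀ u, s ≤ u.1 → u.1 ≤ a.1 → g u = a) → (∀ u, a < u → g u = h u) → F g = 0 := by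
    intro g hg hpre hblk hpost
    refine ihk (n - (a.1 + 1)) (by omega) (a.1 + 1) rfl g hg (fun u hu => ?_) fun u hu => ?_
    · by_cases hus : u.1 < s
      · rw [hpre u hus]
        obtain ⟨h1, h2⟩ := L.closed u hus
        refine ⟨by omega, fun j hj1 hj2 => ?_⟩
        simp only [Fin.le_def] at hj2
        rw [hpre j (by omega)]
        exact h2 j hj1 (by simp only [Fin.le_def]; omega)
      · rw [hblk u (by omega) (by omega)]
        refine ⟨by omega, fun j hj1 hj2 => hblk j ?_ ?_⟩
        · simp only [Fin.le_def] at hj1; omega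
        · exact hj2
    · rw [hpost u (by simp only [Fin.lt_def]; omega)]
      exact L.path u (by simp only [Fin.le_def]; omega)
  have hha : (h a).1 ≤ a.1 + 1 := L.path a le_rfl
  have hha' : a.1 ≤ (h a).1 := L.hess.le a
  by_cases hca : (h a).1 = a.1
  · refine closedCase h L.hess (fun _ _ => rfl) (fun u h1 h2 => ?_) fun _ _ => rfl
    by_cases he : u.1 = a.1
    · rw [Fin.ext he]; exact Fin.ext hca
    · exact L.full u h1 (by omega)
  have hb : (h a).1 = a.1 + 1 := by omega
  set b := h a with hbdef
  have hbn := b.isLt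
  -- the chain
  have hblock : ∀ p, IsHess (block h a b s p) := by
    intro p
    have hlow : ∀ u : Fin n, u.1 < s → (h u).1 < s := fun u hu => (L.closed u hu).1
    have hhigh : ∀ u, a < u → b.1 ≤ (h u).1 := fun u hu => L.hess.mono hu.le
    refine ⟨fun u v huv => ?_, fun u => ?_⟩
    · have hmuv : (h u).1 ≤ (h v).1 := L.hess.mono huv
      have hu1 := hlow u
      have hv2 := hhigh v
      simp only [Fin.lt_def] at hv2
      simp only [Fin.le_def, block] at huv ⊢
      split_ifs <;> omega
    · have hu := L.hess.le u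
      simp only [Fin.le_def, block] at hu ⊢
      split_ifs <;> omega
  have hne : ∀ (p : ℕ) (u : Fin n), s ≤ u.1 → u.1 ≤ a.1 →
      block h a b s p u = if u.1 < p then a else b := fun p u h1 h2 => by
    simp [block, h1, h2]
  let Y : ℕ → PowerSeries ℚ := fun j => F (block h a b s (a.1 + 1 - j))
  have hY0 : Y 0 = 0 := by
    refine closedCase _ (hblock _) (fun u hu => ?_) (fun u h1 h2 => ?_) fun u hu => ?_
    · simp [block, show ¬ s ≤ u.1 by omega]
    · rw [hne _ u h1 h2, if_pos (by omega)]
    · simp only [Fin.lt_def] at hu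
      simp [block, show ¬ u.1 ≤ a.1 by omega]
  have hYlast : Y (a.1 - s + 1) = 0 := by
    refine ihm (n - b.1) (by omega) b _ rfl
      ⟨hblock _, fun u hu => ?_, by omega, fun u h1 h2 => ?_, fun u hu => ?_⟩
    · obtain ⟨h1, h2⟩ := L.closed u hu
      have e : ∀ j : Fin n, j.1 < s → block h a b s (a.1 + 1 - (a.1 - s + 1)) j = h j := fun j hj => by
        simp [block, show ¬ s ≤ j.1 by omega]
      rw [e u hu]
      refine ⟨h1, fun j hj1 hj2 => ?_⟩
      simp only [Fin.le_def] at hj2
      rw [e j (by omega)]
      exact h2 j hj1 (by simp only [Fin.le_def]; omega)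
    · rw [hne _ u h1 (by omega), if_neg (by omega)]
    · simp only [Fin.le_def] at hu
      have := L.path u (by simp only [Fin.le_def]; omega)
      simp [block, show ¬ u.1 ≤ a.1 by omega, this]
  have hrec : ∀ j, j < a.1 - s →
      (1 + PowerSeries.X) * Y (j + 1) = Y (j + 2) + PowerSeries.X * Y j := by
    intro j hj
    let x : Fin n := ⟨a.1 - j - 1, by omega⟩
    let x' : Fin n := ⟨a.1 - j, by omega⟩
    have hx : x.1 = a.1 - j - 1 := rfl
    have hx' : x'.1 = a.1 - j := rfl
    set g := block h a b s (a.1 + 1 - (j + 1)) with hgdef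
    have gx : g x = a := by rw [hgdef, hne _ x (by omega) (by omega), if_pos (by omega)]
    have gx' : g x' = b := by rw [hgdef, hne _ x' (by omega) (by omega), if_neg (by omega)]
    have hno : ∀ u, g u ≠ x := by
      intro u e
      have e' : (g u).1 = x.1 := congrArg Fin.val e
      have h1 : u.1 < s → (h u).1 < s := fun hu => (L.closed u hu).1
      have h2 : a < u → b.1 ≤ (h u).1 := fun hu => L.hess.mono hu.le
      simp only [Fin.lt_def] at h2
      simp only [hgdef, block] at e'
      split_ifs at e' <;> omega
    have ht := tripleR_of (hblock _) (x := x) (x' := x') (by omega)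
      (by rw [← hgdef, gx]; simp only [Fin.le_def]; omega) (by rw [← hgdef, gx, gx']; omega) hno
    have e := hF _ _ _ _ _ _ (Or.inl ht)
    rw [← hgdef, gx, gx'] at e
    have e1 : update g x b = block h a b s (a.1 + 1 - (j + 2)) := by
      funext u
      simp only [update_apply, hgdef, block, Fin.ext_iff]
      split_ifs <;> omega
    have e2 : update g x' a = block h a b s (a.1 + 1 - j) := by
      funext u
      simp only [update_apply, hgdef, block, Fin.ext_iff]
      split_ifs <;> omega
    rw [e1, e2] at e
    exact e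
  have h1 := recurrence_zero (a.1 - s) Y hrec hY0 hYlast
  have : block h a b s (a.1 + 1 - 1) = h := by
    funext u
    simp only [block]
    split_ifs with hu hua
    · exact (L.full u hu.1 (by omega)).symm
    · rw [hbdef]; exact congrArg h (Fin.ext (by omega))
    · rfl
  rw [← this]
  exact h1

theorem uniqueStmt : UniqueStmt := by
  intro n F hF hC h hh
  refine toPaths hF (fun g hg hpath => ?_) n 0 rfl h hh fun u hu => absurd hu (Nat.not_lt_zero _)
  exact pathsVanish hF hC n 0 rfl g hg (fun u hu => absurd hu (Nat.not_lt_zero _))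
    fun u _ => hpath u

end Vale.Agent.P066.Z
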