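import Mathlib
import Vale.Agent.P066.Z.Final
import Vale.Agent.P066.Z.ActPow
import Vale.Agent.P066.Z.Exists
import Vale.Agent.P066.Z.Twins
import Vale.Agent.P066.Z.Right
import Vale.Agent.P066.Z.Left
import Vale.Agent.P066.Z.Split
import Vale.Agent.P066.Z.Base
import Vale.Agent.P066.Z.Chi
import Vale.Agent.P066.Z.Unique
import Vale.Agent.P066.Z.Interp
import Vale.Agent.P066.Z.Pos

/-!
# P066: Shareshian-Wachs positivity
-/

namespace Vale.Agent.P066.Z

/-- Every natural unit interval graph has an `e`-positive chromatic quasisymmetric function. -/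
theorem ePositive {n : ℕ} {h : Fin n → Fin n} (hh : IsHess h) : EPositive h :=
  ePositive_of (split existsZ sym twins right left) base uniqueStmt chi_stmt interp pos
    (tracePow existsZ sym) h hh

end Vale.Agent.P066.Z
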